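import Crest.Agent.SCS.PTLib
import Crest.Prelude.Def_Depth3

/-! A polynomial-time language whose restrictions form a small-bias family (powering construction). -/

set_option autoImplicit false
set_option linter.dupNamespace false

namespace Crest.Agent.D3.BiasAux

open Crest.Agent.PT Finset

/-- Multiplication by the generator. -/
def mulT (l : ℕ) (h u : List Bool) : List Bool :=
  mapRange l fun i => Bool.xor ((false :: u).getD i false) (u.getD (l - 1) false && h.getD i false)

/-- One Horner step. -/
def mstep (l : ℕ) (h v acc : List Bool) (c : Bool) : List Bool :=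
  mapRange l fun i => Bool.xor ((mulT l h acc).getD i false) (c && v.getD i false)

/-- Multiplication. -/
def mulL (l : ℕ) (h u v : List Bool) : List Bool :=
  (mapRange l fun i => u.getD i false).reverse.foldl (mstep l h v) []

/-- One square-and-multiply step. -/
def pstep (l : ℕ) (h a acc : List Bool) (c : Bool) : List Bool :=
  cond c (mulL l h (mulL l h acc acc) a) (mulL l h acc acc)

/-- Powering. -/
def powL (l : ℕ) (h a x : List Bool) : List Bool := x.foldl (pstep l h a) [true]

/-- Inner product modulo two. -/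
def ipL (l : ℕ) (u b : List Bool) : Bool :=
  (∑ i ∈ range l, cond (u.getD i false && b.getD i false) 1 0 : ℕ).bodd

/-- A slice of the input. -/
def slice (w : List Bool) (s l : ℕ) : List Bool := mapRange l fun i => w.getD (s + i) false

/-- The test. -/
def test (c : ℕ) (w : List Bool) : Bool :=
  ipL (c * (w.length / (3 * c + 1)))
    (powL (c * (w.length / (3 * c + 1)))
      (slice w (w.length / (3 * c + 1)) (c * (w.length / (3 * c + 1))))
      (slice w (w.length / (3 * c + 1) + c * (w.length / (3 * c + 1)))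
        (c * (w.length / (3 * c + 1))))
      (slice w 0 (w.length / (3 * c + 1))))
    (slice w (w.length / (3 * c + 1) + 2 * (c * (w.length / (3 * c + 1))))
      (c * (w.length / (3 * c + 1))))

section PTs
variable {α : Type} [Enc α]

lemma sz_mapRange (l : ℕ) (f : ℕ → Bool) : sz (mapRange l f) ≤ 3 * l := by
  have : ∀ L : List Bool, sz L ≤ 3 * L.length := by
    intro L
    induction L with
    | nil => simp
    | cons b L ih => have := sz_bool b; simp only [sz_cons, List.length_cons]; omega
  simpa [mapRange] using this (mapRange l f)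

lemma pt_mulT {l : α → ℕ} {h u : α → List Bool} (hb : PB l) (hl : PT l) (hh : PT h) (hu : PT u) :
    PT fun a => mulT (l a) (h a) (u a) := by
  unfold mulT
  refine Crest.Agent.PT.PT.mapRange hb hl ?_
  fun_prop

lemma pt_mstep {l : α → ℕ} {h v acc : α → List Bool} {c : α → Bool} (hb : PB l) (hl : PT l)
    (hh : PT h) (hv : PT v) (hacc : PT acc) (hc : PT c) :
    PT fun a => mstep (l a) (h a) (v a) (acc a) (c a) := by
  unfold mstep
  have h1 := pt_mulT hb hl hh hacc
  refine Crest.Agent.PT.PT.mapRange hb hl ?_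
  have h2 : PT fun x : α × Un => mulT (l x.1) (h x.1) (acc x.1) :=
    h1.comp (f := fun x : α × Un => x.1) (by fun_prop)
  refine PT.xor (PT.getD h2 (by fun_prop) (by fun_prop)) (by fun_prop)

lemma sz_foldl_mstep (l : ℕ) (h v : List Bool) (L : List Bool) (s : List Bool)
    (hs : sz s ≤ 3 * l) : sz (L.foldl (mstep l h v) s) ≤ 3 * l := by
  induction L generalizing s with
  | nil => exact hs
  | cons b L ih => exact ih _ (sz_mapRange _ _)

lemma sz_mulL (l : ℕ) (h u v : List Bool) : sz (mulL l h u v) ≤ 3 * l :=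
  sz_foldl_mstep _ _ _ _ _ (by simp)

lemma pt_mulL {l : α → ℕ} {h u v : α → List Bool} (hb : PB l) (hl : PT l)
    (hh : PT h) (hu : PT u) (hv : PT v) : PT fun a => mulL (l a) (h a) (u a) (v a) := by
  unfold mulL
  refine PT.foldl (f := fun a => mstep (l a) (h a) (v a)) ?_
    (PT.reverse (Crest.Agent.PT.PT.mapRange hb hl (by fun_prop))) (PT.const _) (t := fun a => 3 * l a)
    (by fun_prop) fun a l' _ => sz_foldl_mstep _ _ _ _ _ (by simp)
  exact pt_mstep (hb.comp (f := fun x : α × List Bool × Bool => x.1) (by fun_prop)) (by fun_prop)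
    (by fun_prop) (by fun_prop) (by fun_prop) (by fun_prop)

lemma pt_pstep {l : α → ℕ} {h v acc : α → List Bool} {c : α → Bool} (hb : PB l) (hl : PT l)
    (hh : PT h) (hv : PT v) (hacc : PT acc) (hc : PT c) :
    PT fun a => pstep (l a) (h a) (v a) (acc a) (c a) := by
  unfold pstep
  have h1 := pt_mulL hb hl hh hacc hacc
  exact PT.cond hc (pt_mulL hb hl hh h1 hv) h1

lemma sz_foldl_pstep (l : ℕ) (h v : List Bool) (L : List Bool) (s : List Bool)
    (hs : sz s ≤ 3 * l + 3) : sz (L.foldl (pstep l h v) s) ≤ 3 * l + 3 := by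
  induction L generalizing s with
  | nil => exact hs
  | cons b L ih =>
    refine ih _ ?_
    cases b
    · exact (sz_mulL _ _ _ _).trans (by omega)
    · exact (sz_mulL _ _ _ _).trans (by omega)

lemma pt_powL {l : α → ℕ} {h v x : α → List Bool} (hb : PB l) (hl : PT l)
    (hh : PT h) (hv : PT v) (hx : PT x) : PT fun a => powL (l a) (h a) (v a) (x a) := by
  unfold powL
  refine PT.foldl (f := fun a => pstep (l a) (h a) (v a)) ?_
    hx (PT.const _) (t := fun a => 3 * l a + 3)
    (by fun_prop) fun a l' _ => sz_foldl_pstep _ _ _ _ _ ?_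
  · exact pt_pstep (hb.comp (f := fun x : α × List Bool × Bool => x.1) (by fun_prop)) (by fun_prop)
      (by fun_prop) (by fun_prop) (by fun_prop) (by fun_prop)
  · have := sz_bool true
    simp only [sz_cons, sz_nil]; omega

lemma pt_ipL {l : α → ℕ} {u b : α → List Bool} (hb : PB l) (hl : PT l) (hu : PT u) (hv : PT b) :
    PT fun a => ipL (l a) (u a) (b a) := by
  unfold ipL
  refine PT.bodd (PT.sum_range hb hl ?_)
  exact PT.cond (by fun_prop) (PT.const _) (PT.const _)

lemma pt_slice {w : α → List Bool} {s l : α → ℕ} (hw : PT w) (hs : PT s) (hb : PB l) (hl : PT l) :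
    PT fun a => slice (w a) (s a) (l a) := by
  unfold slice
  refine Crest.Agent.PT.PT.mapRange hb hl ?_
  fun_prop

lemma pt_test (c : ℕ) : PT (test c) := by
  have h1 : PT fun w : List Bool => w.length / (3 * c + 1) := by fun_prop
  have h2 : PB fun w : List Bool => w.length / (3 * c + 1) := PB.div (PB.length PT.id')
  have h3 : PT fun w : List Bool => c * (w.length / (3 * c + 1)) := (PT.const c).mul h1
  have h4 : PB fun w : List Bool => c * (w.length / (3 * c + 1)) := (PB.const c).mul h2
  exact pt_ipL h4 h3 (pt_powL h4 h3 (pt_slice PT.id' h1 h4 h3) (pt_slice PT.id' (h1.add h3) h4 h3)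
    (pt_slice PT.id' (PT.const 0) h2 h1))
    (pt_slice PT.id' (h1.add ((PT.const 2).mul h3)) h4 h3)

lemma inP (c : ℕ) : Crest.Complexity.InP {w | test c w = true} := by
  refine ⟨test c, ?_, fun _ => Iff.rfl⟩
  obtain ⟨M⟩ := PT.polyTime (f := fun w => [test c w]) ((pt_test c).cons (PT.const []))
  exact ⟨⟨M.toTM2ComputableAux, M.time, M.outputsFun⟩⟩

end PTs

section Field
variable {F : Type} [Field F] [CharP F 2]

/-- A bit as a field element. -/
def bit (F : Type) [Field F] (b : Bool) : F := cond b 1 0

lemma two_eq : (1 : F) + 1 = 0 := by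
  have := CharP.cast_eq_zero F 2
  rw [← this]; norm_num

lemma bit_xor (a b : Bool) : bit F (Bool.xor a b) = bit F a + bit F b := by
  cases a <;> cases b <;> simp [bit, two_eq]

omit [CharP F 2] in
lemma bit_and (a b : Bool) : bit F (a && b) = bit F a * bit F b := by
  cases a <;> cases b <;> simp [bit]

/-- The value of a coefficient list. -/
def ev (τ : F) (l : ℕ) (u : List Bool) : F := ∑ i ∈ range l, bit F (u.getD i false) * τ ^ i

lemma getD_mapRange {l i : ℕ} (hi : i < l) (f : ℕ → Bool) : (mapRange l f).getD i false = f i := by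
  simp [mapRange, List.getD_eq_getElem?_getD, hi]

omit [CharP F 2] in
lemma ev_mapRange (τ : F) (l : ℕ) (f : ℕ → Bool) :
    ev τ l (mapRange l f) = ∑ i ∈ range l, bit F (f i) * τ ^ i :=
  sum_congr rfl fun i hi => by rw [getD_mapRange (mem_range.1 hi)]

lemma ev_mulT (τ : F) {l : ℕ} (hl : 1 ≤ l) {h : List Bool} (hh : ev τ l h = τ ^ l) (u : List Bool) :
    ev τ l (mulT l h u) = τ * ev τ l u := by
  obtain ⟨k, rfl⟩ : ∃ k, l = k + 1 := ⟨l - 1, by omega⟩
  rw [mulT, ev_mapRange]
  simp only [bit_xor, bit_and, add_mul, sum_add_distrib, mul_assoc]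
  rw [← mul_sum]
  have h1 : ∑ i ∈ range (k + 1), bit F (h.getD i false) * τ ^ i = τ ^ (k + 1) := hh
  rw [h1, sum_range_succ', ev, sum_range_succ, mul_add, mul_sum]
  simp only [List.getD_cons_succ, List.getD_cons_zero, Nat.add_sub_cancel]
  have : bit F false = 0 := rfl
  rw [this, zero_mul, add_zero]
  congr 1
  · exact sum_congr rfl fun i _ => by ring
  · ring

lemma ev_mstep (τ : F) {l : ℕ} (hl : 1 ≤ l) {h : List Bool} (hh : ev τ l h = τ ^ l)
    (v acc : List Bool) (c : Bool) :
    ev τ l (mstep l h v acc c) = τ * ev τ l acc + bit F c * ev τ l v := by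
  rw [mstep, ev_mapRange, ← ev_mulT τ hl hh]
  simp only [bit_xor, bit_and, add_mul, sum_add_distrib, mul_assoc]
  rw [← mul_sum]
  rfl

lemma ev_foldr (τ : F) {l : ℕ} (hl : 1 ≤ l) {h : List Bool} (hh : ev τ l h = τ ^ l)
    (v L : List Bool) :
    ev τ l (L.reverse.foldl (mstep l h v) []) = ev τ L.length L * ev τ l v := by
  rw [List.foldl_reverse]
  induction L with
  | nil => simp [ev, bit]
  | cons b L ih =>
    rw [List.foldr_cons, ev_mstep τ hl hh, ih, List.length_cons]
    have : ev τ (L.length + 1) (b :: L) = τ * ev τ L.length L + bit F b := by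
      rw [ev, sum_range_succ', ev, mul_sum]
      simp only [List.getD_cons_succ, List.getD_cons_zero, pow_zero, mul_one]
      congr 1
      exact sum_congr rfl fun i _ => by ring
    rw [this]; ring

lemma ev_mulL (τ : F) {l : ℕ} (hl : 1 ≤ l) {h : List Bool} (hh : ev τ l h = τ ^ l)
    (u v : List Bool) : ev τ l (mulL l h u v) = ev τ l u * ev τ l v := by
  rw [mulL, ev_foldr τ hl hh]
  congr 1
  have : (mapRange l fun i => u.getD i false).length = l := by simp [mapRange]
  rw [this, ev_mapRange]; rfl

lemma ev_foldl_pstep (τ : F) {l : ℕ} (hl : 1 ≤ l) {h : List Bool} (hh : ev τ l h = τ ^ l)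
    (a x acc : List Bool) (k : ℕ) (hk : ev τ l acc = ev τ l a ^ k) :
    ev τ l (x.foldl (pstep l h a) acc) = ev τ l a ^ V k x := by
  induction x generalizing acc k with
  | nil => exact hk
  | cons b x ih =>
    rw [List.foldl_cons, V_cons]
    refine ih _ _ ?_
    cases b
    · simp only [pstep, cond_false, ev_mulL τ hl hh, hk, Nat.bit_false]; ring
    · simp only [pstep, cond_true, ev_mulL τ hl hh, hk, Nat.bit_true]; ring

lemma ev_powL (τ : F) {l : ℕ} (hl : 1 ≤ l) {h : List Bool} (hh : ev τ l h = τ ^ l)
    (a x : List Bool) : ev τ l (powL l h a x) = ev τ l a ^ V 0 x := by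
  refine ev_foldl_pstep τ hl hh a x _ 0 ?_
  obtain ⟨k, rfl⟩ : ∃ k, l = k + 1 := ⟨l - 1, by omega⟩
  rw [ev, sum_range_succ']
  simp [bit]

lemma sgn_sum {ι : Type} (T : Finset ι) (u : ι → Bool) :
    (∏ x ∈ T, (if u x then (-1 : ℝ) else 1) = 1 ∧ ∑ x ∈ T, bit F (u x) = 0) ∨
    (∏ x ∈ T, (if u x then (-1 : ℝ) else 1) = -1 ∧ ∑ x ∈ T, bit F (u x) = 1) := by
  classical
  induction T using Finset.induction_on with
  | empty => simp
  | insert a T ha ih =>
    rw [prod_insert ha, sum_insert ha]
    rcases ih with ⟨h1, h2⟩ | ⟨h1, h2⟩ <;> rw [h1, h2] <;> cases u a <;> simp [bit, two_eq]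

end Field

lemma V_eq (k : ℕ) (x : List Bool) : V k x = k * 2 ^ x.length + V 0 x := by
  induction x generalizing k with
  | nil => simp
  | cons b x ih =>
    rw [V_cons, V_cons, ih, ih (Nat.bit b 0), List.length_cons]
    cases b <;> simp [Nat.bit] <;> ring

lemma V_lt (x : List Bool) : V 0 x < 2 ^ x.length := by
  induction x with
  | nil => simp
  | cons b x ih =>
    rw [V_cons, V_eq, List.length_cons, pow_succ]
    cases b <;> simp [Nat.bit] <;> omega

lemma V_inj {x y : List Bool} (hl : x.length = y.length) (h : V 0 x = V 0 y) : x = y := by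
  have h1 : V 1 x = V 1 y := by rw [V_eq 1 x, V_eq 1 y, hl, h]
  have h2 := (bits_V_one x).1
  rw [h1, (bits_V_one y).1] at h2
  simpa using h2.symm

/-- Extension by `false`. -/
def extB {k : ℕ} (a : Fin k → Bool) (i : ℕ) : Bool := if h : i < k then a ⟨i, h⟩ else false

lemma sgn_ipL (l : ℕ) (u : List Bool) (b : Fin l → Bool) :
    (if ipL l u (mapRange l (extB b)) then (-1 : ℝ) else 1) =
      ∏ i : Fin l, (if (u.getD i false && b i) then (-1 : ℝ) else 1) := by
  have h1 : ∀ s : ℕ, (if s.bodd then (-1 : ℝ) else 1) = (-1) ^ s := by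
    intro s
    induction s with
    | zero => simp
    | succ s ih => rw [pow_succ, ← ih, Nat.bodd_succ]; cases s.bodd <;> simp
  rw [ipL, h1, ← prod_pow_eq_pow_sum, ← Fin.prod_univ_eq_prod_range
    (fun i => (-1 : ℝ) ^ (cond (u.getD i false && (mapRange l (extB b)).getD i false) 1 0 : ℕ))]
  refine prod_congr rfl fun i _ => ?_
  rw [getD_mapRange i.2]
  have : extB b i = b i := by simp [extB]
  rw [this]
  cases (u.getD i false && b i) <;> simp

lemma restrict {m n : ℕ} (hnm : n ≤ m) (s : ℕ → Bool) (C : Crest.Depth3.Circuit m) :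
    ∃ C' : Crest.Depth3.Circuit n, C'.size = C.size ∧ ∀ x : Fin n → Bool,
      C'.eval x ↔ C.eval fun j => if h : j.1 < n then x ⟨j.1, h⟩ else s j.1 := by
  classical
  refine ⟨⟨C.bot, C.mid, fun g => univ.filter fun l => (Fin.castLE hnm l.1, l.2) ∈ C.lits g,
    fun g => C.one g || decide (∃ l ∈ C.lits g, n ≤ l.1.1 ∧ s l.1.1 = l.2), C.reads⟩, rfl,
    fun x => ?_⟩
  refine exists_congr fun h => forall_congr' fun g => forall_congr' fun _ => ?_
  simp only [Bool.or_eq_true, decide_eq_true_eq, mem_filter, mem_univ, true_and, or_assoc]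
  refine or_congr Iff.rfl ⟨?_, ?_⟩
  · rintro (⟨l, hl, h1, h2⟩ | ⟨l, hl, h2⟩)
    · exact ⟨l, hl, by rw [dif_neg (by omega)]; exact h2⟩
    · exact ⟨_, hl, by simpa using h2⟩
  · rintro ⟨l, hl, h2⟩
    by_cases h1 : l.1.1 < n
    · rw [dif_pos h1] at h2
      exact Or.inr ⟨(⟨l.1.1, h1⟩, l.2), hl, h2⟩
    · rw [dif_neg h1] at h2
      exact Or.inl ⟨l, hl, by omega, h2⟩

lemma zmod2 : ∀ z : ZMod 2, z = 0 ∨ z = 1 := by decide

lemma exists_field (l : ℕ) (hl : 1 ≤ l) :
    ∃ (F : Type) (_ : Field F) (_ : CharP F 2) (τ : F) (H : ℕ → Bool),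
      ev τ l (mapRange l H) = τ ^ l ∧
      Function.Injective fun a : Fin l → Bool => ev τ l (mapRange l (extB a)) := by
  haveI : Fact (Nat.Prime 2) := ⟨Nat.prime_two⟩
  let F := GaloisField 2 l
  let pb : PowerBasis (ZMod 2) F := Field.powerBasisOfFiniteOfSeparable (ZMod 2) F
  have hd : pb.dim = l := by rw [← pb.finrank]; exact GaloisField.finrank 2 (by omega)
  have hz : ∀ z : ZMod 2, algebraMap (ZMod 2) F z = bit F (decide (z = 1)) := by
    intro z
    rcases zmod2 z with rfl | rfl <;> simp [bit]
  refine ⟨F, inferInstance, inferInstance, pb.gen,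
    fun i => if h : i < pb.dim then decide (pb.basis.repr (pb.gen ^ l) ⟨i, h⟩ = 1) else false,
    ?_, ?_⟩
  · rw [ev_mapRange]
    conv_rhs => rw [← pb.basis.sum_repr (pb.gen ^ l)]
    have : range l = range pb.dim := by rw [hd]
    rw [this, ← Fin.sum_univ_eq_sum_range (fun i => bit F (if h : i < pb.dim then
      decide (pb.basis.repr (pb.gen ^ l) ⟨i, h⟩ = 1) else false) * pb.gen ^ i)]
    refine sum_congr rfl fun i _ => ?_
    rw [dif_pos i.2, pb.basis_eq_pow, Algebra.smul_def, hz]
  · intro a b hab
    simp only [ev_mapRange] at hab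
    have key : ∀ a : Fin l → Bool, ∑ i ∈ range l, bit F (extB a i) * pb.gen ^ i =
        ∑ i : Fin pb.dim, (bit (ZMod 2) (extB a i)) • pb.basis i := by
      intro a
      have : range l = range pb.dim := by rw [hd]
      rw [this, ← Fin.sum_univ_eq_sum_range (fun i => bit F (extB a i) * pb.gen ^ i)]
      refine sum_congr rfl fun i _ => ?_
      rw [pb.basis_eq_pow, Algebra.smul_def]
      cases extB a i <;> simp [bit]
    rw [key, key] at hab
    have h2 : (fun i : Fin pb.dim => bit (ZMod 2) (extB a i)) =
        fun i : Fin pb.dim => bit (ZMod 2) (extB b i) := by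
      apply pb.basis.equivFun.symm.injective
      rw [Module.Basis.equivFun_symm_apply, Module.Basis.equivFun_symm_apply]
      exact hab
    funext i
    have h3 := congrFun h2 ⟨i.1, by rw [hd]; exact i.2⟩
    simp only [extB, i.2, dif_pos, Fin.eta] at h3
    revert h3
    cases a i <;> cases b i <;> simp [bit]

end Crest.Agent.D3.BiasAux

namespace Crest.Agent.D3

open Crest.Agent.PT Finset BiasAux

theorem bias (c : ℕ) : ∃ L : Set (List Bool), Crest.Complexity.InP L ∧
    ∀ m n : ℕ, n = m / (3 * c + 1) → 1 ≤ n → 1 ≤ c →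
      ∃ (Ω : Type) (_ : Fintype Ω) (_ : Nonempty Ω) (g : Ω → (Fin n → Bool) → Bool),
        (∀ ω (C : Crest.Depth3.Circuit m), (∀ x, C.eval x ↔ List.ofFn x ∈ L) →
          ∃ C' : Crest.Depth3.Circuit n, C'.size = C.size ∧ ∀ x, C'.eval x ↔ g ω x = true) ∧
        ∀ T : Finset (Fin n → Bool), T.Nonempty →
          |∑ ω, ∏ x ∈ T, (if g ω x then (-1 : ℝ) else 1)| ≤
            Fintype.card Ω * (2 ^ n / 2 ^ (c * n)) := by
  classical
  refine ⟨{w | test c w = true}, inP c, fun m n hn hn1 hc => ?_⟩
  have hl : 1 ≤ c * n := Nat.mul_pos hc hn1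
  have hm : n + 3 * (c * n) ≤ m := by
    have := Nat.div_mul_le_self m (3 * c + 1)
    rw [← hn] at this
    nlinarith
  generalize hl' : c * n = l at hl hm
  obtain ⟨F, _, _, τ, H, hH, hinj⟩ := exists_field l hl
  refine ⟨(Fin l → Bool) × (Fin l → Bool), inferInstance, inferInstance, fun ω x =>
    ipL l (powL l (mapRange l H) (mapRange l (extB ω.1)) (mapRange n (extB x)))
      (mapRange l (extB ω.2)), ?_, ?_⟩
  · intro ω C hC
    obtain ⟨C', h1, h2⟩ := restrict (show n ≤ m by omega) (fun j => if j < n + l then H (j - n)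
      else if j < n + 2 * l then extB ω.1 (j - (n + l)) else extB ω.2 (j - (n + 2 * l))) C
    refine ⟨C', h1, fun x => ?_⟩
    rw [h2, hC, Set.mem_setOf_eq, test, List.length_ofFn, ← hn, hl']
    have hs : ∀ (s k : ℕ) (f : ℕ → Bool) (w : Fin m → Bool), s + k ≤ m →
        (∀ i (hi : i < k) (h : s + i < m), w ⟨s + i, h⟩ = f i) →
        slice (List.ofFn w) s k = mapRange k f := by
      intro s k f w hsk hw
      refine List.map_congr_left fun i hi => ?_
      have hi' : i < k := List.mem_range.1 hi
      have h : s + i < m := by omega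
      rw [← hw i hi' h]
      simp [List.getD_eq_getElem?_getD, h]
    rw [hs n l H _ (by omega), hs (n + l) l (extB ω.1) _ (by omega), hs 0 n (extB x) _ (by omega),
      hs (n + 2 * l) l (extB ω.2) _ (by omega)]
    · intro i hi h
      simp only
      rw [dif_neg (by omega), if_neg (by omega), if_neg (by omega)]
      congr 1; omega
    · intro i hi h
      simp only
      rw [dif_pos (by omega)]
      simp [extB, hi]
    · intro i hi h
      simp only
      rw [dif_neg (by omega), if_neg (by omega), if_pos (by omega)]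
      congr 1; omega
    · intro i hi h
      simp only
      rw [dif_neg (by omega), if_pos (by omega)]
      congr 1; omega
  · intro T hT
    let e : (Fin n → Bool) → ℕ := fun x => V 0 (mapRange n (extB x))
    have hlen : ∀ x : Fin n → Bool, (mapRange n (extB x)).length = n := fun x => by simp [mapRange]
    have he : Function.Injective e := by
      intro x y hxy
      have h1 := V_inj ((hlen x).trans (hlen y).symm) hxy
      funext i
      have h2 := getD_mapRange i.2 (extB x)
      rw [h1, getD_mapRange i.2] at h2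
      simpa [extB] using h2.symm
    let P : Polynomial F := ∑ x ∈ T, Polynomial.X ^ e x
    have hP0 : P ≠ 0 := by
      obtain ⟨x0, hx0⟩ := hT
      intro h
      have h1 : P.coeff (e x0) = 1 := by
        simp only [P, Polynomial.finset_sum_coeff, Polynomial.coeff_X_pow]
        rw [sum_eq_single x0 (fun y _ hy => if_neg fun h => hy (he h).symm) (fun h => absurd hx0 h)]
        simp
      rw [h] at h1
      simp at h1
    have hPd : P.natDegree ≤ 2 ^ n := by
      refine Polynomial.natDegree_sum_le_of_forall_le _ _ fun x _ => ?_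
      rw [Polynomial.natDegree_X_pow]
      have := V_lt (mapRange n (extB x))
      rw [hlen] at this
      exact this.le
    let α : (Fin l → Bool) → F := fun a => ev τ l (mapRange l (extB a))
    let u : (Fin l → Bool) → (Fin n → Bool) → List Bool := fun a x =>
      powL l (mapRange l H) (mapRange l (extB a)) (mapRange n (extB x))
    let I : (Fin l → Bool) → ℝ := fun a => ∑ b : Fin l → Bool, ∏ x ∈ T,
      (if ipL l (u a x) (mapRange l (extB b)) then (-1 : ℝ) else 1)
    have hI1 : ∀ a, |I a| ≤ 2 ^ l := by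
      intro a
      refine (abs_sum_le_sum_abs _ _).trans ?_
      have : ∀ b : Fin l → Bool, |∏ x ∈ T,
          (if ipL l (u a x) (mapRange l (extB b)) then (-1 : ℝ) else 1)| = 1 := by
        intro b
        rw [abs_prod]
        refine prod_eq_one fun x _ => ?_
        split_ifs <;> simp
      simp [this]
    have hI0 : ∀ a, ¬ P.IsRoot (α a) → I a = 0 := by
      intro a ha
      have h1 : I a = ∏ i : Fin l, ∑ t : Bool, ∏ x ∈ T,
          (if ((u a x).getD i false && t) then (-1 : ℝ) else 1) := by
        rw [prod_univ_sum, Fintype.piFinset_univ]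
        refine sum_congr rfl fun b _ => ?_
        rw [prod_comm]
        exact prod_congr rfl fun x _ => sgn_ipL l (u a x) b
      by_contra hne
      apply ha
      rw [h1] at hne
      replace hne := prod_ne_zero_iff.1 hne
      have h2 : ∀ i ∈ range l, ∑ x ∈ T, bit F ((u a x).getD i false) = 0 := by
        intro i hi
        have h3 := hne ⟨i, mem_range.1 hi⟩ (mem_univ _)
        rcases sgn_sum (F := F) T (fun x => (u a x).getD i false) with ⟨_, h5⟩ | ⟨h4, _⟩
        · exact h5
        · exfalso
          apply h3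
          rw [Fintype.sum_bool]
          simp only [Bool.and_true, Bool.and_false]
          rw [h4]; simp
      have h3 : P.eval (α a) = ∑ x ∈ T, ev τ l (u a x) := by
        simp only [P, Polynomial.eval_finset_sum, Polynomial.eval_pow, Polynomial.eval_X]
        exact sum_congr rfl fun x _ => (ev_powL τ hl hH _ _).symm
      rw [Polynomial.IsRoot, h3]
      simp only [ev]
      rw [sum_comm]
      refine sum_eq_zero fun i hi => ?_
      rw [← sum_mul, h2 i hi, zero_mul]
    have hcard : (univ.filter fun a => P.IsRoot (α a)).card ≤ 2 ^ n := by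
      refine le_trans ?_ ((Multiset.toFinset_card_le P.roots).trans
        ((Polynomial.card_roots' P).trans hPd))
      refine card_le_card_of_injOn α (fun a ha => ?_) fun a _ b _ h => hinj h
      have := (mem_filter.1 (mem_coe.1 ha)).2
      simpa [hP0] using this
    rw [Fintype.sum_prod_type]
    change |∑ a, I a| ≤ _
    rw [← sum_filter_of_ne (p := fun a => P.IsRoot (α a))
      (fun a _ h => by by_contra h'; exact h (hI0 a h'))]
    refine (abs_sum_le_sum_abs _ _).trans ((sum_le_card_nsmul _ _ _ fun a _ => hI1 a).trans ?_)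
    have h2 : ((univ.filter fun a => P.IsRoot (α a)).card : ℝ) ≤ 2 ^ n := by exact_mod_cast hcard
    rw [nsmul_eq_mul]
    have h3 : (Fintype.card ((Fin l → Bool) × (Fin l → Bool)) : ℝ) * (2 ^ n / 2 ^ l) =
        2 ^ n * 2 ^ l := by
      simp only [Fintype.card_prod, Fintype.card_fun, Fintype.card_bool, Fintype.card_fin]
      push_cast
      field_simp
    rw [h3]
    gcongr

end Crest.Agent.D3
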