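import Crest.Prelude.Def_Depth3

set_option autoImplicit false

namespace Crest.Agent.D3

open Finset

open Classical in
/-- a clause with at least `k` literals is falsified by at most `2^n / 2^k` points -/
theorem card_falsify {n : ℕ} (D : Finset (Fin n × Bool)) (k : ℕ) (hk : k ≤ D.card) :
    (((univ.filter fun x : Fin n → Bool => ¬ ∃ l ∈ D, x l.1 = l.2).card : ℕ) : ℝ) ≤
      2 ^ n / 2 ^ k := by
  rcases (univ.filter fun x : Fin n → Bool => ¬ ∃ l ∈ D, x l.1 = l.2).eq_empty_or_nonempty with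
    h | ⟨x0, hx0⟩
  · rw [h]; simp only [card_empty, Nat.cast_zero]; positivity
  have hx0' : ∀ l ∈ D, x0 l.1 ≠ l.2 := by
    intro l hl h
    exact (mem_filter.1 hx0).2 ⟨l, hl, h⟩
  have hinj : Set.InjOn (fun l : Fin n × Bool => l.1) D := by
    intro l hl l' hl' h
    have h1 := hx0' l hl
    have h2 := hx0' l' hl'
    simp only at h
    refine Prod.ext h ?_
    rw [h] at h1
    revert h1 h2
    cases x0 l'.1 <;> cases l.2 <;> cases l'.2 <;> simp
  set V : Finset (Fin n) := D.image (fun l => l.1) with hV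
  have hVc : V.card = D.card := card_image_of_injOn hinj
  have hsub : (univ.filter fun x : Fin n → Bool => ¬ ∃ l ∈ D, x l.1 = l.2) ⊆
      Fintype.piFinset (fun i => if i ∈ V then ({x0 i} : Finset Bool) else univ) := by
    intro x hx
    rw [Fintype.mem_piFinset]
    intro i
    split_ifs with hi
    · obtain ⟨l, hl, rfl⟩ := mem_image.1 hi
      have h1 := hx0' l hl
      have h2 : x l.1 ≠ l.2 := fun h => (mem_filter.1 hx).2 ⟨l, hl, h⟩
      rw [mem_singleton]
      revert h1 h2
      cases x0 l.1 <;> cases l.2 <;> cases x l.1 <;> simp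
    · exact mem_univ _
  have hc := card_le_card hsub
  rw [Fintype.card_piFinset] at hc
  have hp : ∏ i : Fin n, (if i ∈ V then ({x0 i} : Finset Bool) else univ).card =
      2 ^ (n - V.card) := by
    have : ∀ i : Fin n, (if i ∈ V then ({x0 i} : Finset Bool) else univ).card =
        if i ∈ V then 1 else 2 := by
      intro i; split_ifs <;> simp
    simp only [this]
    rw [prod_ite]
    simp only [prod_const_one, prod_const, one_mul]
    congr 1
    have : (univ.filter fun i : Fin n => ¬ i ∈ V) = Vᶜ := by ext; simp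
    rw [this, card_compl, Fintype.card_fin]
  rw [hp] at hc
  have hVn : V.card ≤ n := by simpa using card_le_univ V
  rw [le_div_iff₀ (by positivity)]
  have h2 : (2 : ℕ) ^ (n - V.card) * 2 ^ k ≤ 2 ^ n := by
    rw [← pow_add]
    exact Nat.pow_le_pow_right (by norm_num) (by omega)
  have h3 : (univ.filter fun x : Fin n → Bool => ¬ ∃ l ∈ D, x l.1 = l.2).card * 2 ^ k ≤ 2 ^ n :=
    le_trans (Nat.mul_le_mul_right _ hc) h2
  exact_mod_cast h3

open Classical in
/-- A depth three circuit for `g` forces a correlation of `g` with some `k`-CNF. -/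
theorem reduce {n : ℕ} (C : Crest.Depth3.Circuit n) (g : (Fin n → Bool) → Bool)
    (hC : ∀ x, C.eval x ↔ g x = true) (k : ℕ) (X : ℝ)
    (hX : ∀ φ : Finset (Finset (Fin n × Bool)), (∀ D ∈ φ, D.card ≤ k) →
      |∑ x : Fin n → Bool with (∀ D ∈ φ, ∃ l ∈ D, x l.1 = l.2),
        (if g x then (-1 : ℝ) else 1)| ≤ X) :
    (2 : ℝ) ^ n ≤ (2 * C.size + 1) * X + 2 * (C.size : ℝ) ^ 2 * 2 ^ n / 2 ^ k := by
  set G : Finset (Fin n → Bool) := univ.filter fun x => g x = true with hG
  -- density
  have h0 := hX ∅ (by simp)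
  have hX0 : 0 ≤ X := le_trans (abs_nonneg _) h0
  have hsum : ∀ S : Finset (Fin n → Bool), ∑ x ∈ S, (if g x then (-1 : ℝ) else 1) =
      S.card - 2 * ((S.filter fun x => g x = true).card : ℝ) := by
    intro S
    have : ∀ x, (if g x then (-1 : ℝ) else 1) = 1 - 2 * (if g x = true then 1 else 0) := by
      intro x; split_ifs <;> norm_num
    simp only [this]
    rw [sum_sub_distrib, ← mul_sum, sum_boole]
    simp
  have hdens : (2 : ℝ) ^ n ≤ X + 2 * G.card := by
    have h1 : (univ.filter fun x : Fin n → Bool =>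
        ∀ D ∈ (∅ : Finset (Finset (Fin n × Bool))), ∃ l ∈ D, x l.1 = l.2) = univ := by
      ext x; simp
    rw [h1, hsum] at h0
    have h2 := le_abs_self (((univ : Finset (Fin n → Bool)).card : ℝ) -
      2 * ((univ.filter fun x => g x = true).card : ℝ))
    have h3 : (((univ : Finset (Fin n → Bool)).card : ℕ) : ℝ) = 2 ^ n := by
      simp
    rw [h3] at h0 h2
    linarith
  -- the points accepted by a middle gate
  let A : Fin C.mid → Finset (Fin n → Bool) := fun j => univ.filter fun x =>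
    ∀ b ∈ C.reads j, C.one b = true ∨ ∃ l ∈ C.lits b, x l.1 = l.2
  have hA : ∀ j, ((A j).card : ℝ) ≤ X + C.bot * (2 ^ n / 2 ^ k) := by
    intro j
    let φ : Finset (Finset (Fin n × Bool)) :=
      ((C.reads j).filter fun b => C.one b = false ∧ (C.lits b).card ≤ k).image C.lits
    have hφ : ∀ D ∈ φ, D.card ≤ k := by
      intro D hD
      obtain ⟨b, hb, rfl⟩ := mem_image.1 hD
      exact (mem_filter.1 hb).2.2
    have h1 := hX φ hφ
    set S : Finset (Fin n → Bool) := univ.filter fun x : Fin n → Bool =>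
      ∀ D ∈ φ, ∃ l ∈ D, x l.1 = l.2 with hS
    have hAS : A j ⊆ S := by
      intro x hx
      have hx' := (mem_filter.1 hx).2
      refine mem_filter.2 ⟨mem_univ _, ?_⟩
      intro D hD
      obtain ⟨b, hb, rfl⟩ := mem_image.1 hD
      obtain ⟨hb1, hb2, -⟩ := mem_filter.1 hb
      rcases hx' b hb1 with h | h
      · rw [hb2] at h; exact absurd h (by simp)
      · exact h
    have hAg : ∀ x ∈ A j, g x = true := by
      intro x hx
      exact (hC x).1 ⟨j, (mem_filter.1 hx).2⟩
    have hdiff : S \ A j ⊆ (univ.filter fun b : Fin C.bot => k ≤ (C.lits b).card).biUnion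
        fun b => univ.filter fun x : Fin n → Bool => ¬ ∃ l ∈ C.lits b, x l.1 = l.2 := by
      intro x hx
      obtain ⟨hx1, hx2⟩ := mem_sdiff.1 hx
      have hx1' := (mem_filter.1 hx1).2
      have hx2' : ¬ ∀ b ∈ C.reads j, C.one b = true ∨ ∃ l ∈ C.lits b, x l.1 = l.2 :=
        fun h => hx2 (mem_filter.2 ⟨mem_univ _, h⟩)
      obtain ⟨b, hb⟩ := not_forall.1 hx2'
      obtain ⟨hb1, hb2⟩ := Classical.not_imp.1 hb
      obtain ⟨hb3, hb4⟩ := not_or.1 hb2
      refine mem_biUnion.2 ⟨b, mem_filter.2 ⟨mem_univ _, ?_⟩, mem_filter.2 ⟨mem_univ _, hb4⟩⟩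
      by_contra hlt
      apply hb4
      apply hx1'
      refine mem_image.2 ⟨b, mem_filter.2 ⟨hb1, by simpa using hb3, by omega⟩, rfl⟩
    have hdc : ((S \ A j).card : ℝ) ≤ C.bot * (2 ^ n / 2 ^ k) := by
      have h2 := le_trans (card_le_card hdiff) card_biUnion_le
      have h3 : (((S \ A j).card : ℕ) : ℝ) ≤
          ∑ b ∈ (univ.filter fun b : Fin C.bot => k ≤ (C.lits b).card),
            (((univ.filter fun x : Fin n → Bool => ¬ ∃ l ∈ C.lits b, x l.1 = l.2).card : ℕ) : ℝ) := by
        exact_mod_cast h2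
      refine le_trans h3 ?_
      refine le_trans (sum_le_sum fun b hb => card_falsify (C.lits b) k (mem_filter.1 hb).2) ?_
      rw [sum_const, nsmul_eq_mul]
      refine mul_le_mul_of_nonneg_right ?_ (by positivity)
      have := card_le_univ (univ.filter fun b : Fin C.bot => k ≤ (C.lits b).card)
      rw [Fintype.card_fin] at this
      exact_mod_cast this
    rw [← sum_sdiff hAS] at h1
    have h4 : ∑ x ∈ A j, (if g x then (-1 : ℝ) else 1) = -((A j).card : ℝ) := by
      rw [sum_congr rfl (fun x hx => if_pos (hAg x hx))]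
      simp
    have h5 : ∑ x ∈ S \ A j, (if g x then (-1 : ℝ) else 1) ≤ ((S \ A j).card : ℝ) := by
      refine le_trans (sum_le_sum (g := fun _ => (1 : ℝ)) fun x _ => ?_) (by simp)
      split_ifs <;> norm_num
    rw [h4] at h1
    have h6 := neg_abs_le (∑ x ∈ S \ A j, (if g x then (-1 : ℝ) else 1) + -((A j).card : ℝ))
    linarith
  have hGA : G ⊆ univ.biUnion A := by
    intro x hx
    obtain ⟨j, hj⟩ := (hC x).2 (mem_filter.1 hx).2
    exact mem_biUnion.2 ⟨j, mem_univ _, mem_filter.2 ⟨mem_univ _, hj⟩⟩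
  have hGc : (G.card : ℝ) ≤ C.mid * (X + C.bot * (2 ^ n / 2 ^ k)) := by
    have h2 := le_trans (card_le_card hGA) card_biUnion_le
    have h3 : (G.card : ℝ) ≤ ∑ j, ((A j).card : ℝ) := by exact_mod_cast h2
    refine le_trans h3 (le_trans (sum_le_sum fun j _ => hA j) ?_)
    rw [sum_const, card_univ, Fintype.card_fin, nsmul_eq_mul]
  have hm : (C.mid : ℝ) ≤ C.size := by
    unfold Crest.Depth3.Circuit.size; push_cast
    have : (0 : ℝ) ≤ C.bot := by positivity
    linarith
  have hb : (C.bot : ℝ) ≤ C.size := by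
    unfold Crest.Depth3.Circuit.size; push_cast
    have : (0 : ℝ) ≤ C.mid := by positivity
    linarith
  have hq : (0 : ℝ) ≤ 2 ^ n / 2 ^ k := by positivity
  have hm0 : (0 : ℝ) ≤ C.mid := by positivity
  have hb0 : (0 : ℝ) ≤ C.bot := by positivity
  have h7 : (C.mid : ℝ) * (X + C.bot * (2 ^ n / 2 ^ k)) ≤
      C.size * (X + C.size * (2 ^ n / 2 ^ k)) := by
    apply mul_le_mul hm _ (by positivity) (le_trans hm0 hm)
    have := mul_le_mul_of_nonneg_right hb hq
    linarith
  have h8 : (2 * (C.size : ℝ) + 1) * X + 2 * (C.size : ℝ) ^ 2 * 2 ^ n / 2 ^ k =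
      X + 2 * (C.size * (X + C.size * (2 ^ n / 2 ^ k))) := by ring
  rw [h8]
  linarith

end Crest.Agent.D3
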