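import Crest.Agent.D3.Seed8
import Crest.Agent.D3.Bias
import Crest.Agent.D3.Reduce

/-! Assembly of the depth-three lower bound from the numerical inequalities. -/

set_option autoImplicit false

namespace Crest.Agent.D3.H8

open Finset

/-- The numerical inequalities. -/
def NumS : Prop := ∀ (A : ℝ), 0 < A → ∃ N : ℕ, ∀ m ≥ N, ∀ s : ℕ, (s : ℝ) ≤ 2 ^ (A * √m) →
  1 ≤ m / 151 ∧ ∃ (k K q U t : ℕ) (p lam : ℝ), 0 ≤ p ∧ p < 1 ∧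
    ((1 + p) / (1 - p)) ^ k ≤ 2 ^ K ∧ 4 * K ≤ q ^ 2 ∧ 2 ≤ q ∧ 1 ≤ t ∧ 1 ≤ lam ∧
    ((3 ^ (m / 151) * ((2 * U + 1) ^ K + 1) ^ (2 * U * (K * q ^ (K ^ 2))) * 2 ^ (2 * U) : ℕ) : ℝ) *
      ((2 * t : ℝ) ^ (2 * t) * (2 ^ U) ^ t + (2 ^ U) ^ (2 * t) *
        (2 ^ (m / 151) / 2 ^ (50 * (m / 151)))) < lam ^ (2 * t) ∧
    (2 * s + 1 : ℝ) * (2 * (2 ^ (m / 151) * (lam * Real.exp (-(p * (m / 151 : ℕ) *
      (1 - Real.exp ((2 * K ^ 2 * Real.log q + 2) * 4 / q) / 2))) +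
      Real.exp (p * (m / 151 : ℕ) / 4) * (4 / 5) ^ U))) +
      2 * s ^ 2 * 2 ^ (m / 151) / 2 ^ k < 2 ^ (m / 151)

theorem final (hnum : NumS) :
    ∃ L : Set (List Bool), Crest.Complexity.InP L ∧
      ∀ A : ℝ, 0 < A → ∃ N : ℕ, ∀ n ≥ N, ∀ c : Crest.Depth3.Circuit n,
        (∀ x : Fin n → Bool, c.eval x ↔ List.ofFn x ∈ L) →
          (2 : ℝ) ^ (A * Real.sqrt n) < (c.size : ℝ) := by
  obtain ⟨L, hL, hb⟩ := bias 50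
  refine ⟨L, hL, fun A hA => ?_⟩
  obtain ⟨N, hN⟩ := hnum A hA
  refine ⟨N, fun m hm c hc => ?_⟩
  by_contra hs
  obtain ⟨hn, k, K, q, U, t, p, lam, hp0, hp1, hδ, hq, hq2, ht, hlam, h1, h2⟩ :=
    hN m hm c.size (not_lt.1 hs)
  obtain ⟨Ω, _, _, g, hg1, hg2⟩ := hb m (m / 151) rfl hn (by norm_num)
  obtain ⟨ω, hω⟩ := seed g _ (by positivity) hg2 k K q U t p lam hp0 hp1 hδ hq hq2 ht
    (by linarith) h1
  obtain ⟨C', hC1, hC2⟩ := hg1 ω c hc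
  have h3 := reduce C' (g ω) hC2 k _ (fun φ hφ => by convert hω φ hφ)
  rw [hC1] at h3
  exact absurd (h3.trans_lt h2) (lt_irrefl _)

end Crest.Agent.D3.H8
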