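import Mathlib

/-! Even moments and a union bound for small-bias families. -/

set_option autoImplicit false

namespace Crest.Agent.D3

open Finset

lemma bm_prod_odd {X : Type} [DecidableEq X] {r : ℕ} (s : X → ℝ) (hs : ∀ x, s x * s x = 1)
    (f : Fin r → X) :
    ∏ i, s (f i) = ∏ x ∈ (univ.image f).filter
      (fun x => Odd (univ.filter fun i => f i = x).card), s x := by
  rw [prod_filter, ← prod_fiberwise_of_maps_to (s := univ) (t := univ.image f) (g := f)
    (fun i _ => mem_image_of_mem _ (mem_univ i))]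
  refine prod_congr rfl fun x _ => ?_
  rw [prod_congr rfl (g := fun _ => s x) (fun i hi => by rw [(mem_filter.1 hi).2]), prod_const]
  generalize (univ.filter fun i => f i = x).card = k
  rcases Nat.even_or_odd' k with ⟨j, rfl | rfl⟩
  · rw [if_neg (by simp), pow_mul, pow_two, hs, one_pow]
  · rw [if_pos (by simp), pow_succ, pow_mul, pow_two, hs, one_pow, one_mul]

lemma bm_count {X : Type} [DecidableEq X] (S : Finset X) {t : ℕ} (ht : 1 ≤ t) :
    ((Fintype.piFinset fun _ : Fin (2 * t) => S).filter fun f => ¬ ((univ.image f).filter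
      (fun x => Odd (univ.filter fun i => f i = x).card)).Nonempty).card ≤
      S.card ^ t * t ^ (2 * t) := by
  have h1 : ((Fintype.piFinset fun _ : Fin t => S) ×ˢ (univ : Finset (Fin (2 * t) → Fin t))).card
      = S.card ^ t * t ^ (2 * t) := by simp
  rw [← h1]
  refine le_trans (card_le_card ?_) (card_image_le (f := fun p => p.1 ∘ p.2))
  intro f hf
  obtain ⟨hf1, hf2⟩ := mem_filter.1 hf
  rw [Fintype.mem_piFinset] at hf1
  have h2 : ∀ x ∈ univ.image f, 2 ≤ (univ.filter fun i => f i = x).card := by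
    intro x hx
    have h3 : ¬ Odd (univ.filter fun i => f i = x).card := fun h => hf2 ⟨x, mem_filter.2 ⟨hx, h⟩⟩
    obtain ⟨i, _, hi⟩ := mem_image.1 hx
    have h4 : 0 < (univ.filter fun i => f i = x).card := card_pos.2 ⟨i, by simp [hi]⟩
    rw [Nat.not_odd_iff_even] at h3
    obtain ⟨k, hk⟩ := h3
    omega
  have h3 : (univ.image f).card ≤ t := by
    have h4 := card_eq_sum_card_fiberwise (s := univ) (t := univ.image f) (f := f)
      (fun i _ => mem_image_of_mem _ (mem_univ i))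
    have h5 := card_nsmul_le_sum _ _ _ h2
    simp only [card_univ, Fintype.card_fin, smul_eq_mul] at h4 h5
    omega
  let e := (univ.image f).equivFin
  refine mem_image.2 ⟨(fun j => if h : j.1 < (univ.image f).card then (e.symm ⟨j.1, h⟩).1
    else f ⟨0, by omega⟩, fun i => Fin.castLE h3 (e ⟨f i, mem_image_of_mem _ (mem_univ i)⟩)),
    ?_, ?_⟩
  · rw [mem_product]
    refine ⟨Fintype.mem_piFinset.2 fun j => ?_, mem_univ _⟩
    simp only
    split_ifs with h
    · obtain ⟨i, _, hi⟩ := mem_image.1 (e.symm ⟨j.1, h⟩).2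
      rw [← hi]; exact hf1 i
    · exact hf1 _
  · funext i
    simp only [Function.comp, Fin.val_castLE]
    rw [dif_pos (Fin.is_lt _)]
    simp

theorem bmoment {X Ω : Type} [Fintype Ω] (g : Ω → X → Bool) (ε : ℝ) (hε : 0 ≤ ε)
    (hb : ∀ T : Finset X, T.Nonempty →
      |∑ ω, ∏ x ∈ T, (if g ω x then (-1 : ℝ) else 1)| ≤ Fintype.card Ω * ε)
    (t : ℕ) (ht : 1 ≤ t) (S : Finset X) :
    ∑ ω, (∑ x ∈ S, (if g ω x then (-1 : ℝ) else 1)) ^ (2 * t) ≤
      Fintype.card Ω * ((S.card : ℝ) ^ t * t ^ (2 * t) + (S.card : ℝ) ^ (2 * t) * ε) := by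
  classical
  simp only [sum_pow']
  rw [sum_comm]
  let O : (Fin (2 * t) → X) → Finset X := fun f => (univ.image f).filter
      (fun x => Odd (univ.filter fun i => f i = x).card)
  have h1 : ∀ f : Fin (2 * t) → X, ∑ ω, ∏ i, (if g ω (f i) then (-1 : ℝ) else 1) ≤
      Fintype.card Ω * ε + (if ¬ (O f).Nonempty then (Fintype.card Ω : ℝ) else 0) := by
    intro f
    have h2 : ∀ ω, ∏ i, (if g ω (f i) then (-1 : ℝ) else 1) =
        ∏ x ∈ O f, (if g ω x then (-1 : ℝ) else 1) := fun ω =>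
      bm_prod_odd (fun x => if g ω x then (-1 : ℝ) else 1) (fun x => by split_ifs <;> simp) f
    simp only [h2]
    by_cases h : (O f).Nonempty
    · rw [if_neg (not_not.2 h), add_zero]
      exact (le_abs_self _).trans (hb _ h)
    · rw [if_pos h, not_nonempty_iff_eq_empty.1 h]
      simp only [prod_empty, sum_const, card_univ, nsmul_eq_mul, mul_one]
      have : (0 : ℝ) ≤ Fintype.card Ω * ε := by positivity
      linarith
  refine (sum_le_sum fun f _ => h1 f).trans ?_
  rw [sum_add_distrib, ← sum_filter, sum_const, sum_const, nsmul_eq_mul, nsmul_eq_mul]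
  have h3 : ((((Fintype.piFinset fun _ : Fin (2 * t) => S).filter
      fun f => ¬ (O f).Nonempty).card : ℕ) : ℝ) ≤ (S.card : ℝ) ^ t * t ^ (2 * t) := by
    exact_mod_cast bm_count S ht
  have h4 : ((Fintype.piFinset fun _ : Fin (2 * t) => S).card : ℝ) = (S.card : ℝ) ^ (2 * t) := by
    simp
  rw [h4]
  have h5 : (0 : ℝ) ≤ Fintype.card Ω := by positivity
  nlinarith [mul_le_mul_of_nonneg_right h3 h5]

/-- Union bound: one seed is good for a whole family of sets. -/
theorem bunion {X Ω J : Type} [Fintype Ω] [Nonempty Ω] (g : Ω → X → Bool) (ε : ℝ) (hε : 0 ≤ ε)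
    (hb : ∀ T : Finset X, T.Nonempty →
      |∑ ω, ∏ x ∈ T, (if g ω x then (-1 : ℝ) else 1)| ≤ Fintype.card Ω * ε)
    (t : ℕ) (ht : 1 ≤ t) (fam : Finset J) (S : J → Finset X) (s : ℝ)
    (hs : ∀ j ∈ fam, ((S j).card : ℝ) ≤ s) (lam : ℝ) (hlam : 0 ≤ lam)
    (h : fam.card * (s ^ t * t ^ (2 * t) + s ^ (2 * t) * ε) < lam ^ (2 * t)) :
    ∃ ω, ∀ j ∈ fam, |∑ x ∈ S j, (if g ω x then (-1 : ℝ) else 1)| ≤ lam := by
  have h1 : ∑ ω, ∑ j ∈ fam, (∑ x ∈ S j, (if g ω x then (-1 : ℝ) else 1)) ^ (2 * t) <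
      ∑ _ω : Ω, lam ^ (2 * t) := by
    rw [sum_comm, sum_const, card_univ, nsmul_eq_mul]
    have h2 : (0 : ℝ) < Fintype.card Ω := by exact_mod_cast Fintype.card_pos
    refine lt_of_le_of_lt (sum_le_card_nsmul _ _
      (Fintype.card Ω * (s ^ t * t ^ (2 * t) + s ^ (2 * t) * ε)) fun j hj => ?_) ?_
    · refine (bmoment g ε hε hb t ht (S j)).trans ?_
      have := hs j hj
      gcongr
    · rw [nsmul_eq_mul, mul_left_comm]
      exact mul_lt_mul_of_pos_left h h2
  obtain ⟨ω, _, hω⟩ := exists_lt_of_sum_lt h1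
  refine ⟨ω, fun j hj => ?_⟩
  have h3 := (single_le_sum (f := fun j => (∑ x ∈ S j, (if g ω x then (-1 : ℝ) else 1)) ^ (2 * t))
    (fun j _ => (even_two_mul t).pow_nonneg _) hj).trans_lt hω
  rw [← (even_two_mul t).pow_abs] at h3
  exact (lt_of_pow_lt_pow_left₀ _ hlam h3).le

end Crest.Agent.D3
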