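import Mathlib
import Crest.Prelude.Def_Complexity
import Crest.Prelude.Def_Depth3

/-! S0440 (depth-three lower bound): definitions and the statements of the pieces. -/

set_option autoImplicit false
set_option linter.dupNamespace false

namespace Crest.Agent.D3

open Finset Crest.Depth3

/-- A clause: a finite set of literals `(i, b)`, true at `y` when `y i = b`. -/
abbrev Cl (n : ℕ) := Finset (Fin n × Bool)

/-- `y` satisfies every clause of `ψ`. -/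
def Sat {n : ℕ} (ψ : Finset (Cl n)) (y : Fin n → Bool) : Prop :=
  ∀ C ∈ ψ, ∃ l ∈ C, y l.1 = l.2

instance {n : ℕ} (ψ : Finset (Cl n)) : DecidablePred (Sat ψ) := fun y => by
  unfold Sat; infer_instance

/-- The variables of a clause. -/
def vars {n : ℕ} (C : Cl n) : Finset (Fin n) := C.image Prod.fst

/-- The points that agree with `f` outside `U`. -/
def fib {n : ℕ} (U : Finset (Fin n)) (f : Fin n → Bool) : Finset (Fin n → Bool) :=
  univ.filter fun y => ∀ i, i ∉ U → y i = f i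

/-- The sum of `h` over the solutions of `ψ` in `X`. -/
def corr {n : ℕ} (X : Finset (Fin n → Bool)) (ψ : Finset (Cl n)) (h : (Fin n → Bool) → ℝ) : ℝ :=
  ∑ y ∈ X, if Sat ψ y then h y else 0

/-! ### The language -/

/-- Big-endian value of a bit string. -/
def bv (l : List Bool) : ℕ := l.foldl (fun a b => 2 * a + cond b 1 0) 0

/-- `t ^ bv l` modulo `q`, by square and multiply. -/
def pw (t q : ℕ) (l : List Bool) : ℕ := l.foldl (fun a b => (a * a * cond b t 1) % q) 1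

/-- The `i`-th seed field of the input. -/
def fld (x : List Bool) (i : ℕ) : ℕ :=
  bv ((x.drop ((1 + 20 * i) * (x.length / 100))).take (20 * (x.length / 100)))

/-- The test: with `y` the first hundredth of the input and `s, t, b, q` the four seed fields,
`(s * t ^ y + b) mod q < q / 6`. -/
def dec (x : List Bool) : Bool :=
  decide (6 * ((fld x 0 * pw (fld x 1) (fld x 3) (x.take (x.length / 100)) + fld x 2) % fld x 3)
    < fld x 3)

/-- The hard language. -/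
def Lang : Set (List Bool) := {x | dec x = true}

/-! ### Sparsification state -/

section Sparse

variable {L : Type} [DecidableEq L]

/-- Number of `j`-sets of `S` containing `H`. -/
def cnt (S : Finset (Finset L)) (H : Finset L) (j : ℕ) : ℕ :=
  (S.filter fun C => C.card = j ∧ H ⊆ C).card

/-- Flower threshold for petal size `i`. -/
def theta (w a i : ℕ) : ℕ := a * (4 * w * a) ^ (i - 1)

/-- Potential of the set `N` of new clauses. -/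
def pot (w a : ℕ) (N : Finset (Finset L)) : ℕ := ∑ C ∈ N, (4 * w * a) ^ (w - C.card)

/-- `S` has a flower of `j`-sets with heart `H`. -/
def Flower (w a : ℕ) (S : Finset (Finset L)) (H : Finset L) (j : ℕ) : Prop :=
  H.Nonempty ∧ H.card < j ∧ theta w a (j - H.card) ≤ cnt S H j

/-- Invariant of the sparsification process: `S` current clauses, `N ⊆ S` the new ones. -/
structure Inv (Λ : Finset L) (w a : ℕ) (S N : Finset (Finset L)) : Prop where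
  sub : ∀ C ∈ S, C ⊆ Λ ∧ C.card ≤ w
  anti : ∀ C ∈ S, ∀ D ∈ S, C ⊆ D → C = D
  new : N ⊆ S
  ne : ∀ C ∈ N, C.Nonempty
  few : ∀ H : Finset L, H.Nonempty → ∀ j, H.card < j → cnt N H j ≤ 2 * theta w a (j - H.card)

/-- The truth assignment `s` meets every set of `S`. -/
def Hit (s : L → Prop) (S : Finset (Finset L)) : Prop := ∀ C ∈ S, ∃ l ∈ C, s l

open Classical in
/-- Sum of `h` over the points of `X` falsifying all literals of `F` and satisfying `S`. -/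
noncomputable def val {Ω : Type} (X : Finset Ω) (s : Ω → L → Prop) (h : Ω → ℝ) (F : Finset L)
    (S : Finset (Finset L)) : ℝ :=
  ∑ y ∈ X, if (∀ l ∈ F, ¬ s y l) ∧ Hit (s y) S then h y else 0

end Sparse

/-! ### The pieces -/

/-- Piece `Fib`. -/
def FibStmt : Prop :=
  (∀ (n : ℕ) (U : Finset (Fin n)) (f : Fin n → Bool), (fib U f).card = 2 ^ U.card) ∧
  ∀ (n : ℕ) (U' U : Finset (Fin n)) (f : Fin n → Bool) (g : (Fin n → Bool) → ℝ), U' ⊆ U →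
    ∑ f' ∈ fib U f, ∑ y ∈ fib U' f', g y = 2 ^ U'.card * ∑ y ∈ fib U f, g y

/-- Piece `Key`: a `k`-CNF correlates with `h` no more than narrow CNFs on a random fibre. -/
def KeyStmt : Prop :=
  ∀ (n k w : ℕ) (p : ℝ), 0 ≤ p → p < 1 →
    ∑ j ∈ (range (k + 1)).filter (fun j => w < j), (k.choose j : ℝ) * (p / (1 - p)) ^ j ≤ 1 →
    ∀ (h : (Fin n → Bool) → ℝ) (γ : Finset (Fin n) → ℝ),
      (∀ U f ψ, (∀ C ∈ ψ, (vars C ∩ U).card ≤ w) → |corr (fib U f) ψ h| ≤ γ U * 2 ^ U.card) →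
      ∀ φ : Finset (Cl n), (∀ C ∈ φ, C.card ≤ k) →
        |corr univ φ h| ≤
          2 ^ n * ∑ U : Finset (Fin n), p ^ U.card * (1 - p) ^ (n - U.card) * γ U

/-- Piece `SpStep`: one branching step of the sparsification process. -/
def SpStepStmt : Prop :=
  ∀ (L : Type) [DecidableEq L] (Λ : Finset L) (w a : ℕ) (S N : Finset (Finset L)), 1 ≤ a → 1 ≤ w →
    Inv Λ w a S N → (∃ H j, Flower w a S H j) →
    ∃ (H : Finset L) (S₁ N₁ S₂ N₂ : Finset (Finset L)), H ⊆ Λ ∧ Inv Λ w a S₁ N₁ ∧ Inv Λ w a S₂ N₂ ∧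
      pot w a N + 1 ≤ pot w a N₁ ∧ 2 * pot w a N + a * (4 * w * a) ^ (w - 1) ≤ 2 * pot w a N₂ ∧
      (∀ s : L → Prop, Hit s S₁ ↔ Hit s S ∧ ∃ l ∈ H, s l) ∧
      (∀ s : L → Prop, (∀ l ∈ H, ¬ s l) → (Hit s S₂ ↔ Hit s S))

/-- Piece `SpBound`: the potential is bounded, flower-free formulas are sparse, and every formula
has an equivalent antichain. -/
def SpBoundStmt : Prop :=
  ∀ (L : Type) [DecidableEq L] (Λ : Finset L) (w a : ℕ), 1 ≤ a → 1 ≤ w →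
    (∀ S N : Finset (Finset L), Inv Λ w a S N →
      2 * pot w a N ≤ 3 * Λ.card * (4 * w * a) ^ (w - 1)) ∧
    (∀ S : Finset (Finset L), (∀ C ∈ S, C ⊆ Λ ∧ C.card ≤ w) → (¬ ∃ H j, Flower w a S H j) →
      S.card ≤ (1 + w * theta w a w) * (Λ.card + 1)) ∧
    (∀ S : Finset (Finset L), (∀ C ∈ S, C ⊆ Λ ∧ C.card ≤ w) →
      ∃ S', Inv Λ w a S' ∅ ∧ ∀ s : L → Prop, Hit s S' ↔ Hit s S)

/-- Sparsification, in the form used. -/
def SparseStmt : Prop :=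
  ∀ w : ℕ, ∃ c : ℕ, ∀ (L Ω : Type) [DecidableEq L] (Λ : Finset L) (X : Finset Ω)
    (s : Ω → L → Prop) (h : Ω → ℝ) (B : ℝ),
    (∀ F S, F ⊆ Λ → (∀ C ∈ S, C ⊆ Λ ∧ C.card ≤ w) → S.card ≤ c * (Λ.card + 1) →
      |val X s h F S| ≤ B) →
    ∀ S, (∀ C ∈ S, C ⊆ Λ ∧ C.card ≤ w) → |val X s h ∅ S| ≤ (2 : ℝ) ^ ((Λ.card : ℝ) / 16) * B

/-- Piece `SpMain`. -/
def SpMainStmt : Prop := SpStepStmt → SpBoundStmt → SparseStmt

/-- Narrow formulas on large fibres, from sparse formulas on fibres of dimension `8 μ`. -/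
def GamConc : Prop :=
  ∀ w : ℕ, ∃ c : ℕ, ∀ (n μ : ℕ) (h : (Fin n → Bool) → ℝ) (B : ℝ),
    (∀ U f S, U.card = 8 * μ → S.card ≤ c * (μ + 1) → (∀ C ∈ S, C.card ≤ 2 * w + 1) →
      |corr (fib U f) S h| ≤ B) →
    ∀ U f ψ, 8 * μ ≤ U.card → (∀ C ∈ ψ, (vars C ∩ U).card ≤ w) →
      |corr (fib U f) ψ h| ≤ 2 ^ μ * B * 2 ^ (U.card - 8 * μ)

/-- Piece `Gam`. -/
def GamStmt : Prop := FibStmt → SparseStmt → GamConc

/-- Piece `Mom`: the `2j`-th moment of the character sums. -/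
def MomStmt : Prop :=
  ∀ (q : ℕ) [Fact q.Prime] (Ω : Type) (v : Ω → ℕ) (E j : ℕ) (Y : Finset Ω),
    Function.Injective v → (∀ y, v y ≤ E) → j < q →
    ∑ s : ZMod q, ∑ t : ZMod q, ‖∑ y ∈ Y, (ZMod.stdAddChar (s * t ^ v y) : ℂ)‖ ^ (2 * j) ≤
      (q : ℝ) ^ 2 * (j : ℝ) ^ j * (Y.card : ℝ) ^ j + q * E * (Y.card : ℝ) ^ (2 * j)

/-- A good seed. -/
def PrgConc : Prop :=
  ∀ (n μ : ℕ) (𝓨 : Finset (Finset (Fin n → Bool))) (v : (Fin n → Bool) → ℕ),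
    5 ≤ n → 1 ≤ μ → 8 * μ ≤ n → 3 * n + 2 ≤ 4 ^ μ → 𝓨.card ≤ 2 ^ (3 * n) →
    (∀ Y ∈ 𝓨, Y.card ≤ 2 ^ (8 * μ)) → Function.Injective v → (∀ y, v y < 2 ^ n) →
    ∃ s t b q : ℕ, s < 2 ^ (20 * n) ∧ t < 2 ^ (20 * n) ∧ b < 2 ^ (20 * n) ∧ q < 2 ^ (20 * n) ∧
      0 < q ∧ ∃ h : (Fin n → Bool) → ℝ, (∀ y, |h y| ≤ 1) ∧
        (∀ y, 6 * ((s * t ^ v y + b) % q) < q → 1 / 2 ≤ h y) ∧
        2 ^ n ≤ 6 * (univ.filter fun y => 6 * ((s * t ^ v y + b) % q) < q).card ∧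
        ∀ Y ∈ 𝓨, |∑ y ∈ Y, h y| ≤ 2 ^ (6 * μ)

/-- Piece `Prg`. -/
def PrgStmt : Prop := MomStmt → PrgConc

/-- Piece `Cnt`: few describable sets. -/
def CntStmt : Prop :=
  FibStmt → ∀ n m w T : ℕ, ∃ 𝓨 : Finset (Finset (Fin n → Bool)),
    𝓨.card ≤ 4 ^ n * ((2 * n + 1) ^ w + 1) ^ T ∧ (∀ Y ∈ 𝓨, Y.card ≤ 2 ^ m) ∧
    ∀ (U : Finset (Fin n)) (f : Fin n → Bool) (S : Finset (Cl n)), U.card = m → S.card ≤ T →
      (∀ C ∈ S, C.card ≤ w) → (fib U f).filter (Sat S) ∈ 𝓨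

open Classical in
/-- Piece `Red`: a small circuit for a dense set gives a `k`-CNF with large correlation. -/
def RedStmt : Prop :=
  ∀ (n k : ℕ) (c : Circuit n) (h : (Fin n → Bool) → ℝ), (∀ y, |h y| ≤ 1) →
    (∀ y, c.eval y → 1 / 2 ≤ h y) → 2 ^ n ≤ 6 * (univ.filter fun y => c.eval y).card →
    ∃ φ : Finset (Cl n), (∀ C ∈ φ, C.card ≤ k) ∧
      (2 : ℝ) ^ n * (1 / (12 * c.size) - c.size / 2 ^ k) ≤ corr univ φ h

/-- Piece `PT`. -/
def PTStmt : Prop := Crest.Complexity.InP Lang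

/-- Piece `Seed`: fixing the seed bits of a circuit for the language. -/
def SeedStmt : Prop :=
  (∀ n : ℕ, Function.Injective fun y : Fin n → Bool => bv (List.ofFn y)) ∧
  (∀ (n : ℕ) (y : Fin n → Bool), bv (List.ofFn y) < 2 ^ n) ∧
  ∀ (n s t b q : ℕ), s < 2 ^ (20 * (n / 100)) → t < 2 ^ (20 * (n / 100)) →
    b < 2 ^ (20 * (n / 100)) → q < 2 ^ (20 * (n / 100)) → 0 < q →
    ∀ c : Circuit n, (∀ x : Fin n → Bool, c.eval x ↔ List.ofFn x ∈ Lang) →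
      ∃ c' : Circuit (n / 100), c'.size = c.size ∧
        ∀ y, c'.eval y ↔ 6 * ((s * t ^ bv (List.ofFn y) + b) % q) < q

/-- Piece `Num`: binomial tails. -/
def NumStmt : Prop :=
  (∀ (n : ℕ) (p : ℝ), ∑ U : Finset (Fin n), p ^ U.card * (1 - p) ^ (n - U.card) = 1) ∧
  (∀ (n m : ℕ) (p : ℝ), 0 ≤ p → p ≤ 1 → 4 * m ≤ p * n →
    ∑ U ∈ (univ : Finset (Finset (Fin n))).filter (fun U => U.card < m),
      p ^ U.card * (1 - p) ^ (n - U.card) ≤ 1 / 2 ^ m) ∧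
  ∀ K k : ℕ, 1 ≤ K → 2 * K ≤ k →
    ∑ j ∈ (range (k + 1)).filter (fun j => 6 * K < j),
      (k.choose j : ℝ) * (((K : ℝ) / k) / (1 - (K : ℝ) / k)) ^ j ≤ 1

/-- Piece `Asy`: the choice of parameters. -/
def AsyStmt : Prop :=
  ∀ A : ℕ, 1 ≤ A → ∃ K : ℕ, 1 ≤ K ∧ ∀ w c : ℕ, ∃ N : ℕ, ∀ n ≥ N, ∀ μ k : ℕ,
    μ = A * (Nat.sqrt n + 1) + 7 → k = 2 * A * (Nat.sqrt n + 1) + 5 →
    5 ≤ n / 100 ∧ 8 * μ ≤ n / 100 ∧ 3 * (n / 100) + 2 ≤ 4 ^ μ ∧ 2 * K ≤ k ∧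
      32 * μ * k ≤ K * (n / 100) ∧
      ((2 * (n / 100) + 1) ^ w + 1) ^ (c * (μ + 1)) ≤ 2 ^ (n / 100)

/-- Piece `Fin`. -/
def FinStmt : Prop :=
  FibStmt → KeyStmt → GamConc → PrgConc → CntStmt → RedStmt → SeedStmt → NumStmt → AsyStmt →
    ∀ A : ℝ, 0 < A → ∃ N : ℕ, ∀ n ≥ N, ∀ c : Circuit n,
      (∀ x : Fin n → Bool, c.eval x ↔ List.ofFn x ∈ Lang) →
        (2 : ℝ) ^ (A * Real.sqrt n) < (c.size : ℝ)

end Crest.Agent.D3
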