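import Mathlib

/-! Disjoint sparsification (Impagliazzo–Paturi–Zane), signed-sum form. -/

namespace Crest.Agent.D3.SpH3

open Finset

variable {L : Type} [DecidableEq L]

def deg (S : Finset (Finset L)) (c : ℕ) (H : Finset L) : ℕ :=
  (S.filter (fun C => C.card = c ∧ H ⊆ C)).card

noncomputable def wt (q i : ℕ) : ℝ := ((q : ℝ) ^ (i ^ 2))⁻¹

noncomputable def psi (q : ℕ) (W : Finset (Finset L)) : ℝ := ∑ C ∈ W, wt q C.card

structure Good (K q : ℕ) (S W : Finset (Finset L)) : Prop where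
  sub : W ⊆ S
  ne : ∀ C ∈ S, C.Nonempty
  le : ∀ C ∈ S, C.card ≤ K
  anti : ∀ C ∈ S, ∀ D ∈ S, C ⊆ D → C = D
  inv : ∀ c H, H.Nonempty → H.card < c → deg W c H ≤ 2 * q ^ ((c - H.card) ^ 2)

lemma deg_mono {S S' : Finset (Finset L)} (h : S ⊆ S') (c : ℕ) (H : Finset L) :
    deg S c H ≤ deg S' c H :=
  card_le_card (filter_subset_filter _ h)

lemma wt_pos {q : ℕ} (hq : 2 ≤ q) (i : ℕ) : 0 < wt q i := by
  unfold wt
  have : (0 : ℝ) < q := by exact_mod_cast (by omega : 0 < q)
  positivity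

lemma wt_step {q : ℕ} (hq : 2 ≤ q) {d i : ℕ} (hd : 1 ≤ d) (hi : d < i) :
    (q : ℝ) ^ ((i - d) ^ 2) * wt q i ≤ wt q d / (q : ℝ) ^ 2 := by
  unfold wt
  have hq0 : (0 : ℝ) < q := by exact_mod_cast (by omega : 0 < q)
  have hq1 : (1 : ℝ) ≤ q := by exact_mod_cast (by omega : 1 ≤ q)
  obtain ⟨p, rfl⟩ : ∃ p, i = d + (p + 1) := ⟨i - d - 1, by omega⟩
  have e : d + (p + 1) - d = p + 1 := by omega
  rw [e]
  have hle : (p + 1) ^ 2 + (d ^ 2 + 2) ≤ (d + (p + 1)) ^ 2 := by nlinarith
  have h2 : (q : ℝ) ^ ((p + 1) ^ 2 + (d ^ 2 + 2)) ≤ (q : ℝ) ^ ((d + (p + 1)) ^ 2) :=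
    pow_le_pow_right₀ hq1 hle
  rw [pow_add, pow_add] at h2
  rw [← div_eq_mul_inv, div_le_div_iff₀ (by positivity) (by positivity), inv_mul_eq_div,
    le_div_iff₀ (by positivity)]
  nlinarith [h2]

lemma wt_anti {q : ℕ} (hq : 2 ≤ q) {i K : ℕ} (h : i ≤ K) : wt q K ≤ wt q i := by
  unfold wt
  have hq0 : (0 : ℝ) < q := by exact_mod_cast (by omega : 0 < q)
  have hq1 : (1 : ℝ) ≤ q := by exact_mod_cast (by omega : 1 ≤ q)
  apply inv_anti₀ (by positivity)
  exact pow_le_pow_right₀ hq1 (Nat.pow_le_pow_left h 2)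

lemma elim {K q : ℕ} (hq : 4 * K ≤ q ^ 2) (hq2 : 2 ≤ q) {S W : Finset (Finset L)}
    (h : Good K q S W) {D : Finset L} (hD : D.Nonempty) :
    ∑ C ∈ W with D ⊂ C, wt q C.card ≤ wt q D.card / 2 := by
  have hq0 : (0 : ℝ) < q := by exact_mod_cast (by omega : 0 < q)
  have hmap : ∀ C ∈ W.filter (fun C => D ⊂ C), C.card ∈ Ioc D.card K := by
    intro C hC
    rw [mem_filter] at hC
    exact mem_Ioc.2 ⟨card_lt_card hC.2, h.le C (h.sub hC.1)⟩
  rw [← sum_fiberwise_of_maps_to hmap]
  have hw := wt_pos hq2 D.card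
  have key : ∀ i ∈ Ioc D.card K,
      ∑ C ∈ (W.filter (fun C => D ⊂ C)).filter (fun C => C.card = i), wt q C.card
        ≤ 2 * (wt q D.card / (q : ℝ) ^ 2) := by
    intro i hi
    rw [mem_Ioc] at hi
    have h1 : ∑ C ∈ (W.filter (fun C => D ⊂ C)).filter (fun C => C.card = i), wt q C.card
        = (((W.filter (fun C => D ⊂ C)).filter (fun C => C.card = i)).card : ℝ) * wt q i := by
      rw [sum_congr rfl (g := fun _ => wt q i)]
      · simp
      · intro C hC
        rw [(mem_filter.1 hC).2]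
    have h2 : ((W.filter (fun C => D ⊂ C)).filter (fun C => C.card = i)).card ≤ deg W i D := by
      apply card_le_card
      intro C hC
      simp only [mem_filter] at hC ⊢
      exact ⟨hC.1.1, hC.2, hC.1.2.subset⟩
    have h3 := h.inv i D hD hi.1
    have h4 : (((W.filter (fun C => D ⊂ C)).filter (fun C => C.card = i)).card : ℝ)
        ≤ 2 * (q : ℝ) ^ ((i - D.card) ^ 2) := by exact_mod_cast h2.trans h3
    have h5 := wt_step hq2 (card_pos.2 hD) hi.1
    have h6 := wt_pos hq2 i
    rw [h1]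
    calc _ ≤ 2 * (q : ℝ) ^ ((i - D.card) ^ 2) * wt q i := by gcongr
      _ ≤ _ := by linarith
  refine (sum_le_card_nsmul _ _ _ key).trans ?_
  have hc : ((Ioc D.card K).card : ℝ) ≤ K := by
    rw [Nat.card_Ioc]; exact_mod_cast Nat.sub_le _ _
  have hq' : (4 * K : ℝ) ≤ (q : ℝ) ^ 2 := by exact_mod_cast hq
  rw [nsmul_eq_mul]
  have hq22 : (0 : ℝ) < (q : ℝ) ^ 2 := by positivity
  calc _ ≤ (K : ℝ) * (2 * (wt q D.card / (q : ℝ) ^ 2)) := by gcongr
    _ = wt q D.card / 2 * ((4 * K) / (q : ℝ) ^ 2) := by field_simp; ring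
    _ ≤ wt q D.card / 2 * 1 := by
        gcongr
        rw [div_le_one hq22]; exact hq'
    _ = _ := by ring

lemma sum_le_cover {A B : Type} [DecidableEq A] (W : Finset A) (I : Finset B) (r : B → A → Prop)
    [∀ b a, Decidable (r b a)] (f : A → ℝ) (hf : ∀ a, 0 ≤ f a)
    (hc : ∀ a ∈ W, ∃ b ∈ I, r b a) :
    ∑ a ∈ W, f a ≤ ∑ b ∈ I, ∑ a ∈ W with r b a, f a := by
  simp_rw [sum_filter]
  rw [sum_comm]
  apply sum_le_sum
  intro a ha
  obtain ⟨b, hb, hr⟩ := hc a ha
  have := single_le_sum (f := fun b => if r b a then f a else 0)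
    (fun b _ => by by_cases h : r b a <;> simp [h, hf a]) hb
  simpa [hr] using this

lemma psi_le [Fintype L] {K q : ℕ} (hq : 4 * K ≤ q ^ 2) (hq2 : 2 ≤ q) {S W : Finset (Finset L)}
    (h : Good K q S W) : psi q W ≤ 2 * Fintype.card L / q := by
  have hq0 : (0 : ℝ) < q := by exact_mod_cast (by omega : 0 < q)
  unfold psi
  have h1 := sum_le_cover W (univ : Finset L) (fun l C => ({l} : Finset L) ⊆ C)
    (fun C => wt q C.card) (fun C => (wt_pos hq2 _).le) (by
      intro C hC
      obtain ⟨l, hl⟩ := h.ne C (h.sub hC)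
      exact ⟨l, mem_univ _, by simpa using hl⟩)
  refine h1.trans ?_
  have key : ∀ l ∈ (univ : Finset L),
      ∑ C ∈ W with ({l} : Finset L) ⊆ C, wt q C.card ≤ 2 / (q : ℝ) := by
    intro l _
    have hsub : W.filter (fun C => ({l} : Finset L) ⊆ C)
        ⊆ insert {l} (W.filter (fun C => ({l} : Finset L) ⊂ C)) := by
      intro C hC
      rw [mem_filter] at hC
      rw [mem_insert, mem_filter]
      rcases hC.2.eq_or_ssubset with h1 | h1
      · exact Or.inl h1.symm
      · exact Or.inr ⟨hC.1, h1⟩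
    have h2 := sum_le_sum_of_subset_of_nonneg hsub
      (f := fun C => wt q C.card) (fun C _ _ => (wt_pos hq2 _).le)
    rw [sum_insert (by simp)] at h2
    have h3 := elim hq hq2 h (D := {l}) (singleton_nonempty l)
    have h4 : wt q 1 = 1 / (q : ℝ) := by simp [wt]
    rw [card_singleton] at h2 h3
    rw [h4] at h2 h3
    have h5 : (0 : ℝ) < 1 / q := by positivity
    have h6 : (2 : ℝ) / q = 2 * (1 / q) := by ring
    linarith
  refine (sum_le_card_nsmul _ _ _ key).trans ?_
  rw [nsmul_eq_mul, card_univ]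
  apply le_of_eq; ring

def upd (F S : Finset (Finset L)) : Finset (Finset L) :=
  F ∪ S.filter (fun C => ∀ D ∈ F, ¬ D ⊆ C)

lemma step {K q : ℕ} (hq : 4 * K ≤ q ^ 2) (hq2 : 2 ≤ q) {S W F : Finset (Finset L)}
    (h : Good K q S W) {d : ℕ} (hd : 1 ≤ d) (hF : ∀ D ∈ F, D.card = d)
    (hFS : ∀ D ∈ F, ∃ C ∈ S, D ⊂ C)
    (hnv : ∀ H : Finset L, H.Nonempty → H.card < d → deg S d H ≤ q ^ ((d - H.card) ^ 2))
    (hFd : ∀ H : Finset L, H.Nonempty → H.card < d → deg F d H ≤ q ^ ((d - H.card) ^ 2)) :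
    Good K q (upd F S) (upd F W) ∧ psi q W + F.card * wt q d / 2 ≤ psi q (upd F W) := by
  constructor
  · refine ⟨?_, ?_, ?_, ?_, ?_⟩
    · exact union_subset_union subset_rfl (filter_subset_filter _ h.sub)
    · intro C hC
      rcases mem_union.1 hC with hC | hC
      · exact card_pos.1 (by rw [hF C hC]; exact hd)
      · exact h.ne C (mem_filter.1 hC).1
    · intro C hC
      rcases mem_union.1 hC with hC | hC
      · obtain ⟨C', h1, h2⟩ := hFS C hC
        exact (card_le_card h2.subset).trans (h.le C' h1)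
      · exact h.le C (mem_filter.1 hC).1
    · intro C hC D hD hCD
      rcases mem_union.1 hC with hC | hC <;> rcases mem_union.1 hD with hD | hD
      · exact eq_of_subset_of_card_le hCD (by rw [hF C hC, hF D hD])
      · exact absurd hCD ((mem_filter.1 hD).2 C hC)
      · obtain ⟨C', h1, h2⟩ := hFS D hD
        have := h.anti C (mem_filter.1 hC).1 C' h1 (hCD.trans h2.subset)
        subst this
        exact absurd h2.subset ((mem_filter.1 hC).2 D hD)
      · exact h.anti C (mem_filter.1 hC).1 D (mem_filter.1 hD).1 hCD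
    · intro c H hH hc
      have h1 : deg (upd F W) c H ≤ deg F c H + deg W c H := by
        unfold deg upd
        rw [filter_union]
        refine (card_union_le _ _).trans ?_
        exact Nat.add_le_add_left (card_le_card (filter_subset_filter _ (filter_subset _ _))) _
      by_cases hcd : c = d
      · subst hcd
        have h2 := hFd H hH hc
        have h3 := (deg_mono h.sub c H).trans (hnv H hH hc)
        omega
      · have h2 : deg F c H = 0 := by
          unfold deg
          rw [card_eq_zero, filter_eq_empty_iff]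
          intro D hD h3
          exact hcd (h3.1.symm.trans (hF D hD))
        have h3 := h.inv c H hH hc
        omega
  · unfold psi upd
    rw [sum_union (by
      rw [disjoint_left]
      intro D hD h2
      exact (mem_filter.1 h2).2 D hD subset_rfl)]
    have h1 : ∑ D ∈ F, wt q D.card = F.card * wt q d := by
      rw [sum_congr rfl (g := fun _ => wt q d)]
      · simp
      · intro D hD; rw [hF D hD]
    rw [h1, ← sum_filter_add_sum_filter_not W (fun C => ∀ D ∈ F, ¬ D ⊆ C)]
    have h2 := sum_le_cover (W.filter (fun C => ¬ ∀ D ∈ F, ¬ D ⊆ C)) F (fun D C => D ⊂ C)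
      (fun C => wt q C.card) (fun C => (wt_pos hq2 _).le) (by
        intro C hC
        rw [mem_filter] at hC
        have h3 := hC.2
        push Not at h3
        obtain ⟨D, hD, hDC⟩ := h3
        refine ⟨D, hD, ?_⟩
        rcases hDC.eq_or_ssubset with h4 | h4
        · subst h4
          obtain ⟨C', h5, h6⟩ := hFS D hD
          have := h.anti D (h.sub hC.1) C' h5 h6.subset
          subst this
          exact absurd h6 (lt_irrefl _)
        · exact h4)
    have h3 : ∀ D ∈ F, ∑ C ∈ (W.filter (fun C => ¬ ∀ D ∈ F, ¬ D ⊆ C)) with D ⊂ C, wt q C.card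
        ≤ wt q d / 2 := by
      intro D hD
      have h4 := elim hq hq2 h (D := D) (card_pos.1 (by rw [hF D hD]; exact hd))
      rw [hF D hD] at h4
      refine le_trans ?_ h4
      exact sum_le_sum_of_subset_of_nonneg (filter_subset_filter _ (filter_subset _ _))
        (fun C _ _ => (wt_pos hq2 _).le)
    have h4 := sum_le_card_nsmul _ _ _ h3
    rw [nsmul_eq_mul] at h4
    linarith

def Sat (S : Finset (Finset L)) (X : Finset L) : Prop := ∀ C ∈ S, ∃ l ∈ C, l ∈ X

lemma sat_upd (F S : Finset (Finset L)) (X : Finset L) :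
    Sat (upd F S) X ↔ Sat F X ∧ Sat S X := by
  constructor
  · intro h
    refine ⟨fun D hD => h D (mem_union_left _ hD), fun C hC => ?_⟩
    by_cases h1 : ∀ D ∈ F, ¬ D ⊆ C
    · exact h C (mem_union_right _ (mem_filter.2 ⟨hC, h1⟩))
    · push Not at h1
      obtain ⟨D, hD, hDC⟩ := h1
      obtain ⟨l, h2, h3⟩ := h D (mem_union_left _ hD)
      exact ⟨l, hDC h2, h3⟩
  · rintro ⟨h1, h2⟩ C hC
    rcases mem_union.1 hC with hC | hC
    · exact h1 C hC
    · exact h2 C (mem_filter.1 hC).1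

lemma card_le_of_nv [Fintype L] {K q : ℕ} (hq2 : 2 ≤ q) {S : Finset (Finset L)}
    (hne : ∀ C ∈ S, C.Nonempty) (hle : ∀ C ∈ S, C.card ≤ K)
    (hnv : ∀ c, ∀ H : Finset L, H.Nonempty → H.card < c → deg S c H ≤ q ^ ((c - H.card) ^ 2)) :
    S.card ≤ Fintype.card L * (K * q ^ (K ^ 2)) := by
  have h1 : S ⊆ (univ : Finset L).biUnion (fun l => (Icc 1 K).biUnion
      (fun c => S.filter (fun C => C.card = c ∧ ({l} : Finset L) ⊆ C))) := by
    intro C hC
    obtain ⟨l, hl⟩ := hne C hC
    simp only [mem_biUnion, mem_univ, true_and, mem_filter, mem_Icc]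
    exact ⟨l, C.card, ⟨card_pos.2 (hne C hC), hle C hC⟩, hC, rfl, by simpa using hl⟩
  refine (card_le_card h1).trans (card_biUnion_le.trans ?_)
  rw [← card_univ, ← smul_eq_mul]
  apply sum_le_card_nsmul
  intro l _
  refine card_biUnion_le.trans ?_
  have hK : K = (Icc 1 K).card := by simp
  conv_rhs => rw [hK, ← smul_eq_mul]
  rw [← hK]
  refine (sum_le_card_nsmul _ _ (q ^ (K ^ 2)) ?_).trans (by rw [← hK])
  intro c hc
  rw [mem_Icc] at hc
  by_cases hc1 : c = 1
  · subst hc1
    refine le_trans ?_ (Nat.one_le_pow _ _ (by omega))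
    rw [card_le_one]
    intro C hC D hD
    rw [mem_filter] at hC hD
    rw [← eq_of_subset_of_card_le hC.2.2 (by rw [hC.2.1]; simp),
      ← eq_of_subset_of_card_le hD.2.2 (by rw [hD.2.1]; simp)]
  · have := hnv c {l} (singleton_nonempty l) (by rw [card_singleton]; omega)
    refine this.trans (Nat.pow_le_pow_right (by omega) (Nat.pow_le_pow_left ?_ 2))
    omega

lemma branch {K q : ℕ} (hq : 4 * K ≤ q ^ 2) (hq2 : 2 ≤ q) {S W : Finset (Finset L)}
    (h : Good K q S W)
    (hv : ∃ c, ∃ H : Finset L, H.Nonempty ∧ H.card < c ∧ q ^ ((c - H.card) ^ 2) < deg S c H) :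
    ∃ (H : Finset L) (S1 W1 S2 W2 : Finset (Finset L)), Good K q S1 W1 ∧ Good K q S2 W2 ∧
      psi q W + wt q K / 2 ≤ psi q W1 ∧ psi q W + 1 / 2 ≤ psi q W2 ∧
      (∀ X, Sat S1 X ↔ (Sat S X ∧ ¬ ∀ l ∈ H, l ∉ X)) ∧
      (∀ X, (∀ l ∈ H, l ∉ X) → (Sat S2 X ↔ Sat S X)) := by
  classical
  let c := Nat.find hv
  have hc : ∃ H : Finset L, H.Nonempty ∧ H.card < c ∧ q ^ ((c - H.card) ^ 2) < deg S c H :=
    Nat.find_spec hv
  have hmin : ∀ d < c, ∀ H : Finset L, H.Nonempty → H.card < d →
      deg S d H ≤ q ^ ((d - H.card) ^ 2) := by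
    intro d hd H h1 h2
    by_contra h3
    exact Nat.find_min hv hd ⟨H, h1, h2, not_le.1 h3⟩
  clear_value c
  have hex : ∃ p, ∃ H : Finset L, c - H.card = p ∧ H.Nonempty ∧ H.card < c ∧
      q ^ ((c - H.card) ^ 2) < deg S c H := by
    obtain ⟨H, h1⟩ := hc
    exact ⟨_, H, rfl, h1⟩
  obtain ⟨H, hp, hH, hHc, hdeg⟩ := Nat.find_spec hex
  have hmax : ∀ H' : Finset L, H.card < H'.card → H'.card < c →
      deg S c H' ≤ q ^ ((c - H'.card) ^ 2) := by
    intro H' h1 h2
    by_contra h3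
    exact Nat.find_min hex (m := c - H'.card) (by omega)
      ⟨H', rfl, card_pos.1 (by omega), h2, not_le.1 h3⟩
  clear hp hc
  have hHpos := card_pos.2 hH
  set G := S.filter (fun C => C.card = c ∧ H ⊆ C) with hG
  have hGc : q ^ ((c - H.card) ^ 2) < G.card := hdeg
  obtain ⟨C0, hC0⟩ : G.Nonempty := card_pos.1 (by omega)
  rw [hG, mem_filter] at hC0
  have hcK : c ≤ K := hC0.2.1 ▸ h.le C0 hC0.1
  have s1 := step hq hq2 (F := {H}) h (d := H.card) hHpos (by simp)
    (by
      intro D hD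
      rw [mem_singleton] at hD
      subst hD
      refine ⟨C0, hC0.1, ?_⟩
      rw [ssubset_iff_subset_ne]
      refine ⟨hC0.2.2, ?_⟩
      rintro rfl
      omega)
    (hmin _ hHc)
    (by
      intro H' _ _
      refine le_trans ?_ (Nat.one_le_pow _ _ (by omega))
      exact (card_filter_le _ _).trans (by simp))
  have hinj : Set.InjOn (fun C => C \ H) (G : Set (Finset L)) := by
    intro C hC D hD hCD
    have h1 := (mem_filter.1 (mem_coe.1 hC)).2.2
    have h2 := (mem_filter.1 (mem_coe.1 hD)).2.2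
    have h3 : C \ H = D \ H := hCD
    rw [← sdiff_union_of_subset h1, ← sdiff_union_of_subset h2, h3]
  have s2 := step hq hq2 (F := G.image (fun C => C \ H)) h (d := c - H.card) (by omega)
    (by
      intro D hD
      obtain ⟨C, hC, rfl⟩ := mem_image.1 hD
      rw [hG, mem_filter] at hC
      rw [card_sdiff_of_subset hC.2.2, hC.2.1])
    (by
      intro D hD
      obtain ⟨C, hC, rfl⟩ := mem_image.1 hD
      rw [hG, mem_filter] at hC
      exact ⟨C, hC.1, sdiff_ssubset hC.2.2 hH⟩)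
    (hmin _ (by omega))
    (by
      intro H' h1 h2
      by_cases hd : Disjoint H H'
      · have h3 : (H ∪ H').card = H.card + H'.card := card_union_of_disjoint hd
        have h4 := card_pos.2 h1
        have h5 := hmax (H ∪ H') (by omega) (by omega)
        have e : c - (H ∪ H').card = c - H.card - H'.card := by omega
        rw [e] at h5
        refine le_trans ?_ h5
        unfold deg
        refine le_trans (card_le_card (t := (S.filter
          (fun C => C.card = c ∧ H ∪ H' ⊆ C)).image (fun C => C \ H)) ?_) card_image_le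
        intro D hD
        rw [mem_filter] at hD
        obtain ⟨C, hC, rfl⟩ := mem_image.1 hD.1
        rw [hG, mem_filter] at hC
        refine mem_image.2 ⟨C, mem_filter.2 ⟨hC.1, hC.2.1, ?_⟩, rfl⟩
        exact union_subset hC.2.2 (hD.2.2.trans sdiff_subset)
      · have h3 : deg (G.image (fun C => C \ H)) (c - H.card) H' = 0 := by
          unfold deg
          rw [card_eq_zero, filter_eq_empty_iff]
          intro D hD h4
          obtain ⟨C, hC, rfl⟩ := mem_image.1 hD
          apply hd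
          rw [disjoint_right]
          intro l hl
          exact (mem_sdiff.1 (h4.2 hl)).2
        omega)
  refine ⟨H, _, _, _, _, s1.1, s2.1, ?_, ?_, ?_, ?_⟩
  · have h1 := s1.2
    have h2 := wt_anti hq2 (i := H.card) (K := K) (by omega)
    simp only [card_singleton, Nat.cast_one, one_mul] at h1
    linarith
  · have h1 := s2.2
    rw [card_image_of_injOn hinj] at h1
    have hq0 : (0 : ℝ) < q := by exact_mod_cast (by omega : 0 < q)
    have h2 : (q : ℝ) ^ ((c - H.card) ^ 2) ≤ G.card := by exact_mod_cast hGc.le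
    have h3 : (1 : ℝ) ≤ G.card * wt q (c - H.card) := by
      unfold wt
      rw [← div_eq_mul_inv, le_div_iff₀ (by positivity)]
      linarith
    linarith
  · intro X
    rw [sat_upd]
    simp only [Sat, mem_singleton, forall_eq]
    push Not
    tauto
  · intro X hX
    rw [sat_upd]
    refine ⟨fun h => h.2, fun h1 => ⟨?_, h1⟩⟩
    intro D hD
    obtain ⟨C, hC, rfl⟩ := mem_image.1 hD
    rw [hG, mem_filter] at hC
    obtain ⟨l, h2, h3⟩ := h1 C hC.1
    exact ⟨l, mem_sdiff.2 ⟨h2, fun h4 => hX l h4 h3⟩, h3⟩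

lemma exp_ineq {K q : ℕ} (hq2 : 2 ≤ q) :
    Real.exp (-((2 * K ^ 2 * Real.log q + 2) * (wt q K / 2)))
      + Real.exp (-((2 * K ^ 2 * Real.log q + 2) * (1 / 2))) ≤ 1 := by
  have hq0 : (0 : ℝ) < q := by exact_mod_cast (by omega : 0 < q)
  have hq1 : (1 : ℝ) ≤ q := by exact_mod_cast (by omega : 1 ≤ q)
  have ha := wt_pos hq2 K
  have ha1 : wt q K ≤ 1 := by
    unfold wt
    exact inv_le_one_of_one_le₀ (one_le_pow₀ hq1)
  have hl := Real.log_nonneg hq1
  have h1 : Real.exp (-((2 * K ^ 2 * Real.log q + 2) * (1 / 2))) = wt q K * Real.exp (-1) := by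
    have : wt q K = Real.exp (-(K ^ 2 * Real.log q)) := by
      unfold wt
      rw [Real.exp_neg]
      congr 1
      rw [show (K : ℝ) ^ 2 * Real.log q = ((K ^ 2 : ℕ) : ℝ) * Real.log q by push_cast; ring,
        Real.exp_nat_mul, Real.exp_log hq0]
    rw [this, ← Real.exp_add]
    congr 1; ring
  have h2 : Real.exp (-1) ≤ 1 / 2 := by
    rw [Real.exp_neg, ← one_div]
    apply one_div_le_one_div_of_le (by norm_num)
    have := Real.add_one_le_exp 1
    linarith
  have h3 : Real.exp (-((2 * K ^ 2 * Real.log q + 2) * (wt q K / 2))) ≤ Real.exp (-wt q K) := by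
    apply Real.exp_le_exp.2
    have : 0 ≤ (K : ℝ) ^ 2 * Real.log q * wt q K := by positivity
    nlinarith
  have h4 : Real.exp (-wt q K) ≤ 1 - wt q K / 2 := by
    rw [Real.exp_neg, inv_le_comm₀ (Real.exp_pos _) (by linarith)]
    refine le_trans ?_ (Real.add_one_le_exp _)
    rw [inv_le_iff_one_le_mul₀ (by linarith)]
    nlinarith
  rw [h1]
  nlinarith

open Classical in
lemma main {Y : Type} [Fintype L] [Fintype Y] (T : Y → Finset L) (g : Y → ℝ) {K q : ℕ}
    (hq : 4 * K ≤ q ^ 2) (hq2 : 2 ≤ q) (M : ℝ) (hM0 : 0 ≤ M)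
    (hM : ∀ (S : Finset (Finset L)) (Z : Finset L), (∀ C ∈ S, C.card ≤ K) →
      S.card ≤ Fintype.card L * (K * q ^ (K ^ 2)) →
      |∑ y with (Sat S (T y) ∧ (∀ l ∈ Z, l ∉ T y)), g y| ≤ M) (n : ℕ) :
    ∀ (S W : Finset (Finset L)) (Z : Finset L), Good K q S W →
      2 * Fintype.card L / q - psi q W < n * (wt q K / 2) →
      |∑ y with (Sat S (T y) ∧ (∀ l ∈ Z, l ∉ T y)), g y|
        ≤ M * Real.exp ((2 * K ^ 2 * Real.log q + 2) * (2 * Fintype.card L / q - psi q W)) := by
  have hq1 : (1 : ℝ) ≤ q := by exact_mod_cast (by omega : 1 ≤ q)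
  have hl := Real.log_nonneg hq1
  have hγ : (0 : ℝ) ≤ 2 * K ^ 2 * Real.log q + 2 := by positivity
  have ha1 : wt q K ≤ 1 := by
    unfold wt
    exact inv_le_one_of_one_le₀ (one_le_pow₀ hq1)
  induction n with
  | zero =>
    intro S W Z h hn
    have := psi_le hq hq2 h
    simp only [Nat.cast_zero, zero_mul] at hn
    linarith
  | succ n ih =>
    intro S W Z h hn
    have hP := psi_le hq hq2 h
    by_cases hv : ∃ c, ∃ H : Finset L, H.Nonempty ∧ H.card < c ∧
        q ^ ((c - H.card) ^ 2) < deg S c H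
    · obtain ⟨H, S1, W1, S2, W2, g1, g2, p1, p2, e1, e2⟩ := branch hq hq2 h hv
      push_cast at hn
      have i1 := ih S1 W1 Z g1 (by linarith)
      have i2 := ih S2 W2 (Z ∪ H) g2 (by linarith)
      have split : ∑ y with (Sat S (T y) ∧ (∀ l ∈ Z, l ∉ T y)), g y
          = ∑ y with (Sat S1 (T y) ∧ (∀ l ∈ Z, l ∉ T y)), g y
            + ∑ y with (Sat S2 (T y) ∧ (∀ l ∈ Z ∪ H, l ∉ T y)), g y := by
        rw [← sum_filter_add_sum_filter_not _ (fun y => ¬ ∀ l ∈ H, l ∉ T y), filter_filter,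
          filter_filter]
        congr 1
        · apply sum_congr _ (fun _ _ => rfl)
          ext y
          simp only [mem_filter, mem_univ, true_and, e1]
          tauto
        · apply sum_congr _ (fun _ _ => rfl)
          ext y
          simp only [mem_filter, mem_univ, true_and, not_not, mem_union]
          constructor
          · rintro ⟨⟨h1, h2⟩, h3⟩
            exact ⟨(e2 _ h3).2 h1, fun l hl => hl.elim (h2 l) (h3 l)⟩
          · rintro ⟨h1, h2⟩
            have h3 : ∀ l ∈ H, l ∉ T y := fun l hl => h2 l (Or.inr hl)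
            exact ⟨⟨(e2 _ h3).1 h1, fun l hl => h2 l (Or.inl hl)⟩, h3⟩
      rw [split]
      refine (abs_add_le _ _).trans ?_
      set γ : ℝ := 2 * K ^ 2 * Real.log q + 2 with hγd
      set P : ℝ := 2 * Fintype.card L / q with hPd
      have b1 : Real.exp (γ * (P - psi q W1))
          ≤ Real.exp (γ * (P - psi q W)) * Real.exp (-(γ * (wt q K / 2))) := by
        rw [← Real.exp_add]
        apply Real.exp_le_exp.2
        nlinarith [mul_le_mul_of_nonneg_left p1 hγ]
      have b2 : Real.exp (γ * (P - psi q W2))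
          ≤ Real.exp (γ * (P - psi q W)) * Real.exp (-(γ * (1 / 2))) := by
        rw [← Real.exp_add]
        apply Real.exp_le_exp.2
        nlinarith [mul_le_mul_of_nonneg_left p2 hγ]
      have b3 := exp_ineq (K := K) hq2
      rw [← hγd] at b3
      have b4 := Real.exp_pos (γ * (P - psi q W))
      have b5 : Real.exp (γ * (P - psi q W1)) + Real.exp (γ * (P - psi q W2))
          ≤ Real.exp (γ * (P - psi q W)) := by
        nlinarith [mul_le_mul_of_nonneg_left b3 b4.le]
      nlinarith [mul_le_mul_of_nonneg_left b5 hM0]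
    · push Not at hv
      have h1 := hM S Z h.le (card_le_of_nv hq2 h.ne h.le hv)
      refine h1.trans ?_
      have h2 : 1 ≤ Real.exp ((2 * K ^ 2 * Real.log q + 2)
          * (2 * Fintype.card L / q - psi q W)) :=
        Real.one_le_exp (mul_nonneg hγ (by linarith))
      nlinarith

end Crest.Agent.D3.SpH3

namespace Crest.Agent.D3

open Finset SpH3

open Classical in
theorem sparsify {L Y : Type} [Fintype L] [DecidableEq L] [Fintype Y] (T : Y → Finset L)
    (g : Y → ℝ) (K q : ℕ) (hq : 4 * K ≤ q ^ 2) (hq2 : 2 ≤ q) (M : ℝ)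
    (hM : ∀ (S : Finset (Finset L)) (Z : Finset L), (∀ C ∈ S, C.card ≤ K) →
      S.card ≤ Fintype.card L * (K * q ^ (K ^ 2)) →
      |∑ y with ((∀ C ∈ S, ∃ l ∈ C, l ∈ T y) ∧ (∀ l ∈ Z, l ∉ T y)), g y| ≤ M)
    (S : Finset (Finset L)) (hS : ∀ C ∈ S, C.card ≤ K) :
    |∑ y with (∀ C ∈ S, ∃ l ∈ C, l ∈ T y), g y|
      ≤ M * Real.exp ((2 * K ^ 2 * Real.log q + 2) * (2 * Fintype.card L / q)) := by
  have hM0 : 0 ≤ M := (abs_nonneg _).trans (hM ∅ ∅ (by simp) (by simp))
  by_cases h0 : ∅ ∈ S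
  · rw [sum_eq_zero]
    · simp only [abs_zero]; positivity
    · intro y hy
      obtain ⟨l, hl, _⟩ := (mem_filter.1 hy).2 ∅ h0
      simp at hl
  set S0 := S.filter (fun C => ∀ D ∈ S, D ⊆ C → D = C) with hS0
  have hgood : Good K q S0 ∅ := by
    refine ⟨empty_subset _, ?_, ?_, ?_, ?_⟩
    · intro C hC
      rw [nonempty_iff_ne_empty]
      rintro rfl
      exact h0 (mem_filter.1 hC).1
    · intro C hC
      exact hS C (mem_filter.1 hC).1
    · intro C hC D hD hCD
      exact (mem_filter.1 hD).2 C (mem_filter.1 hC).1 hCD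
    · intro c H _ _
      simp [deg]
  have hsat : ∀ X : Finset L, (∀ C ∈ S, ∃ l ∈ C, l ∈ X) ↔ Sat S0 X := by
    intro X
    refine ⟨fun h C hC => h C (mem_filter.1 hC).1, fun h C hC => ?_⟩
    obtain ⟨D, hD, hmin⟩ := exists_min_image (S.filter (fun D => D ⊆ C)) card
      ⟨C, mem_filter.2 ⟨hC, subset_rfl⟩⟩
    rw [mem_filter] at hD
    obtain ⟨l, h1, h2⟩ := h D (mem_filter.2 ⟨hD.1, fun E hE hED =>
      eq_of_subset_of_card_le hED (hmin E (mem_filter.2 ⟨hE, hED.trans hD.2⟩))⟩)
    exact ⟨l, hD.2 h1, h2⟩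
  obtain ⟨n, hn⟩ := exists_nat_gt ((2 * Fintype.card L / q : ℝ) / (wt q K / 2))
  have hw := wt_pos hq2 K
  have hmain := main T g hq hq2 M hM0 (by
      intro S Z h1 h2
      have := hM S Z h1 h2
      unfold Sat
      convert this) n S0 ∅ ∅ hgood (by
      rw [div_lt_iff₀ (by positivity)] at hn
      simpa [psi] using hn)
  simp only [psi, sum_empty, sub_zero] at hmain
  convert hmain using 3
  ext y
  simp [hsat]

end Crest.Agent.D3
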