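import Mathlib

set_option autoImplicit false
open Finset Classical

namespace Crest.Agent.D3

section Wide
variable {ι : Type} [Fintype ι] [DecidableEq ι]

def WFib (ρ : ι → Option Bool) (x : ι → Bool) : Prop := ∀ i b, ρ i = some b → x i = b

def WSat (C : Finset (ι × Bool)) (x : ι → Bool) : Prop := ∃ l ∈ C, x l.1 = l.2

def wfree (ρ : ι → Option Bool) (C : Finset (ι × Bool)) : Finset (ι × Bool) :=
  C.filter (fun l => ρ l.1 = none)

def WNarrow (K : ℕ) (ρ : ι → Option Bool) (N : Finset (Finset (ι × Bool))) : Prop :=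
  ∀ C ∈ N, (wfree ρ C).card ≤ K

noncomputable def wval (h : (ι → Bool) → ℝ) (c : ℕ → Finset (ι × Bool)) (ρ : ι → Option Bool)
    (N : Finset (Finset (ι × Bool))) (j : ℕ) : ℝ :=
  ∑ x : ι → Bool, if (WFib ρ x ∧ (∀ C ∈ N, WSat C x) ∧ ∀ i < j, WSat (c i) x) then h x else 0

def wres (ρ : ι → Option Bool) (C : Finset (ι × Bool)) : ι → Option Bool :=
  fun v => if (v, false) ∈ C then some true else if (v, true) ∈ C then some false else ρ v

noncomputable def ww (p : ℝ) (ρ : ι → Option Bool) : ℝ := ∏ i, if ρ i = none then p else 1 - p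

def WCons (ρ : ι → Option Bool) (C : Finset (ι × Bool)) : Prop := ∃ x, WFib ρ x ∧ ¬ WSat C x

def WDead (ρ : ι → Option Bool) (C : Finset (ι × Bool)) : Prop := ∀ x, WFib ρ x → ¬ WSat C x

omit [Fintype ι] in
lemma wfib_wres {ρ : ι → Option Bool} {C : Finset (ι × Bool)} (hc : WCons ρ C) (x : ι → Bool) :
    WFib (wres ρ C) x ↔ WFib ρ x ∧ ¬ WSat C x := by
  obtain ⟨y, hy, hyC⟩ := hc
  have hy1 : ∀ v, (v, false) ∈ C → y v = true := by
    intro v hv
    by_contra hne
    exact hyC ⟨(v, false), hv, by simpa using hne⟩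
  have hy2 : ∀ v, (v, true) ∈ C → y v = false := by
    intro v hv
    by_contra hne
    exact hyC ⟨(v, true), hv, by simpa using hne⟩
  constructor
  · intro hx
    refine ⟨?_, ?_⟩
    · intro i b hib
      by_cases h1 : (i, false) ∈ C
      · have := hx i true (by simp [wres, h1])
        rw [this, ← hy i b hib, hy1 i h1]
      · by_cases h2 : (i, true) ∈ C
        · have := hx i false (by simp [wres, h1, h2])
          rw [this, ← hy i b hib, hy2 i h2]
        · exact hx i b (by simp [wres, h1, h2, hib])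
    · rintro ⟨⟨v, b⟩, hl, hxl⟩
      cases b
      · have := hx v true (by simp [wres, hl])
        simp [this] at hxl
      · by_cases h1 : (v, false) ∈ C
        · have a := hy1 v h1
          have b := hy2 v hl
          simp [a] at b
        · have := hx v false (by simp [wres, h1, hl])
          simp [this] at hxl
  · rintro ⟨hx, hxC⟩ i b hib
    by_cases h1 : (i, false) ∈ C
    · simp [wres, h1] at hib
      subst hib
      by_contra hne
      exact hxC ⟨(i, false), h1, by simpa using hne⟩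
    · by_cases h2 : (i, true) ∈ C
      · simp [wres, h1, h2] at hib
        subst hib
        by_contra hne
        exact hxC ⟨(i, true), h2, by simpa using hne⟩
      · simp [wres, h1, h2] at hib
        exact hx i b hib

omit [Fintype ι] in
lemma wnarrow_wres {K : ℕ} {ρ : ι → Option Bool} {N : Finset (Finset (ι × Bool))}
    (hN : WNarrow K ρ N) (C : Finset (ι × Bool)) : WNarrow K (wres ρ C) N := by
  intro D hD
  refine le_trans (card_le_card ?_) (hN D hD)
  intro l hl
  simp only [wfree, mem_filter] at hl ⊢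
  refine ⟨hl.1, ?_⟩
  have := hl.2
  unfold wres at this
  split_ifs at this
  exact this

omit [DecidableEq ι] in
lemma ww_nonneg {p : ℝ} (hp0 : 0 ≤ p) (hp1 : p < 1) (ρ : ι → Option Bool) : 0 ≤ ww p ρ := by
  unfold ww
  refine prod_nonneg fun i _ => ?_
  split_ifs <;> linarith

/-- weight lemma -/
lemma ww_fresh {p : ℝ} (hp0 : 0 ≤ p) (hp1 : p < 1) (k K : ℕ) (hδ : ((1+p)/(1-p))^k ≤ 2^K)
    (C : Finset (ι × Bool)) (hC : C.card ≤ k) (σ : ι → Option Bool) :
    ∑ ρ : ι → Option Bool with (WCons ρ C ∧ K < (wfree ρ C).card ∧ wres ρ C = σ), ww p ρ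
      ≤ ww p σ / 2 := by
  set F := (univ.filter fun ρ : ι → Option Bool =>
    (WCons ρ C ∧ K < (wfree ρ C).card ∧ wres ρ C = σ)) with hF
  rcases F.eq_empty_or_nonempty with hE | ⟨ρ0, hρ0⟩
  · rw [hE, sum_empty]
    have := ww_nonneg hp0 hp1 σ
    linarith
  set V := C.image Prod.fst with hV
  have hVmem : ∀ v, v ∈ V ↔ ((v, false) ∈ C ∨ (v, true) ∈ C) := by
    intro v
    simp only [hV, mem_image]
    constructor
    · rintro ⟨⟨a, b⟩, hl, rfl⟩
      cases b
      · exact Or.inl hl
      · exact Or.inr hl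
    · rintro (h | h)
      · exact ⟨_, h, rfl⟩
      · exact ⟨_, h, rfl⟩
  have hσV : ∀ v ∈ V, σ v ≠ none := by
    intro v hv
    have h0 := (mem_filter.1 hρ0).2.2.2
    rw [← h0]
    unfold wres
    rcases (hVmem v).1 hv with h | h
    · simp [h]
    · by_cases h1 : (v, false) ∈ C <;> simp [h, h1]
  let g : ι → Option Bool → ℝ := fun v o => if o = none then (if v ∈ V then 2 * p else p) else 1 - p
  have hg0 : ∀ v o, 0 ≤ g v o := by
    intro v o
    simp only [g]
    split_ifs <;> linarith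
  let t : ι → Finset (Option Bool) := fun v => if v ∈ V then {σ v, none} else {σ v}
  have hsub : F ⊆ Fintype.piFinset t := by
    intro ρ hρ
    obtain ⟨⟨y, hy, hyC⟩, -, hr⟩ := (mem_filter.1 hρ).2
    rw [Fintype.mem_piFinset]
    intro v
    simp only [t]
    by_cases hv : v ∈ V
    · rw [if_pos hv]
      rcases hρv : ρ v with _ | b
      · simp
      · have hyv := hy v b hρv
        have : σ v = some b := by
          rw [← hr]
          unfold wres
          by_cases h1 : (v, false) ∈ C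
          · rw [if_pos h1]
            cases b
            · exact absurd ⟨(v, false), h1, hyv⟩ hyC
            · rfl
          · rw [if_neg h1]
            have h2 : (v, true) ∈ C := ((hVmem v).1 hv).resolve_left h1
            rw [if_pos h2]
            cases b
            · rfl
            · exact absurd ⟨(v, true), h2, hyv⟩ hyC
        simp [this]
    · rw [if_neg hv]
      have h1 : (v, false) ∉ C := fun h => hv ((hVmem v).2 (Or.inl h))
      have h2 : (v, true) ∉ C := fun h => hv ((hVmem v).2 (Or.inr h))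
      rw [← hr]
      simp [wres, h1, h2]
  have hpt : ∀ ρ ∈ F, ww p ρ * 2 ^ (K + 1) ≤ ∏ v, g v (ρ v) := by
    intro ρ hρ
    obtain ⟨⟨y, hy, hyC⟩, hK, -⟩ := (mem_filter.1 hρ).2
    have e1 : ∏ v, g v (ρ v) = ww p ρ * ∏ v, (if v ∈ V ∧ ρ v = none then (2:ℝ) else 1) := by
      unfold ww
      rw [← prod_mul_distrib]
      refine prod_congr rfl fun v _ => ?_
      simp only [g]
      by_cases h1 : ρ v = none <;> by_cases h2 : v ∈ V <;> simp [h1, h2] <;> ring
    have e2 : ∏ v, (if v ∈ V ∧ ρ v = none then (2:ℝ) else 1)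
        = 2 ^ (univ.filter fun v => v ∈ V ∧ ρ v = none).card := by
      rw [prod_ite]
      simp
    have e3 : K + 1 ≤ (univ.filter fun v => v ∈ V ∧ ρ v = none).card := by
      refine le_trans hK ?_
      refine card_le_card_of_injOn Prod.fst ?_ ?_
      · intro l hl
        simp only [wfree, coe_filter, Set.mem_ofPred_eq] at hl
        simp only [coe_filter, mem_univ, true_and, Set.mem_ofPred_eq]
        exact ⟨mem_image_of_mem _ hl.1, hl.2⟩
      · intro l hl l' hl' hll
        simp only [wfree, coe_filter, Set.mem_ofPred_eq] at hl hl'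
        have a : y l.1 ≠ l.2 := fun h => hyC ⟨l, hl.1, h⟩
        have b : y l'.1 ≠ l'.2 := fun h => hyC ⟨l', hl'.1, h⟩
        rw [← hll] at b
        refine Prod.ext hll ?_
        revert a b
        cases y l.1 <;> cases l.2 <;> cases l'.2 <;> simp
    rw [e1, e2]
    exact mul_le_mul_of_nonneg_left (pow_le_pow_right₀ (by norm_num) e3) (ww_nonneg hp0 hp1 ρ)
  have h1p : 0 < 1 - p := by linarith
  have hq1 : 1 ≤ (1 + p) / (1 - p) := by
    rw [le_div_iff₀ h1p]; linarith
  have hprod : ∑ ρ ∈ Fintype.piFinset t, ∏ v, g v (ρ v) ≤ ww p σ * 2 ^ K := by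
    rw [← prod_univ_sum]
    have e1 : ∏ v, ∑ o ∈ t v, g v o
        = ww p σ * ∏ v, (if v ∈ V then (1 + p) / (1 - p) else 1) := by
      unfold ww
      rw [← prod_mul_distrib]
      refine prod_congr rfl fun v _ => ?_
      simp only [t]
      by_cases hv : v ∈ V
      · have hs := hσV v hv
        rw [if_pos hv, if_pos hv, sum_pair hs, if_neg hs]
        simp only [g, if_neg hs, if_pos hv, if_true]
        field_simp
        ring
      · rw [if_neg hv, if_neg hv, sum_singleton]
        simp only [g, if_neg hv, mul_one]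
    have e2 : ∏ v, (if v ∈ V then (1 + p) / (1 - p) else 1) = ((1 + p) / (1 - p)) ^ V.card := by
      rw [prod_ite]
      simp [div_pow]
    rw [e1, e2]
    refine mul_le_mul_of_nonneg_left ?_ (ww_nonneg hp0 hp1 σ)
    exact le_trans (pow_le_pow_right₀ hq1 (le_trans card_image_le hC)) hδ
  have h2 : (∑ ρ ∈ F, ww p ρ) * 2 ^ (K + 1) ≤ ww p σ * 2 ^ K := by
    rw [sum_mul]
    refine le_trans (sum_le_sum hpt) (le_trans ?_ hprod)
    exact sum_le_sum_of_subset_of_nonneg hsub fun ρ _ _ => prod_nonneg fun v _ => hg0 v _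
  have h3 : (0:ℝ) < 2 ^ K := by positivity
  rw [pow_succ] at h2
  nlinarith

/-- signed inclusion-exclusion step -/
lemma wval_rec (h : (ι → Bool) → ℝ) (c : ℕ → Finset (ι × Bool)) (K : ℕ) (ρ : ι → Option Bool)
    (N : Finset (Finset (ι × Bool))) (j : ℕ) :
    wval h c ρ N j =
      wval h c ρ (N ∪ ((range j).filter fun i => (wfree ρ (c i)).card ≤ K).image c) 0
      - ∑ i ∈ (range j).filter (fun i => K < (wfree ρ (c i)).card), ∑ x : ι → Bool,
        if ((WFib ρ x ∧ ¬ WSat (c i) x) ∧
          (∀ C ∈ (N ∪ ((range j).filter fun i => (wfree ρ (c i)).card ≤ K).image c), WSat C x) ∧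
          ∀ l < i, WSat (c l) x) then h x else 0 := by
  set N' := (N ∪ ((range j).filter fun i => (wfree ρ (c i)).card ≤ K).image c) with hN'
  unfold wval
  rw [sum_comm, ← sum_sub_distrib]
  refine sum_congr rfl fun x _ => ?_
  by_cases hF : WFib ρ x
  swap
  · simp [hF]
  by_cases hN : ∀ C ∈ N', WSat C x
  swap
  · have : ¬ ((∀ C ∈ N, WSat C x) ∧ ∀ i < j, WSat (c i) x) := by
      rintro ⟨a, b⟩
      apply hN
      intro C hC
      rcases mem_union.1 hC with h1 | h1
      · exact a C h1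
      · obtain ⟨i, hi, rfl⟩ := mem_image.1 h1
        exact b i (mem_range.1 (mem_filter.1 hi).1)
    rw [if_neg (fun hh => this hh.2), if_neg (fun hh => hN hh.2.1), sum_eq_zero, sub_zero]
    intro i _
    rw [if_neg (fun hh => hN hh.2.1)]
  have hN0 : ∀ C ∈ N, WSat C x := fun C hC => hN C (mem_union_left _ hC)
  rw [if_pos (show WFib ρ x ∧ (∀ C ∈ N', WSat C x) ∧ ∀ i < 0, WSat (c i) x from
    ⟨hF, hN, fun i hi => absurd hi (Nat.not_lt_zero i)⟩)]
  by_cases hφ : ∀ i < j, WSat (c i) x
  · rw [if_pos ⟨hF, hN0, hφ⟩, sum_eq_zero, sub_zero]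
    intro i hi
    rw [if_neg (fun hh => hh.1.2 (hφ i (mem_range.1 (mem_filter.1 hi).1)))]
  · rw [if_neg (fun hh => hφ hh.2.2)]
    have hex : ∃ i, ¬ WSat (c i) x := by
      push Not at hφ
      obtain ⟨i, -, hi⟩ := hφ
      exact ⟨i, hi⟩
    have hi0 := Nat.find_spec hex
    have hmin : ∀ l < Nat.find hex, WSat (c l) x := fun l hl => by
      have := Nat.find_min hex hl
      simpa using this
    have hlt : Nat.find hex < j := by
      by_contra hge
      exact hφ fun i hi => hmin i (by omega)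
    have hwide : K < (wfree ρ (c (Nat.find hex))).card := by
      by_contra hle
      exact hi0 (hN _ (mem_union_right _ (mem_image_of_mem _
        (mem_filter.2 ⟨mem_range.2 hlt, by omega⟩))))
    rw [sum_eq_single (Nat.find hex)]
    · rw [if_pos ⟨⟨hF, hi0⟩, hN, hmin⟩, sub_self]
    · intro i _ hne
      refine if_neg fun hh => ?_
      rcases lt_or_gt_of_ne hne with h1 | h1
      · exact hh.1.2 (hmin i h1)
      · exact hi0 (hh.2.2 _ h1)
    · intro hn
      exact absurd (mem_filter.2 ⟨mem_range.2 hlt, hwide⟩) hn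

theorem wide_seq (h : (ι → Bool) → ℝ) (c : ℕ → Finset (ι × Bool)) (s k K : ℕ)
    (hk : ∀ i < s, (c i).card ≤ k) (p : ℝ) (hp0 : 0 ≤ p) (hp1 : p < 1)
    (hδ : ((1+p)/(1-p))^k ≤ 2^K) (B : (ι → Option Bool) → ℝ)
    (hB : ∀ ρ N, WNarrow K ρ N → |wval h c ρ N 0| ≤ B ρ) :
    ∑ ρ : ι → Option Bool, ww p ρ * |wval h c ρ ∅ s| ≤ 2 * ∑ ρ : ι → Option Bool, ww p ρ * B ρ := by
  have hmax : ∀ ρ : ι → Option Bool, ∃ a : ℝ, (∀ N j, WNarrow K ρ N → j ≤ s → |wval h c ρ N j| ≤ a) ∧
      ∃ N j, WNarrow K ρ N ∧ j ≤ s ∧ a = |wval h c ρ N j| := by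
    intro ρ
    obtain ⟨⟨N, j⟩, hm, hmax⟩ := exists_max_image
      ((univ.filter fun N : Finset (Finset (ι × Bool)) => WNarrow K ρ N) ×ˢ range (s + 1))
      (fun q => |wval h c ρ q.1 q.2|)
      ⟨(∅, 0), by simp [WNarrow]⟩
    simp only [mem_product, mem_filter, mem_univ, true_and, mem_range] at hm
    refine ⟨_, ?_, N, j, hm.1, by omega, rfl⟩
    intro N' j' h1 h2
    exact hmax (N', j') (by simp [h1]; omega)
  choose A hA hA' using hmax
  have hA0 : ∀ ρ, 0 ≤ A ρ := fun ρ => by
    obtain ⟨N, j, -, -, e⟩ := hA' ρ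
    rw [e]; exact abs_nonneg _
  let First : (ι → Option Bool) → ℕ → Prop := fun σ i => WDead σ (c i) ∧ ∀ l < i, ¬ WDead σ (c l)
  have hrec : ∀ ρ, A ρ ≤ B ρ + ∑ i ∈ range s,
      if (WCons ρ (c i) ∧ K < (wfree ρ (c i)).card ∧ First (wres ρ (c i)) i)
        then A (wres ρ (c i)) else 0 := by
    intro ρ
    obtain ⟨N, j, hN, hj, e⟩ := hA' ρ
    rw [e, wval_rec h c K ρ N j]
    set N' := (N ∪ ((range j).filter fun i => (wfree ρ (c i)).card ≤ K).image c) with hN'
    have hN'n : WNarrow K ρ N' := by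
      intro C hC
      rcases mem_union.1 hC with h1 | h1
      · exact hN C h1
      · obtain ⟨i, hi, rfl⟩ := mem_image.1 h1
        exact (mem_filter.1 hi).2
    refine le_trans (abs_sub _ _) (add_le_add (hB ρ N' hN'n) ?_)
    refine le_trans (abs_sum_le_sum_abs _ _) ?_
    refine le_trans (sum_le_sum (g := fun i =>
      if (WCons ρ (c i) ∧ K < (wfree ρ (c i)).card ∧ First (wres ρ (c i)) i)
        then A (wres ρ (c i)) else 0) ?_) ?_
    · intro i hi
      obtain ⟨hij, hw⟩ := mem_filter.1 hi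
      have hij := mem_range.1 hij
      by_cases hc : WCons ρ (c i)
      · have e2 : (∑ x : ι → Bool, if ((WFib ρ x ∧ ¬ WSat (c i) x) ∧
            (∀ C ∈ N', WSat C x) ∧ ∀ l < i, WSat (c l) x) then h x else 0)
            = wval h c (wres ρ (c i)) N' i := by
          unfold wval
          refine sum_congr rfl fun x _ => ?_
          simp only [wfib_wres hc x]
        rw [e2]
        by_cases hf : First (wres ρ (c i)) i
        · rw [if_pos ⟨hc, hw, hf⟩]
          exact hA _ N' i (wnarrow_wres hN'n _) (by omega)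
        · rw [if_neg (fun hh => hf hh.2.2)]
          have hd : WDead (wres ρ (c i)) (c i) := fun x hx => ((wfib_wres hc x).1 hx).2
          have : ∃ l < i, WDead (wres ρ (c i)) (c l) := by
            by_contra hne
            exact hf ⟨hd, fun l hl hdl => hne ⟨l, hl, hdl⟩⟩
          obtain ⟨l, hl, hdl⟩ := this
          have : wval h c (wres ρ (c i)) N' i = 0 := by
            unfold wval
            refine sum_eq_zero fun x _ => if_neg fun hh => hdl x hh.1 (hh.2.2 l hl)
          rw [this, abs_zero]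
      · rw [if_neg (fun hh => hc hh.1), sum_eq_zero, abs_zero]
        intro x _
        exact if_neg fun hh => hc ⟨x, hh.1⟩
    · refine sum_le_sum_of_subset_of_nonneg ?_ ?_
      · intro i hi
        have := mem_range.1 (mem_filter.1 hi).1
        exact mem_range.2 (by omega)
      · intro i _ _
        split_ifs
        · exact hA0 _
        · exact le_rfl
  have hw0 := fun ρ : ι → Option Bool => ww_nonneg hp0 hp1 ρ
  have hkey : ∑ ρ : ι → Option Bool, ww p ρ * ∑ i ∈ range s,
      (if (WCons ρ (c i) ∧ K < (wfree ρ (c i)).card ∧ First (wres ρ (c i)) i)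
        then A (wres ρ (c i)) else 0) ≤ (∑ ρ : ι → Option Bool, ww p ρ * A ρ) / 2 := by
    simp only [mul_sum]
    rw [sum_comm]
    have h1 : ∀ i ∈ range s, ∑ ρ : ι → Option Bool, ww p ρ *
        (if (WCons ρ (c i) ∧ K < (wfree ρ (c i)).card ∧ First (wres ρ (c i)) i)
          then A (wres ρ (c i)) else 0)
        ≤ ∑ σ : ι → Option Bool, if First σ i then ww p σ * A σ / 2 else 0 := by
      intro i hi
      rw [← sum_fiberwise (s := univ) (g := fun ρ => wres ρ (c i))]
      refine sum_le_sum fun σ _ => ?_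
      by_cases hf : First σ i
      · rw [if_pos hf]
        have h2 := ww_fresh hp0 hp1 k K hδ (c i) (hk i (mem_range.1 hi)) σ
        have h3 : ∑ ρ ∈ univ.filter (fun ρ => wres ρ (c i) = σ), ww p ρ *
            (if (WCons ρ (c i) ∧ K < (wfree ρ (c i)).card ∧ First (wres ρ (c i)) i)
              then A (wres ρ (c i)) else 0)
            = (∑ ρ : ι → Option Bool with
              (WCons ρ (c i) ∧ K < (wfree ρ (c i)).card ∧ wres ρ (c i) = σ), ww p ρ) * A σ := by
          rw [sum_mul, sum_filter, sum_filter]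
          refine sum_congr rfl fun ρ _ => ?_
          by_cases e : wres ρ (c i) = σ
          · rw [if_pos e, e]
            by_cases e2 : WCons ρ (c i) ∧ K < (wfree ρ (c i)).card
            · rw [if_pos ⟨e2.1, e2.2, hf⟩, if_pos ⟨e2.1, e2.2, rfl⟩]
            · rw [if_neg (fun hh => e2 ⟨hh.1, hh.2.1⟩), if_neg (fun hh => e2 ⟨hh.1, hh.2.1⟩),
                mul_zero]
          · rw [if_neg e, if_neg (fun hh => e hh.2.2)]
        rw [h3]
        have := mul_le_mul_of_nonneg_right h2 (hA0 σ)
        linarith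
      · rw [if_neg hf]
        refine le_of_eq (sum_eq_zero fun ρ hρ => ?_)
        have e := (mem_filter.1 hρ).2
        rw [if_neg (fun hh => hf (e ▸ hh.2.2)), mul_zero]
    refine le_trans (sum_le_sum h1) ?_
    rw [sum_comm, sum_div]
    refine sum_le_sum fun σ _ => ?_
    have hnn : 0 ≤ ww p σ * A σ / 2 := by
      have := mul_nonneg (hw0 σ) (hA0 σ)
      linarith
    by_cases hex : ∃ i ∈ range s, First σ i
    · obtain ⟨i, hi, hf⟩ := hex
      rw [sum_eq_single i, if_pos hf]
      · intro i' _ hne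
        refine if_neg fun hf' => ?_
        rcases lt_or_gt_of_ne hne with h1 | h1
        · exact hf.2 i' h1 hf'.1
        · exact hf'.2 i h1 hf.1
      · intro hn; exact absurd hi hn
    · rw [sum_eq_zero]
      · exact hnn
      · intro i hi
        exact if_neg fun hf => hex ⟨i, hi, hf⟩
  have hX : ∑ ρ : ι → Option Bool, ww p ρ * A ρ ≤ ∑ ρ : ι → Option Bool, ww p ρ * B ρ +
      (∑ ρ : ι → Option Bool, ww p ρ * A ρ) / 2 := by
    refine le_trans ?_ (add_le_add le_rfl hkey)
    rw [← sum_add_distrib]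
    refine sum_le_sum fun ρ _ => ?_
    rw [← mul_add]
    exact mul_le_mul_of_nonneg_left (hrec ρ) (hw0 ρ)
  have hY : ∑ ρ : ι → Option Bool, ww p ρ * |wval h c ρ ∅ s| ≤
      ∑ ρ : ι → Option Bool, ww p ρ * A ρ :=
    sum_le_sum fun ρ _ => mul_le_mul_of_nonneg_left
      (hA ρ ∅ s (by simp [WNarrow]) le_rfl) (hw0 ρ)
  linarith

/-- total weight of the fibres through a point is one -/
lemma ww_through (p : ℝ) (x : ι → Bool) :
    ∑ ρ : ι → Option Bool, (if WFib ρ x then ww p ρ else 0) = 1 := by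
  let t : ι → Finset (Option Bool) := fun v => {none, some (x v)}
  have e1 : ∑ ρ : ι → Option Bool, (if WFib ρ x then ww p ρ else 0)
      = ∑ ρ ∈ Fintype.piFinset t, ww p ρ := by
    rw [← sum_filter]
    refine sum_congr ?_ fun _ _ => rfl
    ext ρ
    simp only [mem_filter, mem_univ, true_and, Fintype.mem_piFinset, t, mem_insert, mem_singleton,
      WFib]
    constructor
    · intro hx v
      rcases hv : ρ v with _ | b
      · simp
      · simp [hx v b hv]
    · intro hx v b hv
      rcases hx v with h1 | h1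
      · simp [h1] at hv
      · rw [h1] at hv
        simpa using hv
  rw [e1]
  unfold ww
  rw [← prod_univ_sum t (fun _ o => if o = none then p else 1 - p)]
  refine prod_eq_one fun v _ => ?_
  simp [t]

theorem wide (h : (ι → Bool) → ℝ) (φ : Finset (Finset (ι × Bool))) (k K : ℕ)
    (hk : ∀ C ∈ φ, C.card ≤ k) (p : ℝ) (hp0 : 0 ≤ p) (hp1 : p < 1)
    (hδ : ((1+p)/(1-p))^k ≤ 2^K) (B : (ι → Option Bool) → ℝ)
    (hB : ∀ (ρ : ι → Option Bool) (S : Finset (Finset {l : ι × Bool // ρ l.1 = none})),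
      (∀ C ∈ S, C.card ≤ K) →
      |∑ x : ι → Bool with ((∀ i b, ρ i = some b → x i = b) ∧ ∀ C ∈ S, ∃ l ∈ C, x l.1.1 = l.1.2),
        h x| ≤ B ρ) :
    |∑ x : ι → Bool with (∀ C ∈ φ, ∃ l ∈ C, x l.1 = l.2), h x| ≤
      2 * ∑ ρ : ι → Option Bool, (∏ i, if ρ i = none then p else 1 - p) * B ρ := by
  let c : ℕ → Finset (ι × Bool) := fun i => φ.toList.getD i ∅
  let s := φ.toList.length
  have hc : ∀ i < s, c i ∈ φ := by
    intro i hi
    simp only [c]
    rw [List.getD_eq_getElem _ _ hi]
    exact mem_toList.1 (List.getElem_mem hi)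
  have hc' : ∀ C ∈ φ, ∃ i < s, c i = C := by
    intro C hC
    obtain ⟨i, hi, e⟩ := List.getElem_of_mem (mem_toList.2 hC)
    refine ⟨i, hi, ?_⟩
    simp only [c]
    rw [List.getD_eq_getElem _ _ hi, e]
  have hmain := wide_seq h c s k K (fun i hi => hk _ (hc i hi)) p hp0 hp1 hδ B (by
    intro ρ N hN
    let N1 := N.filter fun C => ¬ ∃ l ∈ C, ρ l.1 = some l.2
    let S : Finset (Finset {l : ι × Bool // ρ l.1 = none}) :=
      N1.image fun C => C.subtype fun l => ρ l.1 = none
    have hS : ∀ C ∈ S, C.card ≤ K := by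
      intro D hD
      obtain ⟨C, hC, rfl⟩ := mem_image.1 hD
      rw [card_subtype]
      exact hN C (mem_filter.1 hC).1
    refine le_trans (le_of_eq ?_) (hB ρ S hS)
    congr 1
    unfold wval
    rw [sum_filter]
    refine sum_congr rfl fun x _ => ?_
    refine if_congr ?_ rfl rfl
    constructor
    · rintro ⟨hx, h1, -⟩
      refine ⟨hx, ?_⟩
      intro D hD
      obtain ⟨C, hC, rfl⟩ := mem_image.1 hD
      obtain ⟨hCN, hns⟩ := mem_filter.1 hC
      obtain ⟨l, hl, hxl⟩ := h1 C hCN
      have hfree : ρ l.1 = none := by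
        rcases hv : ρ l.1 with _ | b
        · rfl
        · exfalso
          apply hns
          refine ⟨l, hl, ?_⟩
          rw [hv, ← hx _ _ hv, hxl]
      exact ⟨⟨l, hfree⟩, mem_subtype.2 hl, hxl⟩
    · rintro ⟨hx, h1⟩
      refine ⟨hx, ?_, fun i hi => absurd hi (Nat.not_lt_zero i)⟩
      intro C hC
      by_cases hs : ∃ l ∈ C, ρ l.1 = some l.2
      · obtain ⟨l, hl, e⟩ := hs
        exact ⟨l, hl, hx _ _ e⟩
      · obtain ⟨l, hl, e⟩ := h1 _ (mem_image_of_mem _ (mem_filter.2 ⟨hC, hs⟩))
        exact ⟨l.1, mem_subtype.1 hl, e⟩)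
  refine le_trans ?_ hmain
  have e : ∑ x : ι → Bool with (∀ C ∈ φ, ∃ l ∈ C, x l.1 = l.2), h x
      = ∑ ρ : ι → Option Bool, ww p ρ * wval h c ρ ∅ s := by
    unfold wval
    simp only [mul_sum]
    rw [sum_comm, sum_filter]
    refine sum_congr rfl fun x _ => ?_
    have hiff : (∀ C ∈ φ, ∃ l ∈ C, x l.1 = l.2) ↔ ∀ i < s, WSat (c i) x := by
      constructor
      · intro hx i hi
        exact hx _ (hc i hi)
      · intro hx C hC
        obtain ⟨i, hi, rfl⟩ := hc' C hC
        exact hx i hi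
    by_cases hx : ∀ i < s, WSat (c i) x
    · rw [if_pos (hiff.2 hx)]
      conv_lhs => rw [← one_mul (h x), ← ww_through p x, sum_mul]
      refine sum_congr rfl fun ρ _ => ?_
      by_cases hf : WFib ρ x
      · rw [if_pos hf, if_pos ⟨hf, by simp, hx⟩]
      · rw [if_neg hf, if_neg (fun hh => hf hh.1)]; simp
    · rw [if_neg (fun hh => hx (hiff.1 hh))]
      refine (sum_eq_zero fun ρ _ => ?_).symm
      rw [if_neg (fun hh => hx hh.2.2), mul_zero]
  rw [e]
  refine le_trans (abs_sum_le_sum_abs _ _) (sum_le_sum fun ρ _ => ?_)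
  rw [abs_mul, abs_of_nonneg (ww_nonneg hp0 hp1 ρ)]

end Wide

end Crest.Agent.D3
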