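import Mathlib
import Crest.Agent.D3.Wide
import Crest.Agent.D3.SparseH3

set_option autoImplicit false
open Finset Classical

namespace Crest.Agent.D3.H1

lemma card_small {X : Type} [DecidableEq X] (s : Finset X) (K : ℕ) :
    (s.powerset.filter fun C => C.card ≤ K).card ≤ (s.card + 1) ^ K := by
  have h1 : (s.powerset.filter fun C => C.card ≤ K) ⊆
      (range (K + 1)).biUnion fun j => powersetCard j s := by
    intro C hC
    obtain ⟨a, b⟩ := mem_filter.1 hC
    exact mem_biUnion.2 ⟨C.card, mem_range.2 (by omega),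
      mem_powersetCard.2 ⟨mem_powerset.1 a, rfl⟩⟩
  refine le_trans (card_le_card h1) (le_trans card_biUnion_le ?_)
  rw [add_pow]
  refine sum_le_sum fun j hj => ?_
  rw [card_powersetCard, one_pow, mul_one]
  have h2 : 1 ≤ K.choose j := Nat.choose_pos (by have := mem_range.1 hj; omega)
  have h3 := Nat.choose_le_pow s.card j
  simp only [Nat.cast_id]
  nlinarith [Nat.zero_le (s.card ^ j)]

variable {ι : Type} [Fintype ι] [DecidableEq ι]

def fr (ρ : ι → Option Bool) : ℕ := (univ.filter fun i => ρ i = none).card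

omit [DecidableEq ι] in
lemma card_lits (ρ : ι → Option Bool) :
    Fintype.card {l : ι × Bool // ρ l.1 = none} = 2 * fr ρ := by
  rw [Fintype.card_subtype]
  have : (univ.filter fun l : ι × Bool => ρ l.1 = none)
      = (univ.filter fun i => ρ i = none) ×ˢ (univ : Finset Bool) := by
    ext l; simp
  rw [this, card_product, fr]
  simp [mul_comm]

lemma card_fib (ρ : ι → Option Bool) :
    (univ.filter fun x : ι → Bool => ∀ i b, ρ i = some b → x i = b).card ≤ 2 ^ fr ρ := by
  let t : ι → Finset Bool := fun i => if ρ i = none then univ else {(ρ i).getD false}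
  have h1 : (univ.filter fun x : ι → Bool => ∀ i b, ρ i = some b → x i = b) ⊆
      Fintype.piFinset t := by
    intro x hx
    have hx := (mem_filter.1 hx).2
    rw [Fintype.mem_piFinset]
    intro i
    simp only [t]
    rcases hv : ρ i with _ | b
    · simp
    · simp [hx i b hv]
  refine le_trans (card_le_card h1) (le_of_eq ?_)
  rw [Fintype.card_piFinset]
  have : ∀ i, (t i).card = if ρ i = none then 2 else 1 := by
    intro i
    simp only [t]
    split_ifs <;> simp
  simp only [this]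
  rw [prod_ite]
  simp [fr]

/-- the set of points of a sparse test -/
noncomputable def tset (ρ : ι → Option Bool) (S : Finset (Finset {l : ι × Bool // ρ l.1 = none}))
    (Z : Finset {l : ι × Bool // ρ l.1 = none}) : Finset (ι → Bool) :=
  univ.filter fun x => (∀ i b, ρ i = some b → x i = b) ∧ (∀ C ∈ S, ∃ l ∈ C, x l.1.1 = l.1.2) ∧
    ∀ l ∈ Z, ¬ x l.1.1 = l.1.2

noncomputable def tests (ι : Type) [Fintype ι] [DecidableEq ι] (K R U : ℕ) :
    Finset (Finset (ι → Bool)) :=
  (univ.filter fun ρ : ι → Option Bool => fr ρ ≤ U).biUnion fun ρ =>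
    (((((univ : Finset {l : ι × Bool // ρ l.1 = none}).powerset.filter
      fun C => C.card ≤ K).powerset.filter fun S => S.card ≤ R) ×ˢ
      (univ : Finset (Finset {l : ι × Bool // ρ l.1 = none}))).image fun q => tset ρ q.1 q.2)

lemma card_tests (K R U : ℕ) :
    (tests ι K R U).card ≤ 3 ^ Fintype.card ι * ((2 * U + 1) ^ K + 1) ^ R * 2 ^ (2 * U) := by
  unfold tests
  refine le_trans card_biUnion_le ?_
  refine le_trans (sum_le_card_nsmul _ _ (((2 * U + 1) ^ K + 1) ^ R * 2 ^ (2 * U)) ?_) ?_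
  · intro ρ hρ
    have hU := (mem_filter.1 hρ).2
    refine le_trans card_image_le ?_
    rw [card_product]
    have hl := card_lits ρ
    refine Nat.mul_le_mul ?_ ?_
    · refine le_trans (card_small _ R) (Nat.pow_le_pow_left (Nat.add_le_add_right ?_ 1) R)
      refine le_trans (card_small _ K) (Nat.pow_le_pow_left ?_ K)
      rw [card_univ, hl]
      omega
    · rw [card_univ, Fintype.card_finset, hl]
      exact Nat.pow_le_pow_right (by norm_num) (by omega)
  · rw [smul_eq_mul, mul_assoc]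
    refine Nat.mul_le_mul_right _ ?_
    refine le_trans (card_filter_le _ _) ?_
    simp

lemma card_of_mem_tests {K R U : ℕ} {A : Finset (ι → Bool)} (hA : A ∈ tests ι K R U) :
    A.card ≤ 2 ^ U := by
  unfold tests at hA
  obtain ⟨ρ, hρ, hA⟩ := mem_biUnion.1 hA
  obtain ⟨q, -, rfl⟩ := mem_image.1 hA
  have hU := (mem_filter.1 hρ).2
  refine le_trans ?_ (le_trans (card_fib ρ) (Nat.pow_le_pow_right (by norm_num) hU))
  refine card_le_card fun x hx => ?_
  simp only [tset, mem_filter, mem_univ, true_and] at hx ⊢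
  exact hx.1

lemma tset_mem {K R U : ℕ} (ρ : ι → Option Bool) (hρ : fr ρ ≤ U)
    (S : Finset (Finset {l : ι × Bool // ρ l.1 = none})) (hS : ∀ C ∈ S, C.card ≤ K)
    (hR : S.card ≤ R) (Z : Finset {l : ι × Bool // ρ l.1 = none}) :
    tset ρ S Z ∈ tests ι K R U := by
  unfold tests
  refine mem_biUnion.2 ⟨ρ, by simp [hρ], mem_image.2 ⟨(S, Z), ?_, rfl⟩⟩
  simp only [mem_product, mem_filter, mem_powerset, mem_univ, and_true]
  refine ⟨fun C hC => ?_, hR⟩
  simp [hS C hC]

lemma fibre (K q U : ℕ) (hq : 4 * K ≤ q ^ 2) (hq2 : 2 ≤ q) (lam : ℝ)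
    (h : (ι → Bool) → ℝ) (h1 : ∀ x, |h x| ≤ 1)
    (hT : ∀ A ∈ tests ι K (2 * U * (K * q ^ (K ^ 2))) U, |∑ x ∈ A, h x| ≤ lam)
    (ρ : ι → Option Bool) (S : Finset (Finset {l : ι × Bool // ρ l.1 = none}))
    (hS : ∀ C ∈ S, C.card ≤ K) :
    |∑ x : ι → Bool with ((∀ i b, ρ i = some b → x i = b) ∧ ∀ C ∈ S, ∃ l ∈ C, x l.1.1 = l.1.2),
        h x| ≤ if fr ρ ≤ U then
          lam * Real.exp ((2 * K ^ 2 * Real.log q + 2) * 4 / q * fr ρ) else 2 ^ fr ρ := by
  split_ifs with hU
  · have hs := sparsify (L := {l : ι × Bool // ρ l.1 = none}) (Y := ι → Bool)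
      (fun y => univ.filter fun l => y l.1.1 = l.1.2)
      (fun y => if (∀ i b, ρ i = some b → y i = b) then h y else 0) K q hq hq2 lam (by
        intro S' Z hS' hR
        have hm := tset_mem (K := K) (R := 2 * U * (K * q ^ (K ^ 2))) ρ hU S' hS'
          (le_trans hR (Nat.mul_le_mul_right _ (by rw [card_lits]; omega))) Z
        refine le_trans (le_of_eq ?_) (hT _ hm)
        congr 1
        rw [← sum_filter, filter_filter]
        refine sum_congr ?_ fun _ _ => rfl
        ext x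
        simp only [tset, mem_filter, mem_univ, true_and]
        tauto) S hS
    refine le_trans (le_of_eq ?_) (le_trans hs (le_of_eq ?_))
    · congr 1
      rw [← sum_filter, filter_filter]
      refine sum_congr ?_ fun _ _ => rfl
      ext x
      simp only [mem_filter, mem_univ, true_and]
      tauto
    · rw [card_lits]
      congr 2
      push_cast
      ring
  · refine le_trans (abs_sum_le_sum_abs _ _) ?_
    refine le_trans (sum_le_card_nsmul _ _ 1 fun x _ => h1 x) ?_
    rw [nsmul_eq_mul, mul_one]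
    have := card_fib ρ
    have h2 : (univ.filter fun x : ι → Bool => ((∀ i b, ρ i = some b → x i = b) ∧
        ∀ C ∈ S, ∃ l ∈ C, x l.1.1 = l.1.2)).card ≤ 2 ^ fr ρ := by
      refine le_trans (card_le_card fun x hx => ?_) this
      simp only [mem_filter, mem_univ, true_and] at hx ⊢
      exact hx.1
    exact_mod_cast h2

lemma weight_pow (p a : ℝ) :
    ∑ ρ : ι → Option Bool, (∏ i, if ρ i = none then p else 1 - p) * a ^ fr ρ
      = (p * a + 2 * (1 - p)) ^ Fintype.card ι := by
  have e : ∀ ρ : ι → Option Bool, (∏ i, if ρ i = none then p else 1 - p) * a ^ fr ρ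
      = ∏ i, (fun o : Option Bool => if o = none then p * a else 1 - p) (ρ i) := by
    intro ρ
    have : a ^ fr ρ = ∏ i, if ρ i = none then a else 1 := by
      rw [prod_ite]; simp [fr]
    rw [this, ← prod_mul_distrib]
    refine prod_congr rfl fun i _ => ?_
    by_cases hv : ρ i = none <;> simp [hv]
  simp only [e]
  rw [← Fintype.piFinset_univ, ← prod_univ_sum (fun _ : ι => (univ : Finset (Option Bool)))
    (fun _ o => if o = none then p * a else 1 - p)]
  rw [prod_const, card_univ]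
  congr 1
  rw [Fintype.sum_option]
  simp
  ring

lemma weight (p : ℝ) (hp0 : 0 ≤ p) (hp1 : p < 1) (U : ℕ) (lam e : ℝ) (hlam : 0 ≤ lam) :
    ∑ ρ : ι → Option Bool, (∏ i, if ρ i = none then p else 1 - p) *
      (if fr ρ ≤ U then lam * Real.exp (e * fr ρ) else 2 ^ fr ρ) ≤
      2 ^ Fintype.card ι * (lam * Real.exp (-(p * Fintype.card ι * (1 - Real.exp e / 2)))
        + Real.exp (p * Fintype.card ι / 4) * (4 / 5) ^ U) := by
  have h1 : ∀ ρ : ι → Option Bool, (if fr ρ ≤ U then lam * Real.exp (e * fr ρ) else 2 ^ fr ρ) ≤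
      lam * (Real.exp e) ^ fr ρ + (4 / 5) ^ U * (5 / 2 : ℝ) ^ fr ρ := by
    intro ρ
    split_ifs with hU
    · rw [← Real.exp_nat_mul, mul_comm (fr ρ : ℝ) e]
      have : (0:ℝ) ≤ (4 / 5) ^ U * (5 / 2 : ℝ) ^ fr ρ := by positivity
      linarith
    · have h2 : (0:ℝ) ≤ lam * (Real.exp e) ^ fr ρ := by positivity
      have h3 : (4 / 5 : ℝ) ^ fr ρ ≤ (4 / 5) ^ U :=
        pow_le_pow_of_le_one (by norm_num) (by norm_num) (by omega)
      have h4 : (2:ℝ) ^ fr ρ = (4 / 5) ^ fr ρ * (5 / 2) ^ fr ρ := by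
        rw [← mul_pow]; norm_num
      have h5 : (0:ℝ) ≤ (5 / 2) ^ fr ρ := by positivity
      have := mul_le_mul_of_nonneg_right h3 h5
      linarith
  have hw : ∀ ρ : ι → Option Bool, 0 ≤ ∏ i, if ρ i = none then p else 1 - p := fun ρ =>
    prod_nonneg fun i _ => by split_ifs <;> linarith
  refine le_trans (sum_le_sum fun ρ _ => mul_le_mul_of_nonneg_left (h1 ρ) (hw ρ)) ?_
  have e1 : ∑ ρ : ι → Option Bool, (∏ i, if ρ i = none then p else 1 - p) *
      (lam * (Real.exp e) ^ fr ρ + (4 / 5) ^ U * (5 / 2 : ℝ) ^ fr ρ)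
      = lam * (p * Real.exp e + 2 * (1 - p)) ^ Fintype.card ι
        + (4 / 5) ^ U * (p * (5 / 2) + 2 * (1 - p)) ^ Fintype.card ι := by
    rw [← weight_pow, ← weight_pow, mul_sum, mul_sum, ← sum_add_distrib]
    refine sum_congr rfl fun ρ _ => by ring
  rw [e1]
  have key : ∀ a : ℝ, 0 ≤ a → (p * a + 2 * (1 - p)) ^ Fintype.card ι ≤
      2 ^ Fintype.card ι * Real.exp (-(p * Fintype.card ι * (1 - a / 2))) := by
    intro a ha
    have h2 : -(p * Fintype.card ι * (1 - a / 2)) = Fintype.card ι * (-(p * (1 - a / 2))) := by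
      ring
    rw [h2, Real.exp_nat_mul, ← mul_pow]
    refine pow_le_pow_left₀ (by nlinarith [mul_nonneg hp0 ha]) ?_ _
    have := Real.add_one_le_exp (-(p * (1 - a / 2)))
    linarith
  have k1 := key (Real.exp e) (Real.exp_pos e).le
  have k2 := key (5 / 2) (by norm_num)
  have e2 : -(p * Fintype.card ι * (1 - (5 / 2 : ℝ) / 2)) = p * Fintype.card ι / 4 := by ring
  rw [e2] at k2
  have k3 := mul_le_mul_of_nonneg_left k1 hlam
  have k4 := mul_le_mul_of_nonneg_left k2 (show (0:ℝ) ≤ (4 / 5) ^ U by positivity)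
  nlinarith

theorem cnf_bound (n K q U k : ℕ) (p lam : ℝ) (hq : 4 * K ≤ q ^ 2) (hq2 : 2 ≤ q)
    (hp0 : 0 ≤ p) (hp1 : p < 1) (hδ : ((1 + p) / (1 - p)) ^ k ≤ 2 ^ K) (hlam : 0 ≤ lam) :
    ∃ T : Finset (Finset (Fin n → Bool)),
      T.card ≤ 3 ^ n * ((2 * U + 1) ^ K + 1) ^ (2 * U * (K * q ^ (K ^ 2))) * 2 ^ (2 * U) ∧
      (∀ A ∈ T, A.card ≤ 2 ^ U) ∧
      ∀ h : (Fin n → Bool) → ℝ, (∀ x, |h x| ≤ 1) → (∀ A ∈ T, |∑ x ∈ A, h x| ≤ lam) →
        ∀ φ : Finset (Finset (Fin n × Bool)), (∀ D ∈ φ, D.card ≤ k) →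
          |∑ x : Fin n → Bool with (∀ D ∈ φ, ∃ l ∈ D, x l.1 = l.2), h x| ≤
            2 * (2 ^ n * (lam * Real.exp (-(p * n *
              (1 - Real.exp ((2 * K ^ 2 * Real.log q + 2) * 4 / q) / 2)))
              + Real.exp (p * n / 4) * (4 / 5) ^ U)) := by
  refine ⟨tests (Fin n) K (2 * U * (K * q ^ (K ^ 2))) U, ?_, fun A hA => card_of_mem_tests hA, ?_⟩
  · simpa using card_tests (ι := Fin n) K (2 * U * (K * q ^ (K ^ 2))) U
  intro h h1 hT φ hφ
  have hw := wide h φ k K hφ p hp0 hp1 hδ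
    (fun ρ => if fr ρ ≤ U then
      lam * Real.exp ((2 * K ^ 2 * Real.log q + 2) * 4 / q * fr ρ) else 2 ^ fr ρ)
    (fun ρ S hS => by convert fibre K q U hq hq2 lam h h1 hT ρ S hS)
  have hw2 := weight (ι := Fin n) p hp0 hp1 U lam ((2 * K ^ 2 * Real.log q + 2) * 4 / q) hlam
  simp only [Fintype.card_fin] at hw2
  refine le_trans (le_of_eq ?_) (le_trans hw ?_)
  · congr
  · linarith

end Crest.Agent.D3.H1
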