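import Mathlib

/-! Numerics for S0440. -/

set_option autoImplicit false

namespace Crest.Agent.D3
open Real

lemma poly_le_two_pow (C j : ℕ) : ∃ r0 : ℕ, ∀ r ≥ r0, C * r ^ j ≤ 2 ^ r := by
  have h := tendsto_pow_const_div_const_pow_of_one_lt j (show (1:ℝ) < 2 by norm_num)
  have hC : (0:ℝ) < 1 / (C + 1) := by positivity
  obtain ⟨r0, hr0⟩ := Filter.eventually_atTop.1 (h.eventually (gt_mem_nhds hC))
  refine ⟨r0, fun r hr => ?_⟩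
  have h1 := hr0 r hr
  have h2 : (0:ℝ) < 2 ^ r := by positivity
  rw [div_lt_div_iff₀ h2 (by positivity)] at h1
  have h3 : (0:ℝ) ≤ (r:ℝ) ^ j := by positivity
  have : (C:ℝ) * r ^ j ≤ 2 ^ r := by nlinarith
  exact_mod_cast this

lemma num_count (d K R0 : ℕ) (hd : 1 ≤ d) : ∃ r0 : ℕ, ∀ r ≥ r0, ∀ n, r ^ 2 ≤ n →
    3 ^ n * ((2 * (100 * d * r) + 1) ^ K + 1) ^ (r * R0) * 2 ^ (2 * (100 * d * r)) ≤ 2 ^ (3 * n) := by
  obtain ⟨r0, hr0⟩ := poly_le_two_pow ((2 * (201 * d) ^ K) ^ R0 * 2 ^ (200 * d)) (K * R0)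
  refine ⟨max r0 1, fun r hr n hn => ?_⟩
  have hr1 : 1 ≤ r := le_trans (le_max_right _ _) hr
  have h0 := hr0 r (le_trans (le_max_left _ _) hr)
  have hdr : 1 ≤ d * r := Nat.mul_pos hd hr1
  have h1 : (2 * (100 * d * r) + 1) ^ K + 1 ≤ 2 * (201 * d) ^ K * r ^ K := by
    have a1 : (2 * (100 * d * r) + 1) ^ K ≤ (201 * d * r) ^ K :=
      Nat.pow_le_pow_left (by nlinarith) K
    have a2 : 1 ≤ (201 * d * r) ^ K := Nat.one_le_pow _ _ (by nlinarith)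
    rw [mul_pow] at a1 a2
    nlinarith
  have h2 : ((2 * (100 * d * r) + 1) ^ K + 1) ^ R0 * 2 ^ (200 * d) ≤ 2 ^ r := by
    refine le_trans ?_ h0
    have := Nat.pow_le_pow_left h1 R0
    rw [mul_pow (2 * (201 * d) ^ K), ← pow_mul r] at this
    calc _ ≤ (2 * (201 * d) ^ K) ^ R0 * r ^ (K * R0) * 2 ^ (200 * d) := Nat.mul_le_mul_right _ this
      _ = _ := by ring
  have h3 := Nat.pow_le_pow_left h2 r
  rw [mul_pow, ← pow_mul, ← pow_mul, ← pow_mul] at h3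
  have h4 : 2 ^ (r * r) ≤ 2 ^ n := Nat.pow_le_pow_right (by norm_num) (by nlinarith)
  have h5 : 3 ^ n ≤ 4 ^ n := Nat.pow_le_pow_left (by norm_num) n
  have h6 : (4:ℕ) ^ n = 2 ^ (2 * n) := by rw [pow_mul]; norm_num
  have e1 : R0 * r = r * R0 := mul_comm _ _
  have e2 : 200 * d * r = 2 * (100 * d * r) := by ring
  rw [e1, e2] at h3
  calc _ = 3 ^ n * (((2 * (100 * d * r) + 1) ^ K + 1) ^ (r * R0) * 2 ^ (2 * (100 * d * r))) := by ring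
    _ ≤ 2 ^ (2 * n) * 2 ^ n := Nat.mul_le_mul (h6 ▸ h5) (h3.trans h4)
    _ = _ := by rw [← pow_add]; congr 1; ring

lemma num_t (d : ℕ) (hd : 1 ≤ d) : ∃ r0 : ℕ, ∀ r ≥ r0, ∀ n, r ^ 2 ≤ n → n < (r + 1) ^ 2 →
    ∃ t : ℕ, 1 ≤ t ∧ 2 ^ (3 * n) * (2 * t) ^ (2 * t) * 4 ≤ 2 ^ (10 * (d * r * t)) ∧
      2 * (d * r * t) ≤ n := by
  obtain ⟨r0, hr0⟩ := poly_le_two_pow (4 ^ 4 * 4 * 2 ^ (10 * d)) 4
  refine ⟨max r0 (2 * d), fun r hr n hn hn' => ?_⟩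
  have hr2 : 2 * d ≤ r := le_trans (le_max_right _ _) hr
  have h0 := hr0 r (le_trans (le_max_left _ _) hr)
  have hr1 : 2 ≤ r := by omega
  have hpos : 0 < 2 * (d * r) := by positivity
  have ht1 : 2 * (d * r) * (n / (2 * (d * r))) ≤ n := Nat.mul_div_le _ _
  have ht2 : n < 2 * (d * r) * (n / (2 * (d * r)) + 1) := Nat.lt_mul_div_succ _ hpos
  set t := n / (2 * (d * r)) with ht
  have h1 : 1 ≤ t := by
    rw [ht, Nat.le_div_iff_mul_le hpos]; nlinarith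
  have h2 : t ≤ 2 * r := by
    by_contra hc
    push Not at hc
    have : 2 * (d * r) * (2 * r + 1) ≤ 2 * (d * r) * t := Nat.mul_le_mul_left _ hc
    have h3 : r * (2 * r + 1) ≤ d * r * (2 * r + 1) := by
      rw [mul_assoc]; exact Nat.le_mul_of_pos_left _ hd
    nlinarith
  refine ⟨t, h1, ?_, by nlinarith⟩
  have h3 : (2 * t) ^ (2 * t) ≤ (4 * r) ^ (4 * r) :=
    le_trans (Nat.pow_le_pow_left (by omega) _) (Nat.pow_le_pow_right (by omega) (by omega))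
  have h4 := Nat.pow_le_pow_left h0 r
  have h5 : (4 * r) ^ (4 * r) * 4 * 2 ^ (10 * (d * r)) ≤ 2 ^ n := by
    have a1 : 4 ≤ 4 ^ r := by
      calc 4 = 4 ^ 1 := by norm_num
        _ ≤ 4 ^ r := Nat.pow_le_pow_right (by norm_num) (by omega)
    have a2 : (4 ^ 4 * 4 * 2 ^ (10 * d) * r ^ 4) ^ r =
        (4 * r) ^ (4 * r) * 4 ^ r * 2 ^ (10 * (d * r)) := by
      rw [pow_mul (4 * r), ← mul_assoc 10, pow_mul 2 (10 * d), ← mul_pow, ← mul_pow]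
      congr 1; ring
    have a3 : (2 ^ r) ^ r ≤ 2 ^ n := by
      rw [← pow_mul]; exact Nat.pow_le_pow_right (by norm_num) (by nlinarith)
    calc _ ≤ (4 * r) ^ (4 * r) * 4 ^ r * 2 ^ (10 * (d * r)) := by gcongr
      _ ≤ _ := by rw [← a2]; exact h4.trans a3
  have h6 : 2 ^ (3 * n) * (2 * t) ^ (2 * t) * 4 * 2 ^ (10 * (d * r)) ≤
      2 ^ (10 * (d * r * t)) * 2 ^ (10 * (d * r)) := by
    calc _ = 2 ^ (3 * n) * ((2 * t) ^ (2 * t) * 4 * 2 ^ (10 * (d * r))) := by ring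
      _ ≤ 2 ^ (3 * n) * ((4 * r) ^ (4 * r) * 4 * 2 ^ (10 * (d * r))) := by gcongr
      _ ≤ 2 ^ (3 * n) * 2 ^ n := by gcongr
      _ ≤ _ := by
        rw [← pow_add, ← pow_add]
        exact Nat.pow_le_pow_right (by norm_num) (by nlinarith)
  exact Nat.le_of_mul_le_mul_right h6 (by positivity)

lemma num_moment (M n t D : ℕ) (hn : 2 ≤ n) (hM : M ≤ 2 ^ (3 * n))
    (h1 : 2 ^ (3 * n) * (2 * t) ^ (2 * t) * 4 ≤ 2 ^ (10 * (D * t))) (h2 : 2 * (D * t) ≤ n) :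
    (M:ℝ) * ((2 * t : ℝ) ^ (2 * t) * (2 ^ (100 * D)) ^ t +
      (2 ^ (100 * D)) ^ (2 * t) * (2 ^ n / 2 ^ (50 * n))) < ((2:ℝ) ^ (55 * D)) ^ (2 * t) := by
  have hM' : (M:ℝ) ≤ 2 ^ (3 * n) := by exact_mod_cast hM
  have h1' : (2:ℝ) ^ (3 * n) * (2 * t) ^ (2 * t) * 4 ≤ 2 ^ (10 * (D * t)) := by exact_mod_cast h1
  set T := D * t with hT
  have e1 : ((2:ℝ) ^ (100 * D)) ^ t = 2 ^ (100 * T) := by rw [← pow_mul]; congr 1; rw [hT]; ring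
  have e2 : ((2:ℝ) ^ (100 * D)) ^ (2 * t) = 2 ^ (200 * T) := by
    rw [← pow_mul]; congr 1; rw [hT]; ring
  have e3 : ((2:ℝ) ^ (55 * D)) ^ (2 * t) = 2 ^ (10 * T) * 2 ^ (100 * T) := by
    rw [← pow_mul, ← pow_add]; congr 1; rw [hT]; ring
  rw [e1, e2, e3]
  have p1 : (0:ℝ) < 2 ^ (100 * T) := by positivity
  have p2 : (0:ℝ) < 2 ^ (10 * T) := by positivity
  have a1 : (M:ℝ) * ((2 * t : ℝ) ^ (2 * t) * 2 ^ (100 * T)) * 4 ≤ 2 ^ (10 * T) * 2 ^ (100 * T) := by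
    calc _ ≤ 2 ^ (3 * n) * ((2 * t : ℝ) ^ (2 * t) * 2 ^ (100 * T)) * 4 := by gcongr
      _ = (2 ^ (3 * n) * (2 * t : ℝ) ^ (2 * t) * 4) * 2 ^ (100 * T) := by ring
      _ ≤ _ := by gcongr
  have a2 : (M:ℝ) * (2 ^ (200 * T) * (2 ^ n / 2 ^ (50 * n))) * 4 ≤ 2 ^ (10 * T) * 2 ^ (100 * T) := by
    have b1 : (2:ℝ) ^ (3 * n) * 2 ^ (200 * T) * 2 ^ n * 2 ^ 2 ≤
        2 ^ (10 * T) * 2 ^ (100 * T) * 2 ^ (50 * n) := by
      rw [← pow_add, ← pow_add, ← pow_add, ← pow_add, ← pow_add]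
      exact pow_le_pow_right₀ (by norm_num) (by omega)
    have p3 : (0:ℝ) < 2 ^ (50 * n) := by positivity
    calc _ ≤ (2:ℝ) ^ (3 * n) * (2 ^ (200 * T) * (2 ^ n / 2 ^ (50 * n))) * 4 := by gcongr
      _ = ((2:ℝ) ^ (3 * n) * 2 ^ (200 * T) * 2 ^ n * 2 ^ 2) / 2 ^ (50 * n) := by ring
      _ ≤ _ := by rw [div_le_iff₀ p3]; exact b1
  have := mul_pos p2 p1
  nlinarith

lemma num_q (K : ℕ) : ∃ q : ℕ, 4 * K ≤ q ^ 2 ∧ 2 ≤ q ∧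
    exp ((2 * (K:ℝ) ^ 2 * log q + 2) * 4 / q) ≤ 51 / 50 := by
  obtain ⟨w, hw⟩ : ∃ w : ℕ, w = 100 * (16 * K ^ 2 + 8) := ⟨_, rfl⟩
  have hw1 : 800 ≤ w := by omega
  have hK : K ≤ K ^ 2 := by nlinarith
  have hw2 : w ≤ w ^ 2 := by nlinarith
  have hw3 : w ^ 2 ≤ (w ^ 2) ^ 2 := Nat.le_self_pow (by norm_num) _
  refine ⟨w ^ 2, by omega, by omega, ?_⟩
  have hwR : (800:ℝ) ≤ w := by exact_mod_cast hw1
  have hwe : (w:ℝ) = 100 * (16 * (K:ℝ) ^ 2 + 8) := by rw [hw]; push_cast; ring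
  have hl : log ((w ^ 2 : ℕ) : ℝ) ≤ 2 * w := by
    push_cast
    rw [log_pow]
    have := log_le_sub_one_of_pos (show (0:ℝ) < w by linarith)
    push_cast
    linarith
  have he : (2 * (K:ℝ) ^ 2 * log ((w ^ 2 : ℕ) : ℝ) + 2) * 4 / ((w ^ 2 : ℕ) : ℝ) ≤ 1 / 100 := by
    rw [div_le_iff₀ (by positivity)]
    have a1 : 2 * (K:ℝ) ^ 2 * log ((w ^ 2 : ℕ) : ℝ) ≤ 2 * (K:ℝ) ^ 2 * (2 * w) := by gcongr
    have a2 : ((w ^ 2 : ℕ) : ℝ) = w * (100 * (16 * (K:ℝ) ^ 2 + 8)) := by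
      rw [← hwe]; push_cast; ring
    generalize log ((w ^ 2 : ℕ) : ℝ) = y at a1 ⊢
    rw [a2]
    have a3 : (1 / 100 : ℝ) * (w * (100 * (16 * (K:ℝ) ^ 2 + 8))) = 16 * (K ^ 2 * w) + 8 * w := by
      ring
    have a4 : 2 * (K:ℝ) ^ 2 * (2 * w) = 4 * (K ^ 2 * w) := by ring
    rw [a3]
    rw [a4] at a1
    linarith
  refine le_trans (exp_le_exp.2 he) ?_
  have h1 := add_one_le_exp (-(1 / 100 : ℝ))
  have h2 : exp (1 / 100) * exp (-(1 / 100 : ℝ)) = 1 := by rw [← exp_add]; simp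
  have h3 := exp_pos (1 / 100 : ℝ)
  generalize exp (1 / 100 : ℝ) = y at h2 h3 ⊢
  generalize exp (-(1 / 100 : ℝ)) = z at h1 h2
  have h4 : y * (99 / 100) ≤ y * z := mul_le_mul_of_nonneg_left (by linarith) h3.le
  linarith

lemma num_tail (D : ℕ) (E : ℝ) (hE : E ≤ 51 / 50) :
    (2:ℝ) ^ (55 * D) * exp (-(80 * D * (1 - E / 2))) + exp (80 * D / 4) * (4 / 5) ^ (100 * D) ≤
      2 / 2 ^ D := by
  have hD : (0:ℝ) ≤ D := Nat.cast_nonneg D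
  have l2 := log_two_lt_d9
  have l2' := log_two_gt_d9
  have e2 : ∀ j : ℕ, (2:ℝ) ^ j = exp (j * log 2) := fun j => by
    rw [exp_nat_mul, exp_log (by norm_num)]
  have a0 : (1:ℝ) / 2 ^ D = exp (-(D * log 2)) := by rw [e2, exp_neg, one_div]
  have a1 : (2:ℝ) ^ (55 * D) * exp (-(80 * D * (1 - E / 2))) ≤ 1 / 2 ^ D := by
    rw [a0, e2, ← exp_add]
    apply exp_le_exp.2
    push_cast
    nlinarith
  have a2 : exp (80 * D / 4) * (4 / 5 : ℝ) ^ (100 * D) ≤ 1 / 2 ^ D := by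
    have b1 : exp (80 * (D:ℝ) / 4) = (exp 1 ^ 20) ^ D := by
      rw [← pow_mul, ← exp_nat_mul]; congr 1; push_cast; ring
    have b2 : exp 1 ^ 20 ≤ (2.7182818286:ℝ) ^ 20 :=
      pow_le_pow_left₀ (exp_pos 1).le exp_one_lt_d9.le 20
    rw [b1, pow_mul, ← mul_pow, ← one_div_pow]
    refine pow_le_pow_left₀ (by positivity) ?_ D
    calc _ ≤ (2.7182818286:ℝ) ^ 20 * (4 / 5) ^ 100 := by gcongr
      _ ≤ _ := by norm_num
  have : (2:ℝ) / 2 ^ D = 1 / 2 ^ D + 1 / 2 ^ D := by ring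
  linarith

lemma num_K (p : ℝ) (k J : ℕ) (hp0 : 0 ≤ p) (hp : p ≤ 1 / 2) (hk : k * p ≤ J) :
    ((1 + p) / (1 - p)) ^ k ≤ 2 ^ (8 * J) := by
  have a1 : (1 + p) / (1 - p) ≤ exp (4 * p) := by
    have := add_one_le_exp (4 * p)
    rw [div_le_iff₀ (by linarith)]
    nlinarith
  have a2 : ((1 + p) / (1 - p)) ^ k ≤ exp (4 * p) ^ k :=
    pow_le_pow_left₀ (div_nonneg (by linarith) (by linarith)) a1 k
  have a3 : (2:ℝ) ^ (8 * J) = exp ((8 * J : ℕ) * log 2) := by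
    rw [exp_nat_mul, exp_log (by norm_num)]
  rw [← exp_nat_mul] at a2
  rw [a3]
  refine a2.trans (exp_le_exp.2 ?_)
  have l2' := log_two_gt_d9
  have hJ : (0:ℝ) ≤ J := Nat.cast_nonneg J
  push_cast
  nlinarith

theorem numerics (A : ℝ) (hA : 0 < A) : ∃ N : ℕ, ∀ m ≥ N, ∀ s : ℕ, (s:ℝ) ≤ 2 ^ (A * √m) →
    ∀ n : ℕ, n = m / 151 → 1 ≤ n ∧ ∃ (k K q U t : ℕ) (p lam : ℝ), 0 ≤ p ∧ p < 1 ∧
      ((1 + p) / (1 - p)) ^ k ≤ 2 ^ K ∧ 4 * K ≤ q ^ 2 ∧ 2 ≤ q ∧ 1 ≤ t ∧ 1 ≤ lam ∧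
      ((3 ^ n * ((2 * U + 1) ^ K + 1) ^ (2 * U * (K * q ^ (K ^ 2))) * 2 ^ (2 * U) : ℕ) : ℝ) *
        ((2 * t : ℝ) ^ (2 * t) * (2 ^ U) ^ t + (2 ^ U) ^ (2 * t) * (2 ^ n / 2 ^ (50 * n))) <
          lam ^ (2 * t) ∧
      (2 * s + 1 : ℝ) * (2 * (2 ^ n * (lam * exp (-(p * n *
          (1 - exp ((2 * (K:ℝ) ^ 2 * log q + 2) * 4 / q) / 2))) + exp (p * n / 4) * (4 / 5) ^ U))) +
        2 * (s:ℝ) ^ 2 * 2 ^ n / 2 ^ k < 2 ^ n := by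
  set b : ℕ := 26 * ⌈A⌉₊ with hb
  set d : ℕ := b + 5 with hd
  set J : ℕ := (2 * b + 3) * (80 * d) with hJ
  obtain ⟨q, hq1, hq2, hq3⟩ := num_q (8 * J)
  have hd1 : 1 ≤ d := by omega
  obtain ⟨r1, hr1⟩ := num_count d (8 * J) (200 * d * ((8 * J) * q ^ ((8 * J) ^ 2))) hd1
  obtain ⟨r2, hr2⟩ := num_t d hd1
  set r0 := max (max r1 r2) (160 * d) with hr0
  refine ⟨151 * r0 ^ 2, fun m hm s hs n hn => ?_⟩
  set r := Nat.sqrt n with hr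
  have hn0 : r0 ^ 2 ≤ n := by rw [hn, Nat.le_div_iff_mul_le (by norm_num)]; omega
  have hrr : r0 ≤ r := by rw [hr, Nat.le_sqrt']; exact hn0
  have hra : r ^ 2 ≤ n := Nat.sqrt_le' n
  have hrb : n < (r + 1) ^ 2 := Nat.lt_succ_sqrt' n
  have hr160 : 160 * d ≤ r := le_trans (le_max_right _ _) hrr
  have hr1' : r1 ≤ r := le_trans (le_trans (le_max_left _ _) (le_max_left _ _)) hrr
  have hr2' : r2 ≤ r := le_trans (le_trans (le_max_right _ _) (le_max_left _ _)) hrr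
  have hrpos : 160 ≤ r := by omega
  have hn2 : 2 ≤ n := by nlinarith
  obtain ⟨t, ht1, ht2, ht3⟩ := hr2 r hr2' n hra hrb
  have hcount := hr1 r hr1' n hra
  have hnR : (0:ℝ) < n := by exact_mod_cast (by omega : 0 < n)
  have hraR : (r:ℝ) ^ 2 ≤ n := by exact_mod_cast hra
  have hr160R : 160 * (d:ℝ) ≤ r := by exact_mod_cast hr160
  have hrR : (160:ℝ) ≤ r := by exact_mod_cast hrpos
  have hdR : (0:ℝ) ≤ d := Nat.cast_nonneg d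
  have hpn : (80 * ((d * r : ℕ) : ℝ) / n) * n = 80 * ((d * r : ℕ) : ℝ) := by field_simp
  have hp2 : 80 * ((d * r : ℕ) : ℝ) / n ≤ 1 / 2 := by
    rw [div_le_iff₀ hnR]; push_cast; nlinarith
  have hp0 : 0 ≤ 80 * ((d * r : ℕ) : ℝ) / n := by positivity
  have hsb : (s:ℝ) ≤ 2 ^ (b * r) := by
    refine hs.trans ?_
    rw [← rpow_natCast]
    refine rpow_le_rpow_of_exponent_le (by norm_num) ?_
    have a1 : m ≤ (26 * r) ^ 2 := by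
      have : m < 151 * (n + 1) := by omega
      nlinarith
    have a2 : √m ≤ 26 * r := by
      rw [sqrt_le_iff]
      exact ⟨by positivity, by exact_mod_cast a1⟩
    have a3 : A ≤ ⌈A⌉₊ := Nat.le_ceil A
    rw [hb]; push_cast
    have a4 : (0:ℝ) ≤ √m := sqrt_nonneg _
    nlinarith
  refine ⟨by omega, 2 * (b * r) + 3, 8 * J, q, 100 * (d * r), t, 80 * ((d * r : ℕ) : ℝ) / n,
    2 ^ (55 * (d * r)), hp0, by linarith, ?_, hq1, hq2, ht1, one_le_pow₀ (by norm_num), ?_, ?_⟩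
  · refine num_K _ _ J hp0 hp2 ?_
    rw [← mul_div_assoc, div_le_iff₀ hnR, hJ]
    push_cast
    have hbR : (0:ℝ) ≤ b := Nat.cast_nonneg b
    have a1 : (2 * ((b:ℝ) * r) + 3) ≤ (2 * b + 3) * r := by nlinarith
    have a2 : (0:ℝ) ≤ 80 * (d * r) := by positivity
    calc (2 * ((b:ℝ) * r) + 3) * (80 * (d * r)) ≤ (2 * b + 3) * r * (80 * (d * r)) := by gcongr
      _ = (2 * b + 3) * (80 * d) * r ^ 2 := by ring
      _ ≤ _ := by gcongr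
  · refine num_moment _ n t (d * r) hn2 ?_ ht2 ht3
    have e1 : 2 * (100 * (d * r)) * (8 * J * q ^ (8 * J) ^ 2) =
        r * (200 * d * (8 * J * q ^ (8 * J) ^ 2)) := by ring
    rw [e1, ← mul_assoc 100 d r]
    exact hcount
  · rw [hpn]
    have h1 := num_tail (d * r) _ hq3
    have p1 : (0:ℝ) < 2 ^ n := by positivity
    have p2 : (0:ℝ) < 2 ^ (b * r) := by positivity
    have p3 : (1:ℝ) ≤ 2 ^ (b * r) := one_le_pow₀ (by norm_num)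
    have hs0 : (0:ℝ) ≤ s := Nat.cast_nonneg s
    have a1 : (2:ℝ) / 2 ^ (d * r) ≤ 2 / (32 * 2 ^ (b * r)) := by
      have : (32:ℝ) * 2 ^ (b * r) ≤ 2 ^ (d * r) := by
        have e : (32:ℝ) * 2 ^ (b * r) = 2 ^ (5 + b * r) := by rw [pow_add]; norm_num
        rw [e]
        exact pow_le_pow_right₀ (by norm_num) (by rw [hd]; nlinarith)
      gcongr
    have a2 : 2 * (s:ℝ) ^ 2 * 2 ^ n / 2 ^ (2 * (b * r) + 3) ≤ 2 ^ n / 4 := by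
      rw [div_le_div_iff₀ (by positivity) (by norm_num), pow_add, mul_comm 2 (b * r), pow_mul]
      have : (s:ℝ) ^ 2 ≤ (2 ^ (b * r)) ^ 2 := by gcongr
      nlinarith
    have a3 : (2 * s + 1 : ℝ) * (2 * (2 ^ n * (2 / (32 * 2 ^ (b * r))))) ≤ 2 ^ n * (3 / 8) := by
      have : (2 * s + 1 : ℝ) ≤ 3 * 2 ^ (b * r) := by linarith
      calc _ ≤ (3 * (2:ℝ) ^ (b * r)) * (2 * (2 ^ n * (2 / (32 * 2 ^ (b * r))))) := by gcongr
        _ = (2:ℝ) ^ n * (3 / 8) := by field_simp; ring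
    have a4 := h1.trans a1
    calc _ ≤ (2 * s + 1 : ℝ) * (2 * (2 ^ n * (2 / (32 * 2 ^ (b * r))))) + 2 ^ n / 4 := by
          gcongr
      _ < _ := by linarith

/-- the same with `n` replaced by `m / 151` -/
theorem numerics' (A : ℝ) (hA : 0 < A) : ∃ N : ℕ, ∀ m ≥ N, ∀ s : ℕ, (s:ℝ) ≤ 2 ^ (A * √m) →
    1 ≤ m / 151 ∧ ∃ (k K q U t : ℕ) (p lam : ℝ), 0 ≤ p ∧ p < 1 ∧
      ((1 + p) / (1 - p)) ^ k ≤ 2 ^ K ∧ 4 * K ≤ q ^ 2 ∧ 2 ≤ q ∧ 1 ≤ t ∧ 1 ≤ lam ∧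
      ((3 ^ (m / 151) * ((2 * U + 1) ^ K + 1) ^ (2 * U * (K * q ^ (K ^ 2))) * 2 ^ (2 * U) : ℕ) : ℝ) *
        ((2 * t : ℝ) ^ (2 * t) * (2 ^ U) ^ t +
          (2 ^ U) ^ (2 * t) * (2 ^ (m / 151) / 2 ^ (50 * (m / 151)))) < lam ^ (2 * t) ∧
      (2 * s + 1 : ℝ) * (2 * (2 ^ (m / 151) * (lam * exp (-(p * (m / 151 : ℕ) *
          (1 - exp ((2 * (K:ℝ) ^ 2 * log q + 2) * 4 / q) / 2))) +
            exp (p * (m / 151 : ℕ) / 4) * (4 / 5) ^ U))) +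
        2 * (s:ℝ) ^ 2 * 2 ^ (m / 151) / 2 ^ k < 2 ^ (m / 151) := by
  obtain ⟨N, hN⟩ := numerics A hA
  exact ⟨N, fun m hm s hs => hN m hm s hs _ rfl⟩

end Crest.Agent.D3
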