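import Mathlib

set_option autoImplicit false

namespace Crest.Agent.D3

open Real

theorem asymH6 (C : ℕ) : ∃ N : ℕ, ∀ n ≥ N, ∃ r l : ℕ, 1 ≤ r ∧ 1 ≤ l ∧ 1 ≤ n ∧ n < r ^ 2 ∧
    r ^ 2 ≤ 4 * n ∧ n < 2 ^ l ∧ C * r * l ≤ n := by
  refine ⟨(32 * C + 1) ^ 4, fun n hn => ?_⟩
  set a := Nat.sqrt n with ha
  set z := Nat.sqrt a with hz
  have h1 : (32 * C + 1) ^ 2 ≤ a := by
    rw [ha, Nat.le_sqrt']; calc ((32 * C + 1) ^ 2) ^ 2 = (32 * C + 1) ^ 4 := by ring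
      _ ≤ n := hn
  have h2 : 32 * C + 1 ≤ z := by rw [hz, Nat.le_sqrt']; exact h1
  have h3 : a ^ 2 ≤ n := Nat.sqrt_le' n
  have h4 : n < (a + 1) ^ 2 := Nat.lt_succ_sqrt' n
  have h5 : z ^ 2 ≤ a := Nat.sqrt_le' a
  have h6 : a < (z + 1) ^ 2 := Nat.lt_succ_sqrt' a
  have hz1 : 1 ≤ z := by omega
  have ha1 : 1 ≤ a := le_trans (Nat.one_le_pow _ _ hz1) h5
  refine ⟨a + 1, 4 * (z + 1), by omega, by omega, le_trans (Nat.one_le_pow _ _ ha1) h3, h4,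
    by nlinarith, ?_, ?_⟩
  · have h7 : z + 1 < 2 ^ (z + 1) := Nat.lt_two_pow_self
    calc n < (a + 1) ^ 2 := h4
      _ ≤ ((z + 1) ^ 2) ^ 2 := Nat.pow_le_pow_left h6 2
      _ = (z + 1) ^ 4 := by ring
      _ ≤ (2 ^ (z + 1)) ^ 4 := Nat.pow_le_pow_left h7.le 4
      _ = 2 ^ (4 * (z + 1)) := by rw [← pow_mul, mul_comm]
  · have h8 : a + 1 ≤ (2 * z) ^ 2 := le_trans h6 (Nat.pow_le_pow_left (by omega) 2)
    calc C * (a + 1) * (4 * (z + 1)) ≤ C * (2 * z) ^ 2 * (4 * (2 * z)) := by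
          gcongr; omega
      _ = (32 * C) * z ^ 3 := by ring
      _ ≤ z * z ^ 3 := Nat.mul_le_mul_right _ (by omega)
      _ = (z ^ 2) ^ 2 := by ring
      _ ≤ a ^ 2 := Nat.pow_le_pow_left h5 2
      _ ≤ n := h3

theorem ineq1H6 (n i t K R l : ℕ) (h1 : 2 * (50 * i) + 1 ≤ 2 ^ l) (h2 : 2 * t ≤ 2 ^ l)
    (h3 : (l * K + 1) * (2 * (50 * i) * R) + 2 * (50 * i) ≤ n) (h4 : i * t + 1 ≤ n)
    (h5 : 3 * n + 2 * t * l + 2 ≤ 4 * (i * t)) :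
    ((3 ^ n * ((2 * (50 * i) + 1) ^ K + 1) ^ (2 * (50 * i) * R) * 2 ^ (2 * (50 * i)) : ℕ) : ℝ) *
      ((2 * t : ℝ) ^ (2 * t) * (2 ^ (50 * i)) ^ t +
        (2 ^ (50 * i)) ^ (2 * t) * (2 ^ n / 2 ^ (50 * n))) < ((2 : ℝ) ^ (27 * i)) ^ (2 * t) := by
  have hc : 3 ^ n * ((2 * (50 * i) + 1) ^ K + 1) ^ (2 * (50 * i) * R) * 2 ^ (2 * (50 * i)) ≤
      2 ^ (3 * n) := by
    have a1 : 3 ^ n ≤ 2 ^ (2 * n) := by
      rw [pow_mul]; exact Nat.pow_le_pow_left (by norm_num) n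
    have a2 : (2 * (50 * i) + 1) ^ K + 1 ≤ 2 ^ (l * K + 1) := by
      have b1 : (2 * (50 * i) + 1) ^ K ≤ 2 ^ (l * K) := by
        rw [pow_mul]; exact Nat.pow_le_pow_left h1 K
      have b2 : 1 ≤ 2 ^ (l * K) := Nat.one_le_two_pow
      rw [pow_succ]; omega
    calc 3 ^ n * ((2 * (50 * i) + 1) ^ K + 1) ^ (2 * (50 * i) * R) * 2 ^ (2 * (50 * i))
        ≤ 2 ^ (2 * n) * (2 ^ (l * K + 1)) ^ (2 * (50 * i) * R) * 2 ^ (2 * (50 * i)) := by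
          gcongr
      _ = 2 ^ (2 * n + ((l * K + 1) * (2 * (50 * i) * R) + 2 * (50 * i))) := by
          rw [← pow_mul, ← pow_add, ← pow_add, add_assoc]
      _ ≤ 2 ^ (3 * n) := Nat.pow_le_pow_right (by norm_num) (by omega)
  have hc' : ((3 ^ n * ((2 * (50 * i) + 1) ^ K + 1) ^ (2 * (50 * i) * R) *
      2 ^ (2 * (50 * i)) : ℕ) : ℝ) ≤ 2 ^ (3 * n) := by exact_mod_cast hc
  have h2' : (2 * t : ℝ) ≤ 2 ^ l := by exact_mod_cast h2
  have t1 : (2 : ℝ) ^ (3 * n) * ((2 * t : ℝ) ^ (2 * t) * (2 ^ (50 * i)) ^ t) ≤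
      2 ^ (54 * (i * t)) / 4 := by
    rw [le_div_iff₀ (by norm_num)]
    calc (2 : ℝ) ^ (3 * n) * ((2 * t : ℝ) ^ (2 * t) * (2 ^ (50 * i)) ^ t) * 4
        ≤ (2 : ℝ) ^ (3 * n) * ((2 ^ l : ℝ) ^ (2 * t) * (2 ^ (50 * i)) ^ t) * 2 ^ 2 := by
          gcongr; norm_num
      _ = 2 ^ (3 * n + (l * (2 * t) + 50 * i * t) + 2) := by
          rw [← pow_mul, ← pow_mul, ← pow_add, ← pow_add, ← pow_add]
      _ ≤ 2 ^ (54 * (i * t)) := by
          apply pow_le_pow_right₀ (by norm_num)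
          have : l * (2 * t) = 2 * t * l := by ring
          have : 50 * i * t = 50 * (i * t) := by ring
          omega
  have t2 : (2 : ℝ) ^ (3 * n) * ((2 ^ (50 * i)) ^ (2 * t) * (2 ^ n / 2 ^ (50 * n))) ≤
      2 ^ (54 * (i * t)) / 4 := by
    have e1 : (2 : ℝ) ^ (3 * n) * ((2 ^ (50 * i)) ^ (2 * t) * (2 ^ n / 2 ^ (50 * n))) =
        2 ^ (3 * n + (50 * i * (2 * t) + n)) / 2 ^ (50 * n) := by
      rw [← pow_mul, pow_add, pow_add]; ring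
    rw [e1, div_le_div_iff₀ (by positivity) (by norm_num)]
    calc (2 : ℝ) ^ (3 * n + (50 * i * (2 * t) + n)) * 4
        = 2 ^ (3 * n + (50 * i * (2 * t) + n) + 2) := by rw [pow_add _ _ 2]; norm_num
      _ ≤ 2 ^ (54 * (i * t) + 50 * n) := by
          apply pow_le_pow_right₀ (by norm_num)
          have : 50 * i * (2 * t) = 100 * (i * t) := by ring
          omega
      _ = 2 ^ (54 * (i * t)) * 2 ^ (50 * n) := pow_add _ _ _
  have e2 : ((2 : ℝ) ^ (27 * i)) ^ (2 * t) = 2 ^ (54 * (i * t)) := by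
    rw [← pow_mul]; congr 1; ring
  rw [e2]
  have hp : (0 : ℝ) < 2 ^ (54 * (i * t)) := by positivity
  have hnn : (0 : ℝ) ≤ (2 * t : ℝ) ^ (2 * t) * (2 ^ (50 * i)) ^ t +
        (2 ^ (50 * i)) ^ (2 * t) * (2 ^ n / 2 ^ (50 * n)) := by positivity
  have := mul_le_mul_of_nonneg_right hc' hnn
  rw [mul_add (2 ^ (3 * n) : ℝ)] at this
  linarith

theorem eH6 (K : ℕ) : (2 * (K : ℝ) ^ 2 * Real.log (((800 * K ^ 2 + 400) ^ 2 : ℕ) : ℝ) + 2) * 4 /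
    (((800 * K ^ 2 + 400) ^ 2 : ℕ) : ℝ) ≤ 1 / 50 := by
  set c : ℝ := 800 * (K : ℝ) ^ 2 + 400 with hc
  have hq : (((800 * K ^ 2 + 400) ^ 2 : ℕ) : ℝ) = c ^ 2 := by rw [hc]; push_cast; ring
  have hK : (0 : ℝ) ≤ (K : ℝ) ^ 2 := by positivity
  have hc1 : 400 ≤ c := by rw [hc]; linarith
  rw [hq, Real.log_pow]
  have hl : Real.log c ≤ c := le_trans (Real.log_le_sub_one_of_pos (by linarith)) (by linarith)
  rw [div_le_div_iff₀ (by positivity) (by norm_num)]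
  have h1 : (K : ℝ) ^ 2 * Real.log c ≤ (K : ℝ) ^ 2 * c := mul_le_mul_of_nonneg_left hl hK
  have h2 : c ^ 2 = 800 * ((K : ℝ) ^ 2 * c) + 400 * c := by rw [pow_two c]; nth_rewrite 1 [hc]; ring
  push_cast
  nlinarith

theorem ineq2H6 (n i b k : ℕ) (s e p : ℝ) (hs0 : 0 ≤ s) (hs : s ≤ 2 ^ b) (hi : b + 5 ≤ i)
    (hk : k = 2 * b + 2) (he : e ≤ 1 / 50) (hp : p * n = 40 * i) :
    (2 * s + 1 : ℝ) * (2 * (2 ^ n * ((2 : ℝ) ^ (27 * i) * exp (-(p * n * (1 - exp e / 2))) +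
      exp (p * n / 4) * (4 / 5) ^ (50 * i)))) + 2 * s ^ 2 * 2 ^ n / 2 ^ k < 2 ^ n := by
  have hi0 : (0 : ℝ) ≤ i := by positivity
  have hee : exp e ≤ 50 / 49 := by
    have h1 : exp e ≤ exp (1 / 50) := exp_le_exp.2 he
    have h2 : 1 - 1 / 50 ≤ exp (-(1 / 50 : ℝ)) := by
      have := Real.add_one_le_exp (-(1 / 50 : ℝ)); linarith
    have h3 : exp (1 / 50 : ℝ) * exp (-(1 / 50 : ℝ)) = 1 := by rw [← exp_add]; simp
    have h4 : 0 < exp (1 / 50 : ℝ) := exp_pos _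
    nlinarith
  have T1 : (2 : ℝ) ^ (27 * i) * exp (-(p * n * (1 - exp e / 2))) ≤ 1 / 2 ^ i := by
    rw [hp, le_div_iff₀ (by positivity)]
    have e1 : (2 : ℝ) ^ (27 * i) * exp (-(40 * i * (1 - exp e / 2))) * 2 ^ i =
        exp ((28 * i : ℕ) * Real.log 2 + -(40 * i * (1 - exp e / 2))) := by
      rw [exp_add, Real.exp_nat_mul, Real.exp_log (by norm_num)]
      have : (2 : ℝ) ^ (28 * i) = 2 ^ (27 * i) * 2 ^ i := by rw [← pow_add]; congr 1; ring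
      rw [this]; ring
    rw [e1, Real.exp_le_one_iff]
    have hl := Real.log_two_lt_d9
    push_cast
    have h1 : (i : ℝ) * Real.log 2 ≤ i * 0.6931471808 := mul_le_mul_of_nonneg_left hl.le hi0
    have h2 : (i : ℝ) * exp e ≤ i * (50 / 49) := mul_le_mul_of_nonneg_left hee hi0
    nlinarith
  have T2 : exp (p * n / 4) * (4 / 5 : ℝ) ^ (50 * i) ≤ 1 / 2 ^ i := by
    have e1 : p * n / 4 = ((10 * i : ℕ) : ℝ) * 1 := by rw [hp]; push_cast; ring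
    rw [e1, Real.exp_nat_mul, pow_mul, pow_mul, ← mul_pow, ← one_div_pow]
    apply pow_le_pow_left₀ (by positivity)
    have h1 : exp 1 ≤ 2.72 := le_trans Real.exp_one_lt_d9.le (by norm_num)
    have h2 : exp 1 ^ 10 ≤ (2.72 : ℝ) ^ 10 := pow_le_pow_left₀ (exp_pos _).le h1 10
    have h3 : (2.72 : ℝ) ^ 10 * (4 / 5 : ℝ) ^ 50 ≤ 1 / 2 := by norm_num
    exact le_trans (mul_le_mul_of_nonneg_right h2 (by positivity)) h3
  have hb1 : (1 : ℝ) ≤ 2 ^ b := one_le_pow₀ (by norm_num)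
  have hi2 : (2 : ℝ) ^ b * 32 ≤ 2 ^ i := by
    calc (2 : ℝ) ^ b * 32 = 2 ^ (b + 5) := by rw [pow_add]; norm_num
      _ ≤ 2 ^ i := pow_le_pow_right₀ (by norm_num) hi
  have hn : (0 : ℝ) < 2 ^ n := by positivity
  have U1 : (2 * s + 1 : ℝ) * (1 / 2 ^ i) ≤ 3 / 32 := by
    rw [mul_one_div, div_le_div_iff₀ (by positivity) (by norm_num)]
    linarith
  have U2 : 2 * s ^ 2 * 2 ^ n / 2 ^ k ≤ 2 ^ n / 2 := by
    rw [div_le_div_iff₀ (by positivity) (by norm_num), hk]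
    have h1 : s ^ 2 ≤ (2 ^ b) ^ 2 := pow_le_pow_left₀ hs0 hs 2
    have h2 : (2 : ℝ) ^ (2 * b + 2) = (2 ^ b) ^ 2 * 4 := by
      rw [pow_add, ← pow_mul, mul_comm b 2]; norm_num
    rw [h2]
    nlinarith
  have U3 : (2 * s + 1 : ℝ) * (2 * (2 ^ n * ((2 : ℝ) ^ (27 * i) *
      exp (-(p * n * (1 - exp e / 2))) + exp (p * n / 4) * (4 / 5) ^ (50 * i)))) ≤
      (2 * s + 1 : ℝ) * (2 * (2 ^ n * (1 / 2 ^ i + 1 / 2 ^ i))) := by
    gcongr
  have U4 : (2 * s + 1 : ℝ) * (2 * (2 ^ n * (1 / 2 ^ i + 1 / 2 ^ i))) =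
      4 * 2 ^ n * ((2 * s + 1 : ℝ) * (1 / 2 ^ i)) := by ring
  have U5 : 4 * 2 ^ n * ((2 * s + 1 : ℝ) * (1 / 2 ^ i)) ≤ 4 * 2 ^ n * (3 / 32) :=
    mul_le_mul_of_nonneg_left U1 (by positivity)
  linarith

theorem ratioH6 (p : ℝ) (hp0 : 0 ≤ p) (hp : p ≤ 1 / 2) (k K : ℕ) (h : 6 * (p * k) ≤ K) :
    ((1 + p) / (1 - p)) ^ k ≤ 2 ^ K := by
  have h1 : (1 + p) / (1 - p) ≤ exp (3 * p) := by
    rw [div_le_iff₀ (by linarith)]
    have a1 : 1 + p ≤ exp p := by have := Real.add_one_le_exp p; linarith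
    have a2 : 1 + 2 * p ≤ exp (2 * p) := by have := Real.add_one_le_exp (2 * p); linarith
    have a3 : exp (3 * p) = exp p * exp (2 * p) := by rw [← exp_add]; congr 1; ring
    have a4 : 1 ≤ exp (2 * p) * (1 - p) := by nlinarith
    rw [a3, mul_assoc]
    nlinarith [exp_pos p]
  have h2 : ((1 + p) / (1 - p)) ^ k ≤ exp (3 * p) ^ k :=
    pow_le_pow_left₀ (div_nonneg (by linarith) (by linarith)) h1 k
  refine le_trans h2 ?_
  rw [← Real.exp_nat_mul]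
  have h3 : (2 : ℝ) ^ K = exp (K * Real.log 2) := by
    rw [Real.exp_nat_mul, Real.exp_log (by norm_num)]
  rw [h3, exp_le_exp]
  have hl := Real.log_two_gt_d9
  have hK : (0 : ℝ) ≤ K := by positivity
  nlinarith

theorem numericsH6 (A : ℝ) (hA : 0 < A) : ∃ N : ℕ, ∀ m ≥ N, ∀ s : ℕ,
    (s : ℝ) ≤ 2 ^ (A * √m) → 1 ≤ m / 151 ∧ ∃ (k K q U t : ℕ) (p lam : ℝ), 0 ≤ p ∧ p < 1 ∧
      ((1 + p) / (1 - p)) ^ k ≤ 2 ^ K ∧ 4 * K ≤ q ^ 2 ∧ 2 ≤ q ∧ 1 ≤ t ∧ 1 ≤ lam ∧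
      ((3 ^ (m / 151) * ((2 * U + 1) ^ K + 1) ^ (2 * U * (K * q ^ (K ^ 2))) * 2 ^ (2 * U) : ℕ) : ℝ) *
        ((2 * t : ℝ) ^ (2 * t) * (2 ^ U) ^ t +
          (2 ^ U) ^ (2 * t) * (2 ^ (m / 151) / 2 ^ (50 * (m / 151)))) < lam ^ (2 * t) ∧
      (2 * s + 1 : ℝ) * (2 * (2 ^ (m / 151) * (lam * exp (-(p * (m / 151 : ℕ) *
          (1 - exp ((2 * (K : ℝ) ^ 2 * Real.log q + 2) * 4 / q) / 2))) +
        exp (p * (m / 151 : ℕ) / 4) * (4 / 5) ^ U))) +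
        2 * s ^ 2 * 2 ^ (m / 151) / 2 ^ k < 2 ^ (m / 151) := by
  obtain ⟨B, hB⟩ : ∃ B : ℕ, 13 * A ≤ B := exists_nat_ge _
  obtain ⟨K, hK⟩ : ∃ K : ℕ, K = 960 * ((B + 5) * (2 * B + 2)) := ⟨_, rfl⟩
  obtain ⟨q, hq⟩ : ∃ q : ℕ, q = (800 * K ^ 2 + 400) ^ 2 := ⟨_, rfl⟩
  obtain ⟨R, hR⟩ : ∃ R : ℕ, R = K * q ^ (K ^ 2) := ⟨_, rfl⟩
  obtain ⟨W, hW⟩ : ∃ W : ℕ, W = (K + 1) * R + 1 := ⟨_, rfl⟩
  obtain ⟨N, hN⟩ := asymH6 (200 * (B + 5) * W)
  refine ⟨151 * N, fun m hm s hs => ?_⟩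
  obtain ⟨n, hn⟩ : ∃ n : ℕ, n = m / 151 := ⟨_, rfl⟩
  rw [← hn]
  obtain ⟨r, l, hr1, hl1, hn1, hr2, hr3, hl2, hC⟩ := hN n (by omega)
  refine ⟨hn1, ?_⟩
  obtain ⟨i, hi⟩ : ∃ i : ℕ, i = (B + 5) * r := ⟨_, rfl⟩
  have hC' : 200 * (i * l * W) ≤ n := by
    calc 200 * (i * l * W) = 200 * (B + 5) * W * r * l := by rw [hi]; ring
      _ ≤ n := hC
  have hW1 : 1 ≤ W := by omega
  have hilW : i * l ≤ i * l * W := Nat.le_mul_of_pos_right _ hW1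
  have hil : i ≤ i * l := Nat.le_mul_of_pos_right _ hl1
  have hir : 5 * r ≤ i := by rw [hi]; exact Nat.mul_le_mul_right _ (by omega)
  have hi0 : 0 < i := by omega
  obtain ⟨t, ht⟩ : ∃ t : ℕ, t = (n - 1) / i := ⟨_, rfl⟩
  have ht1 : i * t ≤ n - 1 := by rw [ht]; exact Nat.mul_div_le _ _
  have ht2 : n - 1 < i * t + i := by
    have := Nat.lt_mul_div_succ (n - 1) hi0
    rw [← ht, mul_add, mul_one] at this
    exact this
  have ht3 : t ≤ r := by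
    by_contra hlt
    have h1 : r * r ≤ i * t := Nat.mul_le_mul (by omega) (by omega)
    have h2 : r ^ 2 = r * r := pow_two r
    omega
  have ht4 : 1 ≤ t := by
    by_contra hlt
    have : t = 0 := by omega
    rw [this] at ht2
    omega
  have hnR : (0 : ℝ) < n := by exact_mod_cast hn1
  have hpn : (40 * (i : ℝ) / n) * n = 40 * i := by field_simp
  have hp2 : 40 * (i : ℝ) / n ≤ 1 / 2 := by
    rw [div_le_div_iff₀ hnR (by norm_num)]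
    have : 80 * i ≤ n := by omega
    have h' : (80 * i : ℝ) ≤ n := by exact_mod_cast this
    linarith
  refine ⟨2 * (B * r) + 2, K, q, 50 * i, t, 40 * (i : ℝ) / n, 2 ^ (27 * i), by positivity,
    by linarith, ?_, ?_, ?_, ht4, one_le_pow₀ (by norm_num), ?_, ?_⟩
  · apply ratioH6 _ (by positivity) hp2
    have h1 : 6 * (40 * i * (2 * (B * r) + 2)) ≤ K * n := by
      calc 6 * (40 * i * (2 * (B * r) + 2)) ≤ 6 * (40 * i * (2 * (B * r) + 2 * r)) := by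
            gcongr; omega
        _ = 240 * ((B + 5) * (2 * B + 2)) * r ^ 2 := by rw [hi]; ring
        _ ≤ 240 * ((B + 5) * (2 * B + 2)) * (4 * n) := Nat.mul_le_mul_left _ hr3
        _ = K * n := by rw [hK]; ring
    have h2 : (6 * (40 * i * ((2 * (B * r) + 2 : ℕ) : ℝ)) : ℝ) ≤ K * n := by exact_mod_cast h1
    have h3 : 6 * (40 * (i : ℝ) / n * ((2 * (B * r) + 2 : ℕ) : ℝ)) =
        (6 * (40 * i * ((2 * (B * r) + 2 : ℕ) : ℝ)) : ℝ) / n := by ring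
    rw [h3, div_le_iff₀ hnR]
    exact h2
  · have h1 : 4 * K ≤ 800 * K ^ 2 + 400 := by nlinarith
    calc 4 * K ≤ 800 * K ^ 2 + 400 := h1
      _ ≤ (800 * K ^ 2 + 400) ^ 2 := Nat.le_self_pow (by norm_num) _
      _ ≤ q ^ 2 := by rw [← hq]; exact Nat.le_self_pow (by norm_num) _
  · have h1 : 800 * K ^ 2 + 400 ≤ q := by rw [hq]; exact Nat.le_self_pow (by norm_num) _
    omega
  · rw [← hR]
    apply ineq1H6 n i t K R l
    · omega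
    · omega
    · have h1 : (l * K + 1) * R + 1 ≤ l * W := by
        rw [hW]
        have : R ≤ l * R := Nat.le_mul_of_pos_left _ hl1
        nlinarith
      calc (l * K + 1) * (2 * (50 * i) * R) + 2 * (50 * i)
          = 100 * i * ((l * K + 1) * R + 1) := by ring
        _ ≤ 100 * i * (l * W) := Nat.mul_le_mul_left _ h1
        _ = 100 * (i * l * W) := by ring
        _ ≤ n := by omega
    · omega
    · have h1 : t * l ≤ i * l := Nat.mul_le_mul_right _ (by omega)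
      have h2 : 2 * t * l = 2 * (t * l) := by ring
      omega
  · apply ineq2H6 n i (B * r) _ s _ _ (by positivity) ?_ ?_ rfl ?_ hpn
    · refine le_trans hs ?_
      rw [← Real.rpow_natCast]
      apply Real.rpow_le_rpow_of_exponent_le (by norm_num)
      have h1 : √(m : ℝ) ≤ 13 * r := by
        rw [Real.sqrt_le_left (by positivity)]
        have : m ≤ (13 * r) ^ 2 := by
          have : (13 * r) ^ 2 = 169 * r ^ 2 := by ring
          omega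
        exact_mod_cast this
      have h2 : (0 : ℝ) ≤ r := by positivity
      push_cast
      nlinarith
    · have : i = B * r + 5 * r := by rw [hi]; ring
      omega
    · rw [hq]; exact eH6 K

end Crest.Agent.D3
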