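import Mathlib

/-! S0440: the choice of parameters. -/

set_option autoImplicit false

namespace Crest.Agent.D3.NumH7

open Real

lemma sq_le_two_pow (s : ℕ) : s ^ 2 ≤ 2 ^ (s + 1) := by
  induction s with
  | zero => simp
  | succ s ih =>
    rcases Nat.lt_or_ge s 3 with h | h
    · interval_cases s <;> norm_num
    · have : (s + 1) ^ 2 ≤ 2 * s ^ 2 := by nlinarith
      rw [pow_succ 2 (s + 1)]; omega

lemma ineq1 (n ν X t : ℕ) (hX : X * 2 ^ (2 * (80 * ν)) ≤ 2 ^ n) (h2t : 2 * t ≤ 2 ^ ν)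
    (h1 : 41 * n < 80 * ν * t) (h2 : 80 * ν * t ≤ 42 * n) (hn : 27 ≤ n) :
    ((3 ^ n * X * 2 ^ (2 * (80 * ν)) : ℕ) : ℝ) *
      ((2 * t : ℝ) ^ (2 * t) * (2 ^ (80 * ν)) ^ t +
        (2 ^ (80 * ν)) ^ (2 * t) * (2 ^ n / 2 ^ (50 * n))) < (2 ^ (44 * ν)) ^ (2 * t) := by
  have hc : ((3 ^ n * X * 2 ^ (2 * (80 * ν)) : ℕ) : ℝ) ≤ 2 ^ (3 * n) := by
    have h3 : 3 ^ n ≤ 4 ^ n := Nat.pow_le_pow_left (by norm_num) n
    have h4 : 3 ^ n * X * 2 ^ (2 * (80 * ν)) ≤ 2 ^ (3 * n) := by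
      calc 3 ^ n * X * 2 ^ (2 * (80 * ν)) = 3 ^ n * (X * 2 ^ (2 * (80 * ν))) := by ring
        _ ≤ 4 ^ n * 2 ^ n := Nat.mul_le_mul h3 hX
        _ = 2 ^ (3 * n) := by rw [← mul_pow, pow_mul]; norm_num
    exact_mod_cast h4
  obtain ⟨x, hx⟩ : ∃ x, x = ν * t := ⟨_, rfl⟩
  have h1' : 41 * n < 80 * x := by rw [hx]; linarith
  have h2' : 80 * x ≤ 42 * n := by rw [hx]; linarith
  have ht : (2 * t : ℝ) ^ (2 * t) ≤ 2 ^ (2 * x) := by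
    have h5 : (2 * t : ℝ) ≤ 2 ^ ν := by exact_mod_cast h2t
    calc (2 * t : ℝ) ^ (2 * t) ≤ (2 ^ ν) ^ (2 * t) := by gcongr
      _ = 2 ^ (2 * x) := by rw [← pow_mul, hx]; congr 1; ring
  have e1 : ((2 : ℝ) ^ (80 * ν)) ^ t = 2 ^ (80 * x) := by rw [← pow_mul, hx]; congr 1; ring
  have e2 : ((2 : ℝ) ^ (80 * ν)) ^ (2 * t) = 2 ^ (160 * x) := by
    rw [← pow_mul, hx]; congr 1; ring
  have e3 : ((2 : ℝ) ^ (44 * ν)) ^ (2 * t) = 2 ^ (88 * x) := by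
    rw [← pow_mul, hx]; congr 1; ring
  rw [e1, e2, e3]
  have a1 : (2 : ℝ) ^ (3 * n) * (2 ^ (2 * x) * 2 ^ (80 * x)) * 2 ^ 2 ≤ 2 ^ (88 * x) := by
    rw [← pow_add, ← pow_add, ← pow_add]
    exact pow_le_pow_right₀ (by norm_num) (by omega)
  have a2 : (2 : ℝ) ^ (3 * n) * (2 ^ (160 * x) * (2 ^ n / 2 ^ (50 * n))) * 2 ^ 2
      ≤ 2 ^ (88 * x) := by
    have : (2 : ℝ) ^ (3 * n) * (2 ^ (160 * x) * (2 ^ n / 2 ^ (50 * n))) * 2 ^ 2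
        = 2 ^ (3 * n + 160 * x + n + 2) / 2 ^ (50 * n) := by
      rw [pow_add, pow_add, pow_add]; ring
    rw [this, div_le_iff₀ (by positivity), ← pow_add]
    exact pow_le_pow_right₀ (by norm_num) (by omega)
  have hp : (0 : ℝ) < 2 ^ (88 * x) := by positivity
  calc _ ≤ (2 : ℝ) ^ (3 * n) * (2 ^ (2 * x) * 2 ^ (80 * x) +
        2 ^ (160 * x) * (2 ^ n / 2 ^ (50 * n))) := by gcongr
    _ < _ := by rw [mul_add]; linarith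

lemma num1 : (2 : ℝ) ^ 44 * exp (-(64 * (49 / 100))) ≤ 1 / 2 := by
  have h : exp (45 * log 2) = 2 ^ 45 := by
    rw [show (45 : ℝ) * log 2 = ((45 : ℕ) : ℝ) * log 2 by norm_num, exp_nat_mul,
      exp_log (by norm_num)]
  have h2 : exp (45 * log 2) ≤ exp (64 * (49 / 100)) := by
    apply exp_le_exp.2
    have := log_two_lt_d9
    linarith
  rw [exp_neg, ← div_eq_mul_inv, div_le_div_iff₀ (exp_pos _) (by norm_num)]
  rw [h] at h2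
  linarith

lemma num2 : exp 16 * (4 / 5 : ℝ) ^ 80 ≤ 1 / 2 := by
  have h : exp 16 ≤ 2.7182818286 ^ 16 := by
    rw [show (16 : ℝ) = ((16 : ℕ) : ℝ) * 1 by norm_num, exp_nat_mul]
    exact pow_le_pow_left₀ (exp_pos _).le exp_one_lt_d9.le 16
  have h2 : (2.7182818286 : ℝ) ^ 16 ≤ 10 ^ 7 := by norm_num
  have h3 : (10 : ℝ) ^ 7 * (4 / 5 : ℝ) ^ 80 ≤ 1 / 2 := by norm_num
  have h4 : (0 : ℝ) ≤ (4 / 5 : ℝ) ^ 80 := by positivity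
  nlinarith

lemma ineq2 (n b s : ℕ) (e pn : ℝ) (hs : (s : ℝ) ≤ 2 ^ b) (he : exp e ≤ 102 / 100)
    (hpn : pn = 64 * ((b + 5 : ℕ) : ℝ)) :
    (2 * s + 1 : ℝ) * (2 * (2 ^ n * (2 ^ (44 * (b + 5)) * exp (-(pn * (1 - exp e / 2))) +
      exp (pn / 4) * (4 / 5) ^ (80 * (b + 5))))) + 2 * s ^ 2 * 2 ^ n / 2 ^ (2 * b + 2) < 2 ^ n := by
  set ν := b + 5 with hν
  have hν0 : (0 : ℝ) ≤ (ν : ℝ) := Nat.cast_nonneg _
  have t1 : (2 : ℝ) ^ (44 * ν) * exp (-(pn * (1 - exp e / 2))) ≤ (1 / 2) ^ ν := by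
    have h1 : exp (-(pn * (1 - exp e / 2))) ≤ exp (-(64 * (49 / 100))) ^ ν := by
      rw [← exp_nat_mul]
      apply exp_le_exp.2
      rw [hpn]
      nlinarith
    calc _ ≤ (2 : ℝ) ^ (44 * ν) * exp (-(64 * (49 / 100))) ^ ν := by gcongr
      _ = (2 ^ 44 * exp (-(64 * (49 / 100)))) ^ ν := by rw [mul_pow, ← pow_mul]
      _ ≤ _ := pow_le_pow_left₀ (by positivity) num1 ν
  have t2 : exp (pn / 4) * (4 / 5 : ℝ) ^ (80 * ν) ≤ (1 / 2) ^ ν := by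
    have h1 : exp (pn / 4) = exp 16 ^ ν := by
      rw [← exp_nat_mul, hpn]; congr 1; ring
    calc _ = (exp 16 * (4 / 5 : ℝ) ^ 80) ^ ν := by rw [h1, mul_pow, ← pow_mul]
      _ ≤ _ := pow_le_pow_left₀ (by positivity) num2 ν
  have hb : (1 : ℝ) ≤ 2 ^ b := one_le_pow₀ (by norm_num)
  have e1 : (1 / 2 : ℝ) ^ ν = 1 / (32 * 2 ^ b) := by
    rw [hν, one_div_pow, pow_add]; norm_num [mul_comm]
  have e2 : (2 : ℝ) ^ (2 * b + 2) = 4 * (2 ^ b) ^ 2 := by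
    rw [pow_add, mul_comm 2 b, pow_mul]; ring
  have hn : (0 : ℝ) < 2 ^ n := by positivity
  have hs0 : (0 : ℝ) ≤ s := Nat.cast_nonneg _
  have u1 : (2 * s + 1 : ℝ) * (2 * (2 ^ n * (2 ^ (44 * ν) * exp (-(pn * (1 - exp e / 2))) +
      exp (pn / 4) * (4 / 5) ^ (80 * ν)))) ≤ 3 / 8 * 2 ^ n := by
    calc _ ≤ (3 * 2 ^ b : ℝ) * (2 * (2 ^ n * (1 / (32 * 2 ^ b) + 1 / (32 * 2 ^ b)))) := by
          rw [← e1]; gcongr; linarith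
      _ = 3 / 8 * 2 ^ n := by field_simp; ring
  have u2 : 2 * (s : ℝ) ^ 2 * 2 ^ n / 2 ^ (2 * b + 2) ≤ 1 / 2 * 2 ^ n := by
    rw [e2, div_le_iff₀ (by positivity)]
    have : (s : ℝ) ^ 2 ≤ (2 ^ b) ^ 2 := by gcongr
    nlinarith
  linarith

lemma ratio (p : ℝ) (k K : ℕ) (hp0 : 0 ≤ p) (hp : p ≤ 1 / 2) (h : 8 * (p * k) ≤ K) :
    ((1 + p) / (1 - p)) ^ k ≤ 2 ^ K := by
  have h1 : (1 + p) / (1 - p) ≤ exp (4 * p) := by
    refine le_trans ?_ (add_one_le_exp _)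
    rw [div_le_iff₀ (by linarith)]
    nlinarith
  have h0 : 0 ≤ (1 + p) / (1 - p) := div_nonneg (by linarith) (by linarith)
  calc _ ≤ exp (4 * p) ^ k := pow_le_pow_left₀ h0 h1 k
    _ = exp (k * (4 * p)) := (exp_nat_mul _ _).symm
    _ ≤ exp (K * log 2) := by
        apply exp_le_exp.2
        have := log_two_gt_d9
        have hK : (0 : ℝ) ≤ K := Nat.cast_nonneg _
        nlinarith
    _ = 2 ^ K := by rw [exp_nat_mul, exp_log (by norm_num)]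

lemma exists_q (K : ℕ) (hK : 1 ≤ K) : ∃ q : ℕ, 4 * K ≤ q ^ 2 ∧ 2 ≤ q ∧
    exp ((2 * (K : ℝ) ^ 2 * log q + 2) * 4 / q) ≤ 102 / 100 := by
  refine ⟨(2000 * K ^ 2) ^ 2, ?_, ?_, ?_⟩
  · have h1 : K ≤ K ^ 2 := by nlinarith
    have h2 : 2000 * K ^ 2 ≤ (2000 * K ^ 2) ^ 2 := by nlinarith
    have h3 : (2000 * K ^ 2) ^ 2 ≤ ((2000 * K ^ 2) ^ 2) ^ 2 := by nlinarith
    omega
  · have h1 : 1 ≤ K ^ 2 := by nlinarith
    nlinarith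
  · have hK' : (1 : ℝ) ≤ (K : ℝ) ^ 2 := one_le_pow₀ (by exact_mod_cast hK)
    obtain ⟨y, hy⟩ : ∃ y : ℝ, y = (K : ℝ) ^ 2 := ⟨_, rfl⟩
    have e : (((2000 * K ^ 2) ^ 2 : ℕ) : ℝ) = (2000 * y) ^ 2 := by rw [hy]; push_cast; ring
    rw [e, ← hy]
    rw [← hy] at hK'
    have hl : log ((2000 * y) ^ 2) ≤ 2 * (2000 * y) := by
      rw [log_pow]
      have := log_le_sub_one_of_pos (show 0 < 2000 * y by linarith)
      push_cast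
      linarith
    have h2 : (2 * y * log ((2000 * y) ^ 2) + 2) * 4 / (2000 * y) ^ 2 ≤ 12 / 1000 := by
      rw [div_le_iff₀ (by positivity)]
      nlinarith
    refine le_trans (exp_le_exp.2 h2) ?_
    refine le_trans (Real.exp_bound_div_one_sub_of_interval (by norm_num) (by norm_num)) ?_
    norm_num

lemma count_le (a K R σ n : ℕ) (ha : 1 ≤ a) (hn : σ ^ 2 ≤ 1208 * n)
    (hσ : (1208 * 480 * a * ((K * (4 + 961 * a) + 1) * (2 * R) + 2)) ^ 2 ≤ σ) :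
    ((2 * (80 * (a * σ + 5)) + 1) ^ K + 1) ^ (2 * (80 * (a * σ + 5)) * R) *
      2 ^ (2 * (80 * (a * σ + 5))) ≤ 2 ^ n := by
  obtain ⟨D, hD⟩ : ∃ D, D = 1208 * 480 * a * ((K * (4 + 961 * a) + 1) * (2 * R) + 2) := ⟨_, rfl⟩
  rw [← hD] at hσ
  obtain ⟨ρ, hρ⟩ : ∃ ρ, ρ = Nat.sqrt σ := ⟨_, rfl⟩
  have hρD : D ≤ ρ := hρ ▸ Nat.le_sqrt'.2 hσ
  have hD1 : 1 ≤ D := by
    have : 1 ≤ (K * (4 + 961 * a) + 1) * (2 * R) + 2 := by omega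
    rw [hD]; nlinarith
  have hρ1 : 1 ≤ ρ := hD1.trans hρD
  have hρσ : ρ ^ 2 ≤ σ := hρ ▸ Nat.sqrt_le' σ
  have hσρ : σ < (ρ + 1) ^ 2 := hρ ▸ Nat.lt_succ_sqrt' σ
  have hσ1 : 1 ≤ σ := by nlinarith
  obtain ⟨U, hU⟩ : ∃ U, U = 80 * (a * σ + 5) := ⟨_, rfl⟩
  rw [← hU]
  have haσ : 1 ≤ a * σ := Nat.mul_pos ha hσ1
  have hU1 : U ≤ 480 * (a * σ) := by omega
  have h1 : 2 * U + 1 ≤ 2 ^ (ρ + 2 + 961 * a) := by
    have b1 : 961 * a ≤ 2 ^ (961 * a) := Nat.lt_two_pow_self.le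
    have b2 : σ ≤ 2 ^ (ρ + 2) := hσρ.le.trans (sq_le_two_pow _)
    calc 2 * U + 1 ≤ σ * (961 * a) := by nlinarith
      _ ≤ 2 ^ (ρ + 2) * 2 ^ (961 * a) := Nat.mul_le_mul b2 b1
      _ = _ := by rw [← pow_add]
  have h2 : (2 * U + 1) ^ K + 1 ≤ 2 ^ ((ρ + 2 + 961 * a) * K + 1) := by
    have b1 : (2 * U + 1) ^ K ≤ 2 ^ ((ρ + 2 + 961 * a) * K) := by
      rw [pow_mul]; exact Nat.pow_le_pow_left h1 K
    have b2 : 1 ≤ 2 ^ ((ρ + 2 + 961 * a) * K) := Nat.one_le_two_pow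
    rw [pow_succ]; omega
  have h3 : ((ρ + 2 + 961 * a) * K + 1) * (2 * U * R) + 2 * U ≤ n := by
    have b1 : (ρ + 2 + 961 * a) * K + 1 ≤ ρ * (K * (4 + 961 * a) + 1) := by
      have : ρ + 2 + 961 * a ≤ ρ * (4 + 961 * a) := by nlinarith
      nlinarith
    have b2 : ((ρ + 2 + 961 * a) * K + 1) * (2 * R) + 2 ≤
        ρ * ((K * (4 + 961 * a) + 1) * (2 * R) + 2) := by
      have := Nat.mul_le_mul_right (2 * R) b1
      nlinarith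
    have b3 : ((ρ + 2 + 961 * a) * K + 1) * (2 * U * R) + 2 * U =
        U * (((ρ + 2 + 961 * a) * K + 1) * (2 * R) + 2) := by ring
    have b4 : 1208 * (U * (((ρ + 2 + 961 * a) * K + 1) * (2 * R) + 2)) ≤ σ * (ρ * D) := by
      calc _ ≤ 1208 * (480 * (a * σ) * (ρ * ((K * (4 + 961 * a) + 1) * (2 * R) + 2))) :=
            Nat.mul_le_mul_left _ (Nat.mul_le_mul hU1 b2)
        _ = _ := by rw [hD]; ring
    have b5 : σ * (ρ * D) ≤ σ ^ 2 := by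
      have : ρ * D ≤ σ := (Nat.mul_le_mul_left ρ hρD).trans (by rw [← sq]; exact hρσ)
      rw [sq]; exact Nat.mul_le_mul_left σ this
    rw [b3]
    exact Nat.le_of_mul_le_mul_left ((b4.trans b5).trans hn) (by norm_num)
  calc _ ≤ (2 ^ ((ρ + 2 + 961 * a) * K + 1)) ^ (2 * U * R) * 2 ^ (2 * U) :=
        Nat.mul_le_mul_right _ (Nat.pow_le_pow_left h2 _)
    _ = 2 ^ (((ρ + 2 + 961 * a) * K + 1) * (2 * U * R) + 2 * U) := by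
        rw [← pow_mul, ← pow_add]
    _ ≤ _ := Nat.pow_le_pow_right (by norm_num) h3

theorem numerics (A : ℝ) (hA : 0 < A) : ∃ N : ℕ, ∀ m ≥ N, ∀ s : ℕ, (s : ℝ) ≤ 2 ^ (A * √m) →
    1 ≤ m / 151 ∧ ∃ (k K q U t : ℕ) (p lam : ℝ), 0 ≤ p ∧ p < 1 ∧
      ((1 + p) / (1 - p)) ^ k ≤ 2 ^ K ∧ 4 * K ≤ q ^ 2 ∧ 2 ≤ q ∧ 1 ≤ t ∧ 1 ≤ lam ∧
      ((3 ^ (m / 151) * ((2 * U + 1) ^ K + 1) ^ (2 * U * (K * q ^ (K ^ 2))) * 2 ^ (2 * U) : ℕ) : ℝ) *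
        ((2 * t : ℝ) ^ (2 * t) * (2 ^ U) ^ t +
          (2 ^ U) ^ (2 * t) * (2 ^ (m / 151) / 2 ^ (50 * (m / 151)))) < lam ^ (2 * t) ∧
      (2 * s + 1 : ℝ) * (2 * (2 ^ (m / 151) * (lam * exp (-(p * (m / 151 : ℕ) *
          (1 - exp ((2 * (K : ℝ) ^ 2 * log q + 2) * 4 / q) / 2))) +
        exp (p * (m / 151 : ℕ) / 4) * (4 / 5) ^ U))) +
        2 * s ^ 2 * 2 ^ (m / 151) / 2 ^ k < 2 ^ (m / 151) := by
  obtain ⟨a, ha1, haA⟩ : ∃ a : ℕ, 1 ≤ a ∧ A ≤ a :=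
    ⟨⌈A⌉₊, Nat.one_le_iff_ne_zero.2 (by simpa using hA), Nat.le_ceil A⟩
  obtain ⟨K, hK⟩ : ∃ K, K = 15000000 * a ^ 2 := ⟨_, rfl⟩
  have hK1 : 1 ≤ K := by rw [hK]; nlinarith
  obtain ⟨q, hq1, hq2, hq3⟩ := exists_q K hK1
  obtain ⟨R, hR⟩ : ∃ R, R = K * q ^ (K ^ 2) := ⟨_, rfl⟩
  obtain ⟨D, hD⟩ : ∃ D, D = 1208 * 480 * a * ((K * (4 + 961 * a) + 1) * (2 * R) + 2) := ⟨_, rfl⟩
  refine ⟨(D ^ 2) ^ 2 + (1000000 * a) ^ 2, fun m hm s hs => ?_⟩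
  obtain ⟨σ, hσ⟩ : ∃ σ, σ = Nat.sqrt m + 1 := ⟨_, rfl⟩
  obtain ⟨n, hn⟩ : ∃ n, n = m / 151 := ⟨_, rfl⟩
  rw [← hn]
  have hσD : D ^ 2 ≤ σ := by
    have : D ^ 2 ≤ Nat.sqrt m := Nat.le_sqrt'.2 (by omega)
    omega
  have hσa : 1000000 * a ≤ σ := by
    have : 1000000 * a ≤ Nat.sqrt m := Nat.le_sqrt'.2 (by omega)
    omega
  have hmσ : m < σ ^ 2 := hσ ▸ Nat.lt_succ_sqrt' m
  have hm1 : 1000000 ^ 2 ≤ m := by
    have : 1000000 ^ 2 ≤ (1000000 * a) ^ 2 := Nat.pow_le_pow_left (by omega) 2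
    omega
  have hσm : σ ^ 2 ≤ 4 * m := by
    have h1 : Nat.sqrt m ^ 2 ≤ m := Nat.sqrt_le' m
    have h2 : 1 ≤ Nat.sqrt m := Nat.le_sqrt'.2 (by omega)
    rw [hσ]; nlinarith
  have hmn : m ≤ 302 * n := by omega
  have hσn : σ ^ 2 ≤ 1208 * n := by omega
  have hn27 : 27 ≤ n := by omega
  have hσ1 : 1 ≤ σ := by omega
  have haσ : 1 ≤ a * σ := Nat.mul_pos ha1 hσ1
  obtain ⟨ν, hν⟩ : ∃ ν, ν = a * σ + 5 := ⟨_, rfl⟩
  have hνn : 128 * ν ≤ n := by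
    have h1 : 1000000 * a * σ ≤ σ * σ := Nat.mul_le_mul_right σ hσa
    have h2 : σ * σ = σ ^ 2 := by ring
    have h3 : 1000000 * a * σ = 1000000 * (a * σ) := by ring
    omega
  have hnR : (0 : ℝ) < n := by exact_mod_cast (by omega : 0 < n)
  have hsb : (s : ℝ) ≤ 2 ^ (a * σ) := by
    refine hs.trans ?_
    rw [← Real.rpow_natCast]
    apply Real.rpow_le_rpow_of_exponent_le (by norm_num)
    have h1 : √(m : ℝ) ≤ σ := by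
      rw [Real.sqrt_le_left (Nat.cast_nonneg _)]
      exact_mod_cast hmσ.le
    push_cast
    exact mul_le_mul haA h1 (Real.sqrt_nonneg _) (Nat.cast_nonneg _)
  have hp2 : (64 * ν / n : ℝ) ≤ 1 / 2 := by
    rw [div_le_iff₀ hnR]
    have : (128 * ν : ℝ) ≤ n := by exact_mod_cast hνn
    linarith
  have hp0 : (0 : ℝ) ≤ 64 * ν / n := by positivity
  have hν0 : 0 < 80 * ν := by omega
  obtain ⟨t, ht0, ht1, ht2⟩ : ∃ t, 1 ≤ t ∧ 41 * n < 80 * ν * t ∧ 80 * ν * t ≤ 42 * n := by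
    refine ⟨41 * n / (80 * ν) + 1, Nat.le_add_left _ _, Nat.lt_mul_div_succ _ hν0, ?_⟩
    have h1 := Nat.mul_div_le (41 * n) (80 * ν)
    have h2 : 80 * ν ≤ n := by clear * - hνn; omega
    rw [mul_add, mul_one]
    exact (Nat.add_le_add h1 h2).trans (by clear * -; omega)
  refine ⟨by omega, 2 * (a * σ) + 2, K, q, 80 * ν, t, 64 * ν / n,
    2 ^ (44 * ν), hp0, by linarith, ?_, hq1, hq2, ht0, one_le_pow₀ (by norm_num), ?_, ?_⟩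
  · apply ratio _ _ _ hp0 hp2
    have h1 : 8 * (64 * ν * (2 * (a * σ) + 2)) ≤ K * n := by
      have b1 : ν * (2 * (a * σ) + 2) ≤ 6 * (a * σ) * (4 * (a * σ)) :=
        Nat.mul_le_mul (by omega) (by omega)
      have b2 : a ^ 2 * σ ^ 2 ≤ a ^ 2 * (1208 * n) := Nat.mul_le_mul_left _ hσn
      have b3 : 6 * (a * σ) * (4 * (a * σ)) = 24 * (a ^ 2 * σ ^ 2) := by ring
      have b4 : K * n = 15000000 * (a ^ 2 * n) := by rw [hK]; ring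
      have b5 : a ^ 2 * (1208 * n) = 1208 * (a ^ 2 * n) := by ring
      have b6 : 8 * (64 * ν * (2 * (a * σ) + 2)) = 512 * (ν * (2 * (a * σ) + 2)) := by ring
      rw [b6, b4]
      rw [b3] at b1
      rw [b5] at b2
      generalize ν * (2 * (a * σ) + 2) = x at *
      generalize a ^ 2 * σ ^ 2 = y at *
      generalize a ^ 2 * n = z at *
      clear * - b1 b2
      omega
    have h2 : (8 * (64 * ν * ((2 * (a * σ) + 2 : ℕ) : ℝ)) : ℝ) ≤ K * n := by exact_mod_cast h1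
    rw [div_mul_eq_mul_div, ← mul_div_assoc, div_le_iff₀ hnR]
    exact h2
  · have hc := count_le a K R σ n ha1 hσn (hD ▸ hσD)
    rw [← hν, hR] at hc
    apply ineq1 n ν _ _ hc _ ht1 ht2 hn27
    have b1 : t ≤ n := by
      have : 80 * t ≤ 80 * ν * t := Nat.mul_le_mul_right _ (by omega)
      clear * - this ht2
      omega
    have b2 : σ ^ 2 ≤ 2 ^ (σ + 1) := sq_le_two_pow σ
    have b3 : 2 ^ (σ + 2) ≤ 2 ^ ν := Nat.pow_le_pow_right (by norm_num) (by nlinarith)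
    rw [pow_succ] at b3
    omega
  · have := ineq2 n (a * σ) s _ ((64 * ν / n : ℝ) * n) hsb hq3 (by rw [← hν]; field_simp)
    rw [← hν] at this
    exact this

end Crest.Agent.D3.NumH7
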