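import Crest.Agent.D3.BMoment
import Crest.Agent.D3.Wide
import Crest.Agent.D3.SparseH3

/-! Choice of a seed that fools all `k`-CNFs. -/

set_option autoImplicit false

namespace Crest.Agent.D3.H8

open Finset

lemma fb_count {α : Type} [DecidableEq α] (U : Finset α) (k : ℕ) :
    (U.powerset.filter fun A => A.card ≤ k).card ≤ (U.card + 1) ^ k := by
  have h1 : (Fintype.piFinset fun _ : Fin k => insertNone U).card = (U.card + 1) ^ k := by simp
  rw [← h1]
  refine le_trans (card_le_card ?_) (card_image_le (f := fun f => eraseNone (univ.image f)))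
  intro A hA
  obtain ⟨hA1, hA2⟩ := mem_filter.1 hA
  rw [mem_powerset] at hA1
  let e := A.equivFin
  refine mem_image.2 ⟨fun j => if h : j.1 < A.card then some (e.symm ⟨j.1, h⟩).1 else none,
    Fintype.mem_piFinset.2 fun j => ?_, ?_⟩
  · split_ifs with h
    · exact some_mem_insertNone.2 (hA1 (e.symm ⟨j.1, h⟩).2)
    · exact none_mem_insertNone
  · ext a
    simp only [mem_eraseNone, mem_image, mem_univ, true_and]
    constructor
    · rintro ⟨j, hj⟩
      split_ifs at hj with h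
      rw [← Option.some.inj hj]
      exact (e.symm ⟨j.1, h⟩).2
    · intro ha
      refine ⟨Fin.castLE hA2 (e ⟨a, ha⟩), ?_⟩
      simp only [Fin.val_castLE]
      rw [dif_pos (Fin.is_lt _)]
      simp

lemma fb_card_lit {n : ℕ} (ρ : Fin n → Option Bool) :
    Fintype.card {l : Fin n × Bool // ρ l.1 = none} = 2 * (univ.filter fun i => ρ i = none).card := by
  rw [Fintype.card_subtype]
  have : (univ.filter fun l : Fin n × Bool => ρ l.1 = none) =
      (univ.filter fun i => ρ i = none) ×ˢ (univ : Finset Bool) := by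
    ext l; simp
  rw [this, card_product, mul_comm]; simp

lemma fb_card_fibre {n : ℕ} (ρ : Fin n → Option Bool) :
    (univ.filter fun x : Fin n → Bool => ∀ i b, ρ i = some b → x i = b).card ≤
      2 ^ (univ.filter fun i => ρ i = none).card := by
  have h1 : (univ : Finset ({i // ρ i = none} → Bool)).card =
      2 ^ (univ.filter fun i => ρ i = none).card := by
    simp [Fintype.card_subtype]
  rw [← h1]
  refine card_le_card_of_injOn (fun x i => x i.1) (fun _ _ => mem_coe.2 (mem_univ _)) ?_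
  intro x hx y hy hxy
  have hx' := (mem_filter.1 (mem_coe.1 hx)).2
  have hy' := (mem_filter.1 (mem_coe.1 hy)).2
  funext i
  cases h : ρ i with
  | none => exact congrFun hxy ⟨i, h⟩
  | some b => rw [hx' i b h, hy' i b h]

lemma wsum (n : ℕ) (p θ : ℝ) :
    ∑ ρ : Fin n → Option Bool, (∏ i, if ρ i = none then p else 1 - p) *
      θ ^ (univ.filter fun i => ρ i = none).card = (p * θ + 2 * (1 - p)) ^ n := by
  have h1 : ∀ ρ : Fin n → Option Bool, (∏ i, if ρ i = none then p else 1 - p) *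
      θ ^ (univ.filter fun i => ρ i = none).card =
      ∏ i, (if ρ i = none then p * θ else 1 - p) := by
    intro ρ
    rw [← prod_const, prod_filter, ← prod_mul_distrib]
    refine prod_congr rfl fun i _ => ?_
    split_ifs <;> simp
  simp only [h1]
  have h2 := prod_univ_sum (fun _ : Fin n => (univ : Finset (Option Bool)))
    (fun _ o => if o = none then p * θ else 1 - p)
  rw [Fintype.piFinset_univ] at h2
  rw [← h2, prod_const, card_univ, Fintype.card_fin, Fintype.sum_option, Fintype.sum_bool]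
  simp only [if_true, reduceCtorEq, if_false]
  ring

lemma weight (n U : ℕ) (p lam e : ℝ) (hp0 : 0 ≤ p) (hp1 : p < 1) (hlam : 0 ≤ lam) :
    ∑ ρ : Fin n → Option Bool, (∏ i, if ρ i = none then p else 1 - p) *
      (if (univ.filter fun i => ρ i = none).card ≤ U then
        lam * Real.exp (e * (univ.filter fun i => ρ i = none).card)
        else 2 ^ (univ.filter fun i => ρ i = none).card) ≤
      2 ^ n * (lam * Real.exp (-(p * n * (1 - Real.exp e / 2))) +
        Real.exp (p * n / 4) * (4 / 5) ^ U) := by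
  have h1 : ∀ u : ℕ, (if u ≤ U then lam * Real.exp (e * u) else 2 ^ u) ≤
      lam * Real.exp e ^ u + (4 / 5) ^ U * (5 / 2) ^ u := by
    intro u
    split_ifs with h
    · rw [mul_comm e, Real.exp_nat_mul]
      have : (0 : ℝ) ≤ (4 / 5) ^ U * (5 / 2) ^ u := by positivity
      linarith
    · have h2 : (0 : ℝ) ≤ lam * Real.exp e ^ u := by positivity
      have h3 : ((4 : ℝ) / 5) ^ u ≤ (4 / 5) ^ U :=
        pow_le_pow_of_le_one (by norm_num) (by norm_num) (by omega)
      have h4 : (2 : ℝ) ^ u = (4 / 5) ^ u * (5 / 2) ^ u := by rw [← mul_pow]; norm_num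
      have h5 : ((4 : ℝ) / 5) ^ u * (5 / 2) ^ u ≤ (4 / 5) ^ U * (5 / 2) ^ u := by gcongr
      linarith
  have hw : ∀ ρ : Fin n → Option Bool, 0 ≤ ∏ i, if ρ i = none then p else 1 - p :=
    fun ρ => prod_nonneg fun i _ => by split_ifs <;> linarith
  refine (sum_le_sum fun ρ _ => mul_le_mul_of_nonneg_left (h1 _) (hw ρ)).trans ?_
  simp only [mul_add, sum_add_distrib, mul_left_comm _ lam, mul_left_comm _ (((4 : ℝ) / 5) ^ U)]
  rw [← mul_sum, ← mul_sum, wsum, wsum]
  have hE := Real.exp_pos e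
  have h2 : (p * Real.exp e + 2 * (1 - p)) ^ n ≤
      2 ^ n * Real.exp (-(p * n * (1 - Real.exp e / 2))) := by
    have : -(p * n * (1 - Real.exp e / 2)) = n * (-(p * (1 - Real.exp e / 2))) := by ring
    rw [this, Real.exp_nat_mul, ← mul_pow]
    refine pow_le_pow_left₀ (by nlinarith) ?_ _
    have := Real.add_one_le_exp (-(p * (1 - Real.exp e / 2)))
    linarith
  have h3 : (p * (5 / 2) + 2 * (1 - p)) ^ n ≤ 2 ^ n * Real.exp (p * n / 4) := by
    have : p * n / 4 = n * (p / 4) := by ring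
    rw [this, Real.exp_nat_mul, ← mul_pow]
    refine pow_le_pow_left₀ (by nlinarith) ?_ _
    have := Real.add_one_le_exp (p / 4)
    linarith
  have h4 := mul_le_mul_of_nonneg_left h2 hlam
  have h5 := mul_le_mul_of_nonneg_left h3 (by positivity : (0 : ℝ) ≤ (4 / 5) ^ U)
  nlinarith

open Classical in
theorem fibre {n : ℕ} {Ω : Type} [Fintype Ω] [Nonempty Ω] (g : Ω → (Fin n → Bool) → Bool) (ε : ℝ)
    (hε : 0 ≤ ε) (hb : ∀ T : Finset (Fin n → Bool), T.Nonempty →
      |∑ ω, ∏ x ∈ T, (if g ω x then (-1 : ℝ) else 1)| ≤ Fintype.card Ω * ε)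
    (K q U t : ℕ) (hq : 4 * K ≤ q ^ 2) (hq2 : 2 ≤ q) (ht : 1 ≤ t) (lam : ℝ) (hlam : 0 ≤ lam)
    (hnum : ((3 ^ n * ((2 * U + 1) ^ K + 1) ^ (2 * U * (K * q ^ (K ^ 2))) * 2 ^ (2 * U) : ℕ) : ℝ) *
      ((2 * t : ℝ) ^ (2 * t) * (2 ^ U) ^ t + (2 ^ U) ^ (2 * t) * ε) < lam ^ (2 * t)) :
    ∃ ω, ∀ ρ : Fin n → Option Bool,
      ∀ S : Finset (Finset {l : Fin n × Bool // ρ l.1 = none}), (∀ C ∈ S, C.card ≤ K) →
        |∑ x : Fin n → Bool with ((∀ i b, ρ i = some b → x i = b) ∧
            ∀ C ∈ S, ∃ l ∈ C, x l.1.1 = l.1.2), (if g ω x then (-1 : ℝ) else 1)| ≤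
          (if (univ.filter fun i => ρ i = none).card ≤ U then
            lam * Real.exp ((2 * K ^ 2 * Real.log q + 2) * 4 / q *
              (univ.filter fun i => ρ i = none).card)
            else 2 ^ (univ.filter fun i => ρ i = none).card) := by
  let u : (Fin n → Option Bool) → ℕ := fun ρ => (univ.filter fun i => ρ i = none).card
  let L : (Fin n → Option Bool) → Type := fun ρ => {l : Fin n × Bool // ρ l.1 = none}
  let m : ℕ := 2 * U * (K * q ^ (K ^ 2))
  let W : ∀ ρ : Fin n → Option Bool, Finset (Finset (Finset (L ρ)) × Finset (L ρ)) := fun ρ =>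
    ((((univ : Finset (L ρ)).powerset.filter fun A => A.card ≤ K).powerset.filter
      fun A => A.card ≤ m) ×ˢ univ)
  let fam : Finset (Σ ρ : Fin n → Option Bool, Finset (Finset (L ρ)) × Finset (L ρ)) :=
    (univ.filter fun ρ => u ρ ≤ U).sigma W
  have hfam : fam.card ≤ 3 ^ n * ((2 * U + 1) ^ K + 1) ^ m * 2 ^ (2 * U) := by
    rw [card_sigma]
    refine (sum_le_card_nsmul _ _ (((2 * U + 1) ^ K + 1) ^ m * 2 ^ (2 * U)) fun ρ hρ => ?_).trans
      ?_
    · have h1 : u ρ ≤ U := (mem_filter.1 hρ).2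
      have h2 : Fintype.card (L ρ) = 2 * u ρ := fb_card_lit ρ
      rw [card_product]
      refine Nat.mul_le_mul ((fb_count _ _).trans ?_) ?_
      · have h3 := fb_count (univ : Finset (L ρ)) K
        rw [card_univ, h2] at h3
        have h4 : (2 * u ρ + 1) ^ K ≤ (2 * U + 1) ^ K := Nat.pow_le_pow_left (by omega) _
        exact Nat.pow_le_pow_left (by omega) _
      · rw [card_univ, Fintype.card_finset, h2]
        exact Nat.pow_le_pow_right (by norm_num) (by omega)
    · rw [smul_eq_mul, mul_assoc]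
      refine Nat.mul_le_mul_right _ ((card_filter_le _ _).trans ?_)
      simp
  obtain ⟨ω, hω⟩ := bunion g ε hε hb t ht fam
    (fun j => univ.filter fun x : Fin n → Bool => (∀ i b, j.1 i = some b → x i = b) ∧
      (∀ C ∈ j.2.1, ∃ l ∈ C, x l.1.1 = l.1.2) ∧ ∀ l ∈ j.2.2, x l.1.1 ≠ l.1.2)
    (2 ^ U)
    (fun j hj => by
      have h1 := fb_card_fibre j.1
      have h2 : (univ.filter fun x : Fin n → Bool => (∀ i b, j.1 i = some b → x i = b) ∧
          (∀ C ∈ j.2.1, ∃ l ∈ C, x l.1.1 = l.1.2) ∧ ∀ l ∈ j.2.2, x l.1.1 ≠ l.1.2).card ≤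
          (univ.filter fun x : Fin n → Bool => ∀ i b, j.1 i = some b → x i = b).card :=
        card_le_card fun x hx => mem_filter.2 ⟨mem_univ _, (mem_filter.1 hx).2.1⟩
      have h3 : 2 ^ u j.1 ≤ 2 ^ U :=
        Nat.pow_le_pow_right (by norm_num) (mem_filter.1 (mem_sigma.1 hj).1).2
      exact_mod_cast (h2.trans h1).trans h3) lam hlam
    (by
      refine lt_of_le_of_lt ?_ hnum
      refine mul_le_mul (by exact_mod_cast hfam) ?_ (by positivity) (by positivity)
      have h1 : (t : ℝ) ^ (2 * t) ≤ (2 * t : ℝ) ^ (2 * t) :=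
        pow_le_pow_left₀ (by positivity) (by linarith [(Nat.cast_nonneg t : (0 : ℝ) ≤ t)]) _
      have h2 : ((2 : ℝ) ^ U) ^ t * t ^ (2 * t) ≤ (2 * t : ℝ) ^ (2 * t) * (2 ^ U) ^ t := by
        rw [mul_comm]; gcongr
      linarith)
  refine ⟨ω, fun ρ S hS => ?_⟩
  split_ifs with h1
  swap
  · refine (abs_sum_le_sum_abs _ _).trans ?_
    refine (sum_le_card_nsmul _ _ 1 fun x _ => by split_ifs <;> simp).trans ?_
    rw [nsmul_eq_mul, mul_one]
    have h2 : (univ.filter fun x : Fin n → Bool => (∀ i b, ρ i = some b → x i = b) ∧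
        (∀ C ∈ S, ∃ l ∈ C, x l.1.1 = l.1.2)).card ≤
        (univ.filter fun x : Fin n → Bool => ∀ i b, ρ i = some b → x i = b).card :=
      card_le_card fun x hx => mem_filter.2 ⟨mem_univ _, (mem_filter.1 hx).2.1⟩
    exact_mod_cast h2.trans (fb_card_fibre ρ)
  have hL : Fintype.card (L ρ) = 2 * u ρ := fb_card_lit ρ
  have key := @sparsify (L ρ) (Fin n → Bool) _ _ _ (fun x => univ.filter fun l => x l.1.1 = l.1.2)
    (fun x => if (∀ i b, ρ i = some b → x i = b) then (if g ω x then (-1 : ℝ) else 1) else 0)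
    K q hq hq2 lam (by
      intro S' Z hS' hc
      have h2 := hω ⟨ρ, S', Z⟩ (mem_sigma.2 ⟨mem_filter.2 ⟨mem_univ _, h1⟩, mem_product.2
        ⟨mem_filter.2 ⟨mem_powerset.2 fun C hC =>
          mem_filter.2 ⟨mem_powerset.2 (subset_univ _), hS' C hC⟩,
          hc.trans (by rw [hL]; exact Nat.mul_le_mul_right _ (by change u ρ ≤ U at h1; omega))⟩,
          mem_univ _⟩⟩)
      refine le_of_eq_of_le ?_ h2
      congr 1
      rw [← sum_filter, filter_filter]
      refine sum_congr ?_ fun _ _ => rfl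
      ext x
      simp only [mem_filter, mem_univ, true_and]
      tauto) S hS
  refine le_trans (le_of_eq ?_) (key.trans (le_of_eq ?_))
  · congr 1
    rw [← sum_filter, filter_filter]
    refine sum_congr ?_ fun _ _ => rfl
    ext x
    simp only [mem_filter, mem_univ, true_and]
    tauto
  · rw [hL]
    congr 2
    push_cast
    simp only [u]
    ring

open Classical in
/-- One seed fools all `k`-CNFs. -/
theorem seed {n : ℕ} {Ω : Type} [Fintype Ω] [Nonempty Ω] (g : Ω → (Fin n → Bool) → Bool) (ε : ℝ)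
    (hε : 0 ≤ ε) (hb : ∀ T : Finset (Fin n → Bool), T.Nonempty →
      |∑ ω, ∏ x ∈ T, (if g ω x then (-1 : ℝ) else 1)| ≤ Fintype.card Ω * ε)
    (k K q U t : ℕ) (p lam : ℝ) (hp0 : 0 ≤ p) (hp1 : p < 1)
    (hδ : ((1 + p) / (1 - p)) ^ k ≤ 2 ^ K)
    (hq : 4 * K ≤ q ^ 2) (hq2 : 2 ≤ q) (ht : 1 ≤ t) (hlam : 0 ≤ lam)
    (hnum : ((3 ^ n * ((2 * U + 1) ^ K + 1) ^ (2 * U * (K * q ^ (K ^ 2))) * 2 ^ (2 * U) : ℕ) : ℝ) *
      ((2 * t : ℝ) ^ (2 * t) * (2 ^ U) ^ t + (2 ^ U) ^ (2 * t) * ε) < lam ^ (2 * t)) :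
    ∃ ω, ∀ φ : Finset (Finset (Fin n × Bool)), (∀ D ∈ φ, D.card ≤ k) →
      |∑ x : Fin n → Bool with (∀ D ∈ φ, ∃ l ∈ D, x l.1 = l.2), (if g ω x then (-1 : ℝ) else 1)| ≤
        2 * (2 ^ n * (lam * Real.exp (-(p * n *
          (1 - Real.exp ((2 * K ^ 2 * Real.log q + 2) * 4 / q) / 2))) +
          Real.exp (p * n / 4) * (4 / 5) ^ U)) := by
  obtain ⟨ω, hω⟩ := fibre g ε hε hb K q U t hq hq2 ht lam hlam hnum
  refine ⟨ω, fun φ hφ => ?_⟩
  have h1 := wide (fun x => if g ω x then (-1 : ℝ) else 1) φ k K hφ p hp0 hp1 hδ _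
    (fun ρ S hS => by convert hω ρ S hS)
  have h2 := weight n U p lam ((2 * K ^ 2 * Real.log q + 2) * 4 / q) hp0 hp1 hlam
  refine le_trans (by convert h1) (mul_le_mul_of_nonneg_left h2 (by norm_num))

end Crest.Agent.D3.H8
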