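import Mathlib
import Crest.Agent.D3.SparseH3
import Crest.Agent.D3.Wide

/-! Test families, fibre bound and weight sum for the depth-three lower bound. -/

namespace Crest.Agent.D3

open Finset

namespace Ts

lemma card_small {α : Type} [DecidableEq α] (A : Finset α) (R : ℕ) :
    (A.powerset.filter (fun S => S.card ≤ R)).card ≤ (A.card + 1) ^ R := by
  induction R with
  | zero =>
    rw [pow_zero]
    refine card_le_one.2 fun a ha b hb => ?_
    have h1 := (mem_filter.1 ha).2
    have h2 := (mem_filter.1 hb).2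
    rw [Nat.le_zero, card_eq_zero] at h1 h2
    rw [h1, h2]
  | succ R ih =>
    set T := A.powerset.filter (fun S => S.card ≤ R) with hT
    have hsub : A.powerset.filter (fun S => S.card ≤ R + 1) ⊆
        T ∪ (A ×ˢ T).image (fun p => insert p.1 p.2) := by
      intro S hS
      obtain ⟨hSA, hSc⟩ := mem_filter.1 hS
      rw [mem_powerset] at hSA
      by_cases h : S.card ≤ R
      · exact mem_union_left _ (mem_filter.2 ⟨mem_powerset.2 hSA, h⟩)
      · have hne : S.Nonempty := card_pos.1 (by omega)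
        obtain ⟨a, ha⟩ := hne
        refine mem_union_right _ (mem_image.2 ⟨(a, S.erase a), mem_product.2 ⟨hSA ha, ?_⟩, ?_⟩)
        · refine mem_filter.2 ⟨mem_powerset.2 ((erase_subset _ _).trans hSA), ?_⟩
          rw [card_erase_of_mem ha]; omega
        · exact insert_erase ha
    calc _ ≤ (T ∪ (A ×ˢ T).image (fun p => insert p.1 p.2)).card := card_le_card hsub
      _ ≤ T.card + ((A ×ˢ T).image (fun p => insert p.1 p.2)).card := card_union_le _ _
      _ ≤ T.card + A.card * T.card := by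
          have := card_image_le (s := A ×ˢ T) (f := fun p : α × Finset α => insert p.1 p.2)
          rw [card_product] at this; omega
      _ = (A.card + 1) * T.card := by ring
      _ ≤ (A.card + 1) * (A.card + 1) ^ R := Nat.mul_le_mul_left _ ih
      _ = (A.card + 1) ^ (R + 1) := by ring

variable {ι : Type} [Fintype ι] [DecidableEq ι]

/-- number of free variables of a restriction -/
def free (ρ : ι → Option Bool) : ℕ := (univ.filter (fun i => ρ i = none)).card

open Classical in
/-- the test set: points of the fibre satisfying `S` with the literals of `Z` false -/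
noncomputable def tset (ρ : ι → Option Bool) (S : Finset (Finset {l : ι × Bool // ρ l.1 = none}))
    (Z : Finset {l : ι × Bool // ρ l.1 = none}) : Finset (ι → Bool) :=
  univ.filter (fun x => (∀ i b, ρ i = some b → x i = b) ∧ (∀ C ∈ S, ∃ l ∈ C, x l.1.1 = l.1.2) ∧
    ∀ l ∈ Z, x l.1.1 ≠ l.1.2)

lemma card_lit (ρ : ι → Option Bool) :
    Fintype.card {l : ι × Bool // ρ l.1 = none} = 2 * free ρ := by
  have e : {l : ι × Bool // ρ l.1 = none} ≃ {i : ι // ρ i = none} × Bool :=
    { toFun := fun l => (⟨l.1.1, l.2⟩, l.1.2)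
      invFun := fun p => ⟨(p.1.1, p.2), p.1.2⟩
      left_inv := fun l => rfl
      right_inv := fun p => rfl }
  rw [Fintype.card_congr e, Fintype.card_prod, Fintype.card_bool, Fintype.card_subtype, free,
    mul_comm]

lemma card_fib (ρ : ι → Option Bool) (A : Finset (ι → Bool))
    (hA : ∀ x ∈ A, ∀ i b, ρ i = some b → x i = b) : A.card ≤ 2 ^ free ρ := by
  have h1 : A.card ≤ (univ : Finset ({i : ι // ρ i = none} → Bool)).card := by
    refine card_le_card_of_injOn (fun x i => x i.1) (fun _ _ => mem_coe.2 (mem_univ _)) ?_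
    intro x hx y hy hxy
    funext i
    cases hρ : ρ i with
    | none => exact congrFun hxy ⟨i, hρ⟩
    | some b => rw [hA x hx i b hρ, hA y hy i b hρ]
  rwa [card_univ, Fintype.card_fun, Fintype.card_bool, Fintype.card_subtype] at h1

theorem tests (K R U : ℕ) : ∃ T : Finset (Finset (ι → Bool)),
    T.card ≤ 3 ^ Fintype.card ι * (((2 * U + 1) ^ K + 1) ^ R * 2 ^ (2 * U)) ∧
    (∀ A ∈ T, A.card ≤ 2 ^ U) ∧
    ∀ ρ : ι → Option Bool, free ρ ≤ U → ∀ S Z, (∀ C ∈ S, C.card ≤ K) → S.card ≤ R →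
      tset ρ S Z ∈ T := by
  classical
  let N : (ρ : ι → Option Bool) → Finset (Finset {l : ι × Bool // ρ l.1 = none}) := fun ρ =>
    (univ : Finset {l : ι × Bool // ρ l.1 = none}).powerset.filter (fun C => C.card ≤ K)
  let F : (ρ : ι → Option Bool) → Finset (Finset (Finset {l : ι × Bool // ρ l.1 = none})) :=
    fun ρ => (N ρ).powerset.filter (fun S => S.card ≤ R)
  refine ⟨(univ.filter (fun ρ : ι → Option Bool => free ρ ≤ U)).biUnion (fun ρ =>
    (F ρ ×ˢ (univ : Finset (Finset {l : ι × Bool // ρ l.1 = none}))).image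
      (fun p => tset ρ p.1 p.2)), ?_, ?_, ?_⟩
  · refine (card_biUnion_le_card_mul _ _ (((2 * U + 1) ^ K + 1) ^ R * 2 ^ (2 * U)) ?_).trans ?_
    · intro ρ hρ
      have hU := (mem_filter.1 hρ).2
      refine card_image_le.trans ?_
      rw [card_product]
      refine Nat.mul_le_mul ?_ ?_
      · refine (card_small _ _).trans (Nat.pow_le_pow_left ?_ _)
        refine Nat.add_le_add_right ((card_small _ _).trans (Nat.pow_le_pow_left ?_ _)) 1
        rw [card_univ, card_lit]; omega
      · rw [card_univ, Fintype.card_finset, card_lit]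
        exact Nat.pow_le_pow_right (by norm_num) (by omega)
    · refine Nat.mul_le_mul_right _ ((card_filter_le _ _).trans ?_)
      rw [card_univ, Fintype.card_fun, Fintype.card_option, Fintype.card_bool]
  · intro A hA
    obtain ⟨ρ, hρ, hA⟩ := mem_biUnion.1 hA
    obtain ⟨p, _, rfl⟩ := mem_image.1 hA
    refine (card_fib ρ _ fun x hx => ?_).trans
      (Nat.pow_le_pow_right (by norm_num) (mem_filter.1 hρ).2)
    exact (mem_filter.1 hx).2.1
  · intro ρ hρ S Z hS hR
    refine mem_biUnion.2 ⟨ρ, mem_filter.2 ⟨mem_univ _, hρ⟩, mem_image.2 ⟨(S, Z), ?_, rfl⟩⟩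
    refine mem_product.2 ⟨mem_filter.2 ⟨mem_powerset.2 fun C hC => ?_, hR⟩, mem_univ _⟩
    exact mem_filter.2 ⟨mem_powerset.2 (subset_univ _), hS C hC⟩

open Classical in
theorem fibre (h : (ι → Bool) → ℝ) (hh : ∀ x, |h x| ≤ 1) (K q U : ℕ) (hq : 4 * K ≤ q ^ 2)
    (hq2 : 2 ≤ q) (lam : ℝ)
    (hT : ∀ ρ : ι → Option Bool, free ρ ≤ U → ∀ S Z, (∀ C ∈ S, C.card ≤ K) →
      S.card ≤ 2 * U * (K * q ^ (K ^ 2)) → |∑ x ∈ tset ρ S Z, h x| ≤ lam)
    (ρ : ι → Option Bool) (S : Finset (Finset {l : ι × Bool // ρ l.1 = none}))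
    (hS : ∀ C ∈ S, C.card ≤ K) :
    |∑ x : ι → Bool with ((∀ i b, ρ i = some b → x i = b) ∧ ∀ C ∈ S, ∃ l ∈ C, x l.1.1 = l.1.2),
        h x| ≤
      if free ρ ≤ U then lam * Real.exp ((2 * K ^ 2 * Real.log q + 2) * 4 / q * free ρ)
      else 2 ^ free ρ := by
  split_ifs with hU
  · have key := sparsify (L := {l : ι × Bool // ρ l.1 = none}) (Y := ι → Bool)
      (fun y => univ.filter (fun l => y l.1.1 = l.1.2))
      (fun y => if (∀ i b, ρ i = some b → y i = b) then h y else 0) K q hq hq2 lam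
      (fun S Z hS hc => by
        have := hT ρ hU S Z hS (hc.trans (Nat.mul_le_mul_right _ (by rw [card_lit]; omega)))
        convert this using 2
        rw [tset, sum_filter, sum_filter]
        refine sum_congr rfl fun x _ => ?_
        simp only [mem_filter, mem_univ, true_and, ne_eq]
        by_cases h1 : (∀ i b, ρ i = some b → x i = b)
        · rw [if_pos h1]
          split_ifs with h2 h3 h3
          · rfl
          · exact absurd ⟨h1, h2⟩ h3
          · exact absurd h3.2 h2
          · rfl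
        · rw [if_neg h1, ite_self, if_neg (fun h2 => h1 h2.1)]) S hS
    convert key using 2
    · rw [sum_filter, sum_filter]
      refine sum_congr rfl fun x _ => ?_
      simp only [mem_filter, mem_univ, true_and]
      by_cases h1 : (∀ i b, ρ i = some b → x i = b)
      · rw [if_pos h1]
        exact if_congr (and_iff_right h1) rfl rfl
      · rw [if_neg h1, ite_self, if_neg (fun h2 => h1 h2.1)]
    · rw [card_lit]; push_cast; congr 1; ring
  · refine (abs_sum_le_sum_abs _ _).trans ?_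
    refine (sum_le_sum fun x _ => hh x).trans ?_
    rw [sum_const, nsmul_eq_mul, mul_one]
    have := card_fib ρ (univ.filter (fun x : ι → Bool => ((∀ i b, ρ i = some b → x i = b) ∧
      ∀ C ∈ S, ∃ l ∈ C, x l.1.1 = l.1.2))) fun x hx => (mem_filter.1 hx).2.1
    exact_mod_cast this

lemma wsum (p a : ℝ) :
    ∑ ρ : ι → Option Bool, (∏ i, if ρ i = none then p else 1 - p) * a ^ free ρ =
      (p * a + 2 * (1 - p)) ^ Fintype.card ι := by
  have h1 : ∀ ρ : ι → Option Bool, (∏ i, if ρ i = none then p else 1 - p) * a ^ free ρ =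
      ∏ i, (if ρ i = none then p * a else 1 - p) := by
    intro ρ
    have : a ^ free ρ = ∏ i, if ρ i = none then a else 1 := by
      rw [prod_ite, prod_const, prod_const_one, mul_one, free]
    rw [this, ← prod_mul_distrib]
    refine prod_congr rfl fun i _ => ?_
    split_ifs <;> ring
  simp_rw [h1]
  have h2 := Finset.prod_univ_sum (fun _ : ι => (univ : Finset (Option Bool)))
    (fun _ o => if o = none then p * a else 1 - p)
  rw [Fintype.piFinset_univ] at h2
  rw [← h2, prod_const, card_univ]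
  congr 1
  rw [Fintype.sum_option]
  simp
  ring

theorem weight (p : ℝ) (hp0 : 0 ≤ p) (hp1 : p ≤ 1) (U : ℕ) (lam e : ℝ) (hlam : 0 ≤ lam) :
    ∑ ρ : ι → Option Bool, (∏ i, if ρ i = none then p else 1 - p) *
        (if free ρ ≤ U then lam * Real.exp (e * free ρ) else 2 ^ free ρ) ≤
      2 ^ Fintype.card ι * (lam * Real.exp (-(p * Fintype.card ι * (1 - Real.exp e / 2))) +
        Real.exp (p * Fintype.card ι / 4) * (4 / 5) ^ U) := by
  have hw : ∀ ρ : ι → Option Bool, 0 ≤ ∏ i, if ρ i = none then p else 1 - p := fun ρ =>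
    prod_nonneg fun i _ => by split_ifs <;> linarith
  have h1 : ∀ ρ : ι → Option Bool,
      (if free ρ ≤ U then lam * Real.exp (e * free ρ) else (2 : ℝ) ^ free ρ) ≤
        lam * Real.exp e ^ free ρ + (4 / 5) ^ U * (5 / 2) ^ free ρ := by
    intro ρ
    split_ifs with hU
    · rw [mul_comm e, Real.exp_nat_mul]
      have : (0 : ℝ) ≤ (4 / 5) ^ U * (5 / 2) ^ free ρ := by positivity
      linarith
    · obtain ⟨d, hd⟩ := Nat.exists_eq_add_of_le (not_le.1 hU).le
      have h2 : (2 : ℝ) ^ free ρ ≤ (4 / 5) ^ U * (5 / 2) ^ free ρ := by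
        rw [hd, pow_add, pow_add, ← mul_assoc, ← mul_pow]
        norm_num
        exact pow_le_pow_left₀ (by norm_num) (by norm_num) _
      have : 0 ≤ lam * Real.exp e ^ free ρ := by positivity
      linarith
  refine (sum_le_sum fun ρ _ => mul_le_mul_of_nonneg_left (h1 ρ) (hw ρ)).trans ?_
  have h3 : ∀ ρ : ι → Option Bool, (∏ i, if ρ i = none then p else 1 - p) *
      (lam * Real.exp e ^ free ρ + (4 / 5) ^ U * (5 / 2) ^ free ρ) =
      lam * ((∏ i, if ρ i = none then p else 1 - p) * Real.exp e ^ free ρ) +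
      (4 / 5) ^ U * ((∏ i, if ρ i = none then p else 1 - p) * (5 / 2) ^ free ρ) := fun ρ => by ring
  simp_rw [h3]
  rw [sum_add_distrib, ← mul_sum, ← mul_sum, wsum, wsum]
  set n := Fintype.card ι
  have he := Real.exp_pos e
  have h4 : (p * Real.exp e + 2 * (1 - p)) ^ n ≤
      2 ^ n * Real.exp (-(p * n * (1 - Real.exp e / 2))) := by
    have : -(p * n * (1 - Real.exp e / 2)) = n * (-(p * (1 - Real.exp e / 2))) := by ring
    rw [this, Real.exp_nat_mul, ← mul_pow]
    refine pow_le_pow_left₀ (by nlinarith [mul_nonneg hp0 he.le]) ?_ _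
    have := Real.add_one_le_exp (-(p * (1 - Real.exp e / 2)))
    linarith
  have h5 : (p * (5 / 2) + 2 * (1 - p)) ^ n ≤ 2 ^ n * Real.exp (p * n / 4) := by
    have : p * n / 4 = n * (p / 4) := by ring
    rw [this, Real.exp_nat_mul, ← mul_pow]
    refine pow_le_pow_left₀ (by linarith) ?_ _
    have := Real.add_one_le_exp (p / 4)
    linarith
  have h6 := mul_le_mul_of_nonneg_left h4 hlam
  have h7 := mul_le_mul_of_nonneg_left h5 (show (0 : ℝ) ≤ (4 / 5) ^ U by positivity)
  linarith

end Ts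

open Ts

variable {ι : Type} [Fintype ι] [DecidableEq ι]

open Classical in
theorem cnf_bound (K q U k : ℕ) (hq : 4 * K ≤ q ^ 2) (hq2 : 2 ≤ q) (p : ℝ) (hp0 : 0 ≤ p)
    (hp1 : p < 1) (hδ : ((1 + p) / (1 - p)) ^ k ≤ 2 ^ K) :
    ∃ T : Finset (Finset (ι → Bool)),
      T.card ≤ 3 ^ Fintype.card ι *
        ((2 * U + 1) ^ K + 1) ^ (2 * U * (K * q ^ (K ^ 2))) * 2 ^ (2 * U) ∧
      (∀ A ∈ T, A.card ≤ 2 ^ U) ∧
      ∀ (h : (ι → Bool) → ℝ) (lam : ℝ), (∀ x, |h x| ≤ 1) → 0 ≤ lam →
        (∀ A ∈ T, |∑ x ∈ A, h x| ≤ lam) →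
        ∀ φ : Finset (Finset (ι × Bool)), (∀ C ∈ φ, C.card ≤ k) →
          |∑ x : ι → Bool with (∀ C ∈ φ, ∃ l ∈ C, x l.1 = l.2), h x| ≤
            2 * (2 ^ Fintype.card ι * (lam * Real.exp (-(p * Fintype.card ι *
              (1 - Real.exp ((2 * K ^ 2 * Real.log q + 2) * 4 / q) / 2))) +
              Real.exp (p * Fintype.card ι / 4) * (4 / 5) ^ U)) := by
  obtain ⟨T, h1, h2, h3⟩ := tests (ι := ι) K (2 * U * (K * q ^ (K ^ 2))) U
  refine ⟨T, by rw [mul_assoc]; exact h1, h2, fun h lam hh hlam hT φ hφ => ?_⟩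
  have key := wide h φ k K hφ p hp0 hp1 hδ
    (fun ρ => if free ρ ≤ U then lam * Real.exp ((2 * K ^ 2 * Real.log q + 2) * 4 / q * free ρ)
      else 2 ^ free ρ)
    (fun ρ S hS => by
      have := fibre h hh K q U hq hq2 lam (fun ρ hρ S Z hS hR => hT _ (h3 ρ hρ S Z hS hR)) ρ S hS
      convert this)
  refine le_trans (by convert key) ?_
  have := weight (ι := ι) p hp0 hp1.le U lam ((2 * K ^ 2 * Real.log q + 2) * 4 / q) hlam
  refine mul_le_mul_of_nonneg_left ?_ (by norm_num)
  convert this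

end Crest.Agent.D3
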